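import Vale.Agent.P269.Holo.Proper
import Vale.Agent.P269.Defs.Orb
import Vale.Agent.P269.Orb.Defs

/-!
# The bridge between formulas `act` on a set `S` and group actions; charts and slices
-/

namespace Vale.Agent.P269.Holo

open Set Function Topology Filter

set_option linter.unusedSectionVars false

theorem isSlice_iff {G T A : Type} [Group G] [TopologicalSpace G] [MulAction G T]
    [TopologicalSpace T] [NormedAddCommGroup A] [NormedSpace ℂ A] {ι : T → A} {n : ℕ}
    {φ : (Fin n → ℂ) → T} : Orb.IsSlice G ι φ ↔ IsSl G ι φ 0 := Iff.rfl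

variable {A W : Type} [NormedRing A] [NormedAlgebra ℂ A] [NormedAddCommGroup W] [NormedSpace ℂ W]

/-- The formula `act` defines a holomorphic action of the unit group on `S`. -/
class IsAct (act : A → W → W) (S : Set W) : Prop where
  one : ∀ x ∈ S, act 1 x = x
  mul : ∀ a b, IsUnit a → IsUnit b → ∀ x ∈ S, act (a * b) x = act a (act b x)
  mem : ∀ a, IsUnit a → ∀ x ∈ S, act a x ∈ S
  an : ∀ a, IsUnit a → ∀ x ∈ S, AnalyticAt ℂ (fun p : A × W => act p.1 p.2) (a, x)

theorem IsAct.mono {act : A → W → W} {S S' : Set W} (h : IsAct act S') (hS : S ⊆ S')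
    (hm : ∀ a, IsUnit a → ∀ x ∈ S, act a x ∈ S) : IsAct act S :=
  ⟨fun x hx => h.one x (hS hx), fun a b ha hb x hx => h.mul a b ha hb x (hS hx), hm,
    fun a ha x hx => h.an a ha x (hS hx)⟩

/-- The set `S` as a space with an action of the unit group. -/
def Sp (_act : A → W → W) (S : Set W) : Type := S

namespace Sp

variable {act : A → W → W} {S S' : Set W}

instance : TopologicalSpace (Sp act S) := inferInstanceAs (TopologicalSpace S)

instance : T2Space (Sp act S) := inferInstanceAs (T2Space S)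

instance : FirstCountableTopology (Sp act S) := inferInstanceAs (FirstCountableTopology S)

instance : TopologicalSpace.MetrizableSpace (Sp act S) :=
  inferInstanceAs (TopologicalSpace.MetrizableSpace S)

instance [SecondCountableTopology W] : SecondCountableTopology (Sp act S) :=
  inferInstanceAs (SecondCountableTopology S)

instance [LocallyCompactSpace S] : LocallyCompactSpace (Sp act S) :=
  inferInstanceAs (LocallyCompactSpace S)

/-- The underlying vector: the holomorphic coordinates. -/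
def val (x : Sp act S) : W := Subtype.val x

/-- A point of `S` as a point of `Sp act S`. -/
def of (act : A → W → W) (x : W) (hx : x ∈ S) : Sp act S := (⟨x, hx⟩ : S)

@[simp] theorem val_of (x : W) (hx : x ∈ S) : (of act x hx).val = x := rfl

theorem val_mem (x : Sp act S) : x.val ∈ S := Subtype.prop x

theorem isEmbedding_val : IsEmbedding (val : Sp act S → W) := IsEmbedding.subtypeVal

theorem continuous_val : Continuous (val : Sp act S → W) := continuous_subtype_val

theorem ext {x y : Sp act S} (h : x.val = y.val) : x = y := Subtype.ext h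

theorem range_val : range (val : Sp act S → W) = S := Subtype.range_coe

/-- The projection to the orbit space. -/
def mk (x : Sp act S) : Quo act S := Quo.mk act x

theorem continuous_mk : Continuous (mk : Sp act S → Quo act S) := continuous_quot_mk

theorem surjective_mk : Surjective (mk : Sp act S → Quo act S) := Quot.mk_surjective

theorem isQuotientMap_mk : IsQuotientMap (mk : Sp act S → Quo act S) := isQuotientMap_quot_mk

/-- The inclusion of a subset. -/
def incl (act : A → W → W) (h : S ⊆ S') (x : Sp act S) : Sp act S' := inclusion h x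

theorem isEmbedding_incl (h : S ⊆ S') : IsEmbedding (incl act h) := IsEmbedding.inclusion h

@[simp] theorem val_incl (h : S ⊆ S') (x : Sp act S) : (incl act h x).val = x.val := rfl

theorem mk_incl (h : S ⊆ S') (x : Sp act S) : mk (incl act h x) = Quo.incl act h (mk x) := rfl

theorem mem_range_incl (h : S ⊆ S') {x : Sp act S'} : x ∈ range (incl act h) ↔ x.val ∈ S :=
  ⟨by rintro ⟨y, rfl⟩; exact y.val_mem, fun hx => ⟨of act _ hx, rfl⟩⟩

variable [IsAct act S]

instance : MulAction Aˣ (Sp act S) where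
  smul g x := of act (act g x.val) (IsAct.mem _ g.isUnit _ x.val_mem)
  one_smul x := ext (IsAct.one _ x.val_mem)
  mul_smul a b x := ext (IsAct.mul _ _ a.isUnit b.isUnit _ x.val_mem)

@[simp] theorem val_smul (g : Aˣ) (x : Sp act S) : (g • x).val = act g x.val := rfl

theorem incl_smul [IsAct act S'] (h : S ⊆ S') (g : Aˣ) (x : Sp act S) :
    incl act h (g • x) = g • incl act h x := rfl

instance : ContinuousSMul Aˣ (Sp act S) where
  continuous_smul := isEmbedding_val.continuous_iff.2 (continuous_iff_continuousAt.2 fun p =>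
    ContinuousAt.comp (g := fun p : A × W => act p.1 p.2)
      (f := fun p : Aˣ × Sp act S => ((p.1 : A), p.2.val))
      (IsAct.an _ p.1.isUnit _ p.2.val_mem).continuousAt
      (Units.continuous_val.prodMap continuous_val).continuousAt)

theorem mk_eq_iff {x y : Sp act S} : mk x = mk y ↔ ∃ g : Aˣ, g • x = y := by
  have h1 : ∀ x y : Sp act S, (∃ a, IsUnit a ∧ y.val = act a x.val) ↔ ∃ g : Aˣ, g • x = y :=
    fun x y => ⟨fun ⟨_, ⟨g, hg⟩, h⟩ => ⟨g, ext (by rw [val_smul, hg, h])⟩,
      fun ⟨g, hg⟩ => ⟨g, g.isUnit, by rw [← hg, val_smul]⟩⟩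
  have h2 : Equivalence fun x y : Sp act S => ∃ a, IsUnit a ∧ y.val = act a x.val := by
    simp only [h1]
    exact ⟨fun x => ⟨1, one_smul _ x⟩, fun ⟨g, hg⟩ => ⟨g⁻¹, by rw [← hg, inv_smul_smul]⟩,
      fun ⟨g, hg⟩ ⟨g', hg'⟩ => ⟨g' * g, by rw [mul_smul, hg, hg']⟩⟩
  exact (Quot.eq.trans h2.eqvGen_iff).trans (h1 x y)

theorem mk_smul (g : Aˣ) (x : Sp act S) : mk (g • x) = mk x := (mk_eq_iff.2 ⟨g, rfl⟩).symm

theorem isOpenQuotientMap_mk : IsOpenQuotientMap (mk : Sp act S → Quo act S) := by
  refine ⟨surjective_mk, continuous_mk, fun U hU => isQuotientMap_mk.isOpen_preimage.1 ?_⟩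
  have : mk ⁻¹' (mk '' U) = ⋃ g : Aˣ, (fun x => g • x) ⁻¹' U := by
    ext x
    simp only [mem_preimage, mem_image, mem_iUnion]
    exact ⟨fun ⟨y, h1, h2⟩ => (mk_eq_iff.1 h2.symm).imp fun g hg => by rwa [hg],
      fun ⟨g, hg⟩ => ⟨_, hg, mk_smul g x⟩⟩
  rw [this]
  exact isOpen_iUnion fun g => hU.preimage (continuous_const_smul g)

theorem exists_smul_out (x : Sp act S) : ∃ g : Aˣ, g • x = (Quo.out (mk x) : S) :=
  mk_eq_iff.1 (Quot.out_eq (mk x)).symm

theorem mk_out (z : Quo act S) : mk (Quo.out z : S) = z := Quot.out_eq z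

theorem properSMul_mono [IsAct act S'] (h : S ⊆ S') [ProperSMul Aˣ (Sp act S')] :
    ProperSMul Aˣ (Sp act S) :=
  properSMul_of_equivariant (isEmbedding_incl h).continuous (incl_smul h)

theorem free_iff {x : Sp act S} :
    (∀ a, IsUnit a → act a x.val = x.val → a = 1) ↔ ∀ g : Aˣ, g • x = x → g = 1 :=
  ⟨fun h g hg => Units.ext (h g g.isUnit (congrArg val hg)),
    fun h _ ⟨g, hg⟩ e => hg ▸ congrArg Units.val (h g (ext (by rw [val_smul, hg, e])))⟩

variable [CompleteSpace A]

theorem holAct (x : Sp act S) : HolAct (expU : A → Aˣ) val x :=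
  holAct_units (IsAct.an 1 isUnit_one _ x.val_mem) val_smul

theorem inf_eq (x : Sp act S) : inf (expU : A → Aˣ) val x = fderiv ℂ (fun a => act a x.val) 1 :=
  inf_units (IsAct.an 1 isUnit_one _ x.val_mem) val_smul

theorem inf_injective [CompleteSpace W] {x : Sp act S} (h : ∀ᶠ g in 𝓝 (1 : Aˣ), g • x = x → g = 1) :
    Injective (inf (expU : A → Aˣ) val x) :=
  (holAct x).inf_injective isExp_expU (Eventually.of_forall fun _ => ext) h

theorem inf_injective_of_finite [CompleteSpace W] {x : Sp act S}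
    (h : Finite (MulAction.stabilizer Aˣ x)) : Injective (inf (expU : A → Aˣ) val x) :=
  inf_injective (eventually_stab h)

/-- Existence of slices at points with finite stabiliser where `S` is a manifold. -/
theorem exists_slK [FiniteDimensional ℂ A] [CompleteSpace W] {x : Sp act S} {m n : ℕ}
    (hm : IsMfd val m x) (h : Finite (MulAction.stabilizer Aˣ x))
    (hd : Module.finrank ℂ A + n = m) :
    ∃ φ : (Fin n → ℂ) → Sp act S, φ 0 = x ∧ IsSlK (expU : A → Aˣ) val φ 0 :=
  hm.exists_slK isExp_expU (holAct x) (inf_injective_of_finite h) hd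

theorem fderiv_act {E : Type*} [NormedAddCommGroup E] [NormedSpace ℂ E] {Φ : E → W} {y : E}
    (x : Sp act S) (h0 : Φ y = x.val) (hΦ : AnalyticAt ℂ Φ y) (hS : ∀ᶠ z in 𝓝 y, Φ z ∈ S) :
    fderiv ℂ (fun p : A × E => act p.1 (Φ p.2)) (1, y) =
      (inf (expU : A → Aˣ) val x).coprod (fderiv ℂ Φ y) := by
  have h1 : AnalyticAt ℂ (fun p : A × E => act p.1 (Φ p.2)) (1, y) :=
    AnalyticAt.comp (g := fun p : A × W => act p.1 p.2) (f := fun p : A × E => (p.1, Φ p.2))
      (IsAct.an 1 isUnit_one _ hS.self_of_nhds)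
      (analyticAt_fst.prod (hΦ.comp (f := Prod.snd) (x := (1, y)) analyticAt_snd))
  have h2 : fderiv ℂ (fun z => act 1 (Φ z)) y = fderiv ℂ Φ y :=
    EventuallyEq.fderiv_eq (hS.mono fun z hz => IsAct.one _ hz)
  refine ContinuousLinearMap.ext fun p => ?_
  rw [show p = (p.1, p.2) from rfl, fderiv_prod_apply h1, inf_eq, ← h0]
  simp [h2]

end Sp

open Sp

variable {act : A → W → W} {S : Set W} [IsAct act S] [CompleteSpace A] [FiniteDimensional ℂ A]
  [FiniteDimensional ℂ W] [ProperSMul Aˣ (Sp act S)] {d : ℕ}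

/-- A chart of the statement is a slice through a point with trivial stabiliser. -/
theorem _root_.Vale.Agent.P269.IsChart.exists_slK {U : Set (Fin d → ℂ)} {φ : U → S}
    (h : IsChart act S d U φ) :
    ∃ φ' : (Fin d → ℂ) → Sp act S, (∀ z : U, φ' z = φ z) ∧ IsSlK (expU : A → Aˣ) val φ' 0 ∧
      ∀ g : Aˣ, g • φ' 0 = φ' 0 → g = 1 := by
  classical
  obtain ⟨Φ, h1, h2, h3, h4⟩ := h.holo
  let φ' : (Fin d → ℂ) → Sp act S := fun z => if hz : z ∈ U then φ ⟨z, hz⟩ else φ ⟨0, h.zero_mem⟩
  have e1 : ∀ z : U, φ' z = φ z := fun z => dif_pos z.2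
  have hU := h.isOpen.mem_nhds h.zero_mem
  have e2 : ∀ z ∈ U, (φ' z).val = Φ z := fun z hz => (congrArg val (e1 ⟨z, hz⟩)).trans (h2 _)
  have e3 : ∀ z ∈ U, Φ =ᶠ[𝓝 z] fun z => (φ' z).val := fun z hz => by
    filter_upwards [h.isOpen.mem_nhds hz] with z hz using (e2 z hz).symm
  have e4 : ∀ z ∈ U, ContinuousAt φ' z := fun z hz =>
    isEmbedding_val.isInducing.continuousAt_iff.2 ((h1 z hz).continuousAt.congr (e3 z hz))
  have e5 : ∀ g : Aˣ, g • φ' 0 = φ' 0 → g = 1 := free_iff.1 (by rwa [e2 0 h.zero_mem])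
  have e6 : AnalyticAt ℂ (fun z => (φ' z).val) 0 := (h1 0 h.zero_mem).congr (e3 0 h.zero_mem)
  have e7 := (holAct (φ' 0)).an_fam (e4 0 h.zero_mem) e6
  refine ⟨φ', e1, IsParam.of_map_nhds ?_
    (Eventually.of_forall fun _ => continuous_val.continuousAt) e7 ?_ ?_, e5⟩
  · filter_upwards [(continuousAt_snd (p := ((0 : A), (0 : Fin d → ℂ)))).eventually hU] with p hp
      using (isExp_expU.cont.comp continuous_fst).continuousAt.smul
        ((e4 _ hp).comp continuousAt_snd)
  · rw [(holAct (φ' 0)).fderiv_fam isExp_expU (e4 0 h.zero_mem) e6,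
      ← (e3 0 h.zero_mem).fderiv_eq, ← fderiv_act _ (e2 0 h.zero_mem).symm (h1 0 h.zero_mem)
        (by filter_upwards [hU] with z hz using e2 z hz ▸ val_mem _)]
    exact h3
  · have e8 : 𝓝 (mk (φ' 0)) ≤ map (fun z => mk (φ' z)) (𝓝 0) := by
      have := h.emb.map_nhds_eq ⟨0, h.zero_mem⟩
      rw [← h.isOpen.isOpenEmbedding_subtypeVal.map_nhds_eq ⟨0, h.zero_mem⟩, map_map,
        show (fun z => mk (φ' z)) ∘ Subtype.val = fun z : U => Quo.mk act (φ z) from
          funext fun z => congrArg mk (e1 z), this, e1 ⟨0, h.zero_mem⟩]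
      exact le_rfl
    have := nhds_le_map_of_quot continuous_mk (fun _ _ => mk_eq_iff.1) (e4 0 h.zero_mem) e8 e5
    rw [← isExp_expU.map_nhds_prod, map_map] at this
    simpa only [isExp_expU.zero, one_smul, Function.comp_def] using this

/-- A slice through a point with trivial stabiliser restricts to charts of the statement. -/
theorem IsSlK.isChart {φ : (Fin d → ℂ) → Sp act S} (h : IsSlK (expU : A → Aˣ) val φ 0)
    (h1 : ∀ g : Aˣ, g • φ 0 = φ 0 → g = 1) {V : Set (Fin d → ℂ)} (hV : V ∈ 𝓝 0) :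
    ∃ U ⊆ V, IsChart act S d U fun z => φ z := by
  have := FiniteDimensional.complete ℂ W
  have h2 := LH.quot isOpenQuotientMap_mk (fun _ _ => mk_eq_iff) (h.isSl isExp_expU).1 h1
  obtain ⟨U', h3, h4⟩ := (isLocalHomeomorphOn_iff_isOpenEmbedding_restrict _).1 h2 0 rfl
  obtain ⟨U, h5, h6, h7⟩ := _root_.eventually_nhds_iff.1
    ((h.an isExp_expU).eventually_analyticAt.and (inter_mem h3 hV))
  refine ⟨U, fun z hz => (h5 z hz).2.2, h6, h7, ⟨fun z => (φ z).val, fun z hz => (h5 z hz).1,
    fun _ => rfl, ?_, free_iff.2 h1⟩,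
    h4.comp (IsOpenEmbedding.inclusion (fun z hz => (h5 z hz).2.1)
      (h6.preimage continuous_subtype_val))⟩
  rw [fderiv_act (Φ := fun z => (φ z).val) (φ 0) rfl (h.an isExp_expU)
    (Eventually.of_forall fun z => val_mem _)]
  exact h.injective isExp_expU (holAct _)

theorem _root_.Vale.Agent.P269.IsChart.isMfd {U : Set (Fin d → ℂ)} {φ : U → S}
    (h : IsChart act S d U φ) :
    IsMfd (val : Sp act S → W) (Module.finrank ℂ A + d) (φ ⟨0, h.zero_mem⟩) := by
  obtain ⟨φ', h1, h2, -⟩ := h.exists_slK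
  have := h2.isMfd isExp_expU
  rwa [Module.finrank_fin_fun, h1 ⟨0, h.zero_mem⟩] at this

/-- Charts exist at the points with trivial stabiliser where `S` is a manifold. -/
theorem exists_isChart {x : Sp act S} {m : ℕ} (hm : IsMfd val m x)
    (h1 : ∀ g : Aˣ, g • x = x → g = 1) (hd : Module.finrank ℂ A + d = m) :
    ∃ U φ, ∃ h : IsChart act S d U φ, φ ⟨0, h.zero_mem⟩ = x := by
  have := FiniteDimensional.complete ℂ W
  obtain ⟨φ, rfl, h2⟩ := hm.exists_slK isExp_expU (holAct x)
    (inf_injective (Eventually.of_forall h1)) hd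
  obtain ⟨U, -, h3⟩ := h2.isChart h1 univ_mem
  exact ⟨U, _, h3, rfl⟩

end Vale.Agent.P269.Holo
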