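import Vale.Agent.P269.Holo.Sub

/-!
# Holomorphic families of linear maps, holomorphic frames, total spaces of vector bundles
-/

namespace Vale.Agent.P269.Holo

open Set Function Topology Filter

set_option linter.unusedSectionVars false

variable {T T' Z : Type*} [TopologicalSpace T] [TopologicalSpace T'] [TopologicalSpace Z]
  {A A' B E F W W' : Type*} [NormedAddCommGroup A] [NormedSpace ℂ A]
  [NormedAddCommGroup A'] [NormedSpace ℂ A'] [NormedAddCommGroup B] [NormedSpace ℂ B]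
  [NormedAddCommGroup E] [NormedSpace ℂ E] [NormedAddCommGroup F] [NormedSpace ℂ F]
  [NormedAddCommGroup W] [NormedSpace ℂ W] [NormedAddCommGroup W'] [NormedSpace ℂ W']

theorem isInvertible_of_bijective [FiniteDimensional ℂ E] {l : E →L[ℂ] F} (h : Bijective l) :
    l.IsInvertible := by
  let e : E ≃ₗ[ℂ] F := LinearEquiv.ofBijective (l : E →ₗ[ℂ] F) h
  have : FiniteDimensional ℂ F := e.finiteDimensional
  exact ⟨e.toContinuousLinearEquiv, by ext; rfl⟩

theorem analyticAt_clm_inverse [FiniteDimensional ℂ E] {l : E →L[ℂ] F} (h : Bijective l) :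
    AnalyticAt ℂ ContinuousLinearMap.inverse l :=
  have := FiniteDimensional.complete ℂ E
  (isInvertible_of_bijective h).contDiffAt_map_inverse.analyticAt

theorem eventually_injective [FiniteDimensional ℂ E] {m : T → E →L[ℂ] F} {t : T}
    (hm : ContinuousAt m t) (h : Injective (m t)) : ∀ᶠ s in 𝓝 t, Injective (m s) :=
  hm.eventually (ContinuousLinearMap.isOpen_injective.mem_nhds h)

theorem eventually_bijective [FiniteDimensional ℂ E] {m : T → E →L[ℂ] F} {t : T}
    (hm : ContinuousAt m t) (h : Bijective (m t)) : ∀ᶠ s in 𝓝 t, Bijective (m s) :=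
  have : FiniteDimensional ℂ F := (LinearEquiv.ofBijective (m t : E →ₗ[ℂ] F) h).finiteDimensional
  (eventually_injective hm h.1).mono fun _ hs =>
    bijective_of_injective _ hs (finrank_eq_of_bijective _ h)

theorem exists_rightInv [FiniteDimensional ℂ F] {l : E →L[ℂ] F} (h : Surjective l) :
    ∃ i : F →L[ℂ] E, ∀ y, l (i y) = y := by
  obtain ⟨i, hi⟩ := (l : E →ₗ[ℂ] F).exists_rightInverse_of_surjective (LinearMap.range_eq_top.2 h)
  exact ⟨LinearMap.toContinuousLinearMap i, fun y => congr($hi y)⟩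

theorem eventually_surjective [FiniteDimensional ℂ F] {m : T → E →L[ℂ] F} {t : T}
    (hm : ContinuousAt m t) (h : Surjective (m t)) : ∀ᶠ s in 𝓝 t, Surjective (m s) := by
  obtain ⟨i, hi⟩ := exists_rightInv h
  have h1 : ContinuousAt (fun s => (m s).comp i) t := hm.clm_comp continuousAt_const
  exact (eventually_bijective h1 ⟨fun a b e => by simpa [hi] using e, fun y => ⟨y, hi y⟩⟩).mono
    fun s hs => Surjective.of_comp (g := i) hs.2

namespace HolAt

variable {ι : T → A} {t : T}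

theorem inverse [FiniteDimensional ℂ E] {m : T → E →L[ℂ] F} (hm : HolAt ι m t)
    (h : Bijective (m t)) : HolAt ι (fun s => (m s).inverse) t :=
  hm.comp_an (analyticAt_clm_inverse h)

theorem pi {σ : Type*} [Fintype σ] {C : σ → Type*} [∀ i, NormedAddCommGroup (C i)]
    [∀ i, NormedSpace ℂ (C i)] {f : T → ∀ i, C i} (h : ∀ i, HolAt ι (fun s => f s i) t) :
    HolAt ι f t := by
  choose Φ h1 h2 using h
  exact ⟨fun a i => Φ i a, AnalyticAt.pi h1,
    (eventually_all.2 h2).mono fun s hs => funext hs⟩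

theorem proj {σ : Type*} [Fintype σ] {C : σ → Type*} [∀ i, NormedAddCommGroup (C i)]
    [∀ i, NormedSpace ℂ (C i)] {f : T → ∀ i, C i} (h : HolAt ι f t) (i : σ) :
    HolAt ι (fun s => f s i) t :=
  h.clm (ContinuousLinearMap.proj i)

theorem fst' {f : T → E × F} (h : HolAt ι f t) : HolAt ι (fun s => (f s).1) t :=
  h.comp_an analyticAt_fst

theorem snd' {f : T → E × F} (h : HolAt ι f t) : HolAt ι (fun s => (f s).2) t :=
  h.comp_an analyticAt_snd

theorem smul {c : T → ℂ} {f : T → E} (hc : HolAt ι c t) (h : HolAt ι f t) :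
    HolAt ι (fun s => c s • f s) t :=
  (hc.prod h).comp_an (Ψ := fun p => p.1 • p.2) (analyticAt_fst.smul analyticAt_snd)

theorem sum {σ : Type*} (S : Finset σ) {f : σ → T → E} (h : ∀ i ∈ S, HolAt ι (f i) t) :
    HolAt ι (fun s => ∑ i ∈ S, f i s) t := by
  classical
  induction S using Finset.induction_on with
  | empty => simpa using HolAt.const 0
  | insert i S hi ih =>
    simpa [Finset.sum_insert hi] using (h i (by simp)).add (ih fun j hj => h j (by simp [hj]))

/-- A family of linear maps on a finite dimensional space is holomorphic when its values are. -/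
theorem of_apply [FiniteDimensional ℂ E] {m : T → E →L[ℂ] F}
    (h : ∀ v, HolAt ι (fun s => m s v) t) : HolAt ι m t := by
  let b := Module.finBasis ℂ E
  refine (HolAt.sum Finset.univ fun i _ => (h (b i)).clm
    (ContinuousLinearMap.smulRightL ℂ E F (LinearMap.toContinuousLinearMap (b.coord i)))).congr
    (Eventually.of_forall fun s => ContinuousLinearMap.ext fun v => ?_)
  conv_rhs => rw [← b.sum_repr v, map_sum]
  simp

theorem prodL {m : T → E →L[ℂ] F} {m' : T → E →L[ℂ] B} (hm : HolAt ι m t) (hm' : HolAt ι m' t) :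
    HolAt ι (fun s => (m s).prod (m' s)) t :=
  (hm.prod hm').clm (ContinuousLinearMap.prodₗᵢ ℂ).toContinuousLinearEquiv.toContinuousLinearMap

theorem coprod {m : T → E →L[ℂ] F} {m' : T → B →L[ℂ] F} (hm : HolAt ι m t) (hm' : HolAt ι m' t) :
    HolAt ι (fun s => (m s).coprod (m' s)) t :=
  ((hm.clm_comp (HolAt.const (ContinuousLinearMap.fst ℂ E B))).add
    (hm'.clm_comp (HolAt.const (ContinuousLinearMap.snd ℂ E B)))).congr
    (Eventually.of_forall fun _ => ContinuousLinearMap.comp_fst_add_comp_snd _ _)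

end HolAt

theorem an_apply {l : A → E →L[ℂ] F} {f : A → E} {a : A} (hl : AnalyticAt ℂ l a)
    (hf : AnalyticAt ℂ f a) : AnalyticAt ℂ (fun s => l s (f s)) a :=
  holAt_id_iff.1 ((holAt_id_iff.2 hl).apply (holAt_id_iff.2 hf))

theorem an_comp {l : A → E →L[ℂ] F} {l' : A → B →L[ℂ] E} {a : A} (hl : AnalyticAt ℂ l a)
    (hl' : AnalyticAt ℂ l' a) : AnalyticAt ℂ (fun s => (l s).comp (l' s)) a :=
  holAt_id_iff.1 ((holAt_id_iff.2 hl).clm_comp (holAt_id_iff.2 hl'))

theorem analyticAt_of_apply [FiniteDimensional ℂ E] {m : A → E →L[ℂ] F} {a : A}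
    (h : ∀ v, AnalyticAt ℂ (fun s => m s v) a) : AnalyticAt ℂ m a :=
  holAt_id_iff.1 (HolAt.of_apply fun v => holAt_id_iff.2 (h v))

/-- `ℓ` is a holomorphic frame near `t` of the family `V` of subspaces of `W`. -/
structure IsFrame (ι : T → A) (V : Set (T × W)) (ℓ : T → F →L[ℂ] W) (t : T) : Prop where
  hol : HolAt ι ℓ t
  inj : Injective (ℓ t)
  mem : ∀ᶠ s in 𝓝 t, ∀ w, (s, w) ∈ V ↔ w ∈ range (ℓ s)

/-- `V` is a holomorphic subbundle of rank `r` near `t`. -/
def HolSub (ι : T → A) (V : Set (T × W)) (r : ℕ) (t : T) : Prop :=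
  ∃ ℓ : T → (Fin r → ℂ) →L[ℂ] W, IsFrame ι V ℓ t

namespace IsFrame

variable {ι : T → A} {t : T} {V : Set (T × W)} {ℓ : T → F →L[ℂ] W}

theorem holSub [FiniteDimensional ℂ F] (h : IsFrame ι V ℓ t) {r : ℕ}
    (hr : Module.finrank ℂ F = r) : HolSub ι V r t := by
  let e : (Fin r → ℂ) ≃L[ℂ] F :=
    ContinuousLinearEquiv.ofFinrankEq (by rw [Module.finrank_fin_fun, hr])
  exact ⟨fun s => (ℓ s).comp (e : (Fin r → ℂ) →L[ℂ] F), h.hol.clm_comp (HolAt.const _), h.inj.comp e.injective,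
    h.mem.mono fun s hs w => (hs w).trans
      (Set.ext_iff.1 (e.surjective.range_comp (ℓ s)) w).symm⟩

theorem eventually_inj [FiniteDimensional ℂ F] (h : IsFrame ι V ℓ t) (hι : ContinuousAt ι t) :
    ∀ᶠ s in 𝓝 t, Injective (ℓ s) :=
  eventually_injective (h.hol.cont hι) h.inj

theorem eventually [FiniteDimensional ℂ F] [CompleteSpace W] (h : IsFrame ι V ℓ t)
    (hι : ContinuousAt ι t) : ∀ᶠ s in 𝓝 t, IsFrame ι V ℓ s := by
  filter_upwards [h.hol.eventually hι, h.eventually_inj hι, h.mem.eventually_nhds] with s a b c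
    using ⟨a, b, c⟩

theorem pull {ι' : T' → A'} {u : T' → T} {t' : T'} (h : IsFrame ι V ℓ (u t'))
    (hu : ContinuousAt u t') (hι : HolAt ι' (fun s => ι (u s)) t') {V' : Set (T' × W)}
    (hV : ∀ᶠ s in 𝓝 t', ∀ w, (s, w) ∈ V' ↔ (u s, w) ∈ V) : IsFrame ι' V' (fun s => ℓ (u s)) t' :=
  ⟨h.hol.comp hu hι, h.inj, by
    filter_upwards [hV, hu.eventually h.mem] with s a b w using (a w).trans (b w)⟩

/-- Holomorphic coordinates in the frame. -/
theorem exists_leftInv [FiniteDimensional ℂ F] [FiniteDimensional ℂ W] (h : IsFrame ι V ℓ t)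
    (hι : ContinuousAt ι t) :
    ∃ p : T → W →L[ℂ] F, HolAt ι p t ∧ ∀ᶠ s in 𝓝 t, ∀ a, p s (ℓ s a) = a := by
  obtain ⟨q, hq⟩ := ContinuousLinearMap.HasLeftInverse.of_injective_of_finiteDimensional h.inj
  have h1 : HolAt ι (fun s => q.comp (ℓ s)) t := (HolAt.const q).clm_comp h.hol
  have h2 : Bijective (q.comp (ℓ t)) :=
    ⟨fun a b e => (hq a).symm.trans (e.trans (hq b)), fun a => ⟨a, hq a⟩⟩
  exact ⟨fun s => (q.comp (ℓ s)).inverse.comp q, (h1.inverse h2).clm_comp (HolAt.const q),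
    (eventually_bijective (h1.cont hι) h2).mono fun s hs a =>
      (isInvertible_of_bijective hs).inverse_apply_self a⟩

/-- A holomorphic subbundle is the kernel of a holomorphic family of surjections, and has a
constant complement. -/
theorem exists_ker [FiniteDimensional ℂ F] [FiniteDimensional ℂ W] (h : IsFrame ι V ℓ t)
    (hι : ContinuousAt ι t) {c : ℕ} (hc : Module.finrank ℂ F + c = Module.finrank ℂ W) :
    ∃ (j : (Fin c → ℂ) →L[ℂ] W) (m : T → W →L[ℂ] (Fin c → ℂ)), HolAt ι m t ∧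
      ∀ᶠ s in 𝓝 t, Bijective ((ℓ s).coprod j) ∧ (∀ a u, m s (ℓ s a + j u) = u) ∧
        ∀ w, (s, w) ∈ V ↔ m s w = 0 := by
  obtain ⟨j, hj⟩ := exists_compl_range _ h.inj hc
  have h1 : HolAt ι (fun s => (ℓ s).coprod j) t := h.hol.coprod (HolAt.const j)
  refine ⟨j, fun s => (ContinuousLinearMap.snd ℂ _ _).comp ((ℓ s).coprod j).inverse,
    (HolAt.const _).clm_comp (h1.inverse hj), ?_⟩
  filter_upwards [eventually_bijective (h1.cont hι) hj, h.mem] with s h2 h3
  have h4 : ∀ a u, (((ℓ s).coprod j).inverse (ℓ s a + j u)).2 = u := fun a u =>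
    congrArg Prod.snd ((isInvertible_of_bijective h2).inverse_apply_self (a, u))
  refine ⟨h2, h4, fun w => (h3 w).trans ⟨?_, fun hw => ?_⟩⟩
  · rintro ⟨a, rfl⟩
    simpa using h4 a 0
  · obtain ⟨⟨a, u⟩, rfl⟩ := h2.2 w
    obtain rfl : u = 0 := (h4 a u).symm.trans hw
    exact ⟨a, by simp⟩

/-- The total space of a holomorphic subbundle is a manifold. -/
theorem param [FiniteDimensional ℂ E] [FiniteDimensional ℂ F] [FiniteDimensional ℂ W]
    {ψ : E → T} {x : E} (hψ : IsParam ι ψ x) (h : IsFrame ι V ℓ (ψ x)) {j : Z → T × W}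
    (hj : IsEmbedding j) (a : F) (hr : ∀ᶠ p in 𝓝 (ψ x, ℓ (ψ x) a), p ∈ range j ↔ p ∈ V) :
    ∃ φ : E × F → Z, IsParam (fun z => Prod.map ι (fun w : W => w) (j z)) φ (x, a) ∧
      ∀ᶠ p in 𝓝 (x, a), j (φ p) = (ψ p.1, ℓ (ψ p.1) p.2) := by
  obtain ⟨c, hc⟩ := Nat.exists_eq_add_of_le
    (LinearMap.finrank_le_finrank_of_injective (f := (ℓ (ψ x) : F →ₗ[ℂ] W)) h.inj)
  obtain ⟨i, m, -, h1⟩ := h.exists_ker hψ.cont hc.symm
  have hℓ : AnalyticAt ℂ (fun z => ℓ (ψ z)) x := hψ.holAt_iff.1 h.hol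
  let u : (E × F) × (Fin c → ℂ) → E × W := fun p => (p.1.1, ℓ (ψ p.1.1) p.1.2 + i p.2)
  have h2 : AnalyticAt ℂ (fun p : (E × F) × (Fin c → ℂ) => p.1.1) ((x, a), 0) :=
    analyticAt_fst.comp analyticAt_fst
  have h3 : AnalyticAt ℂ (fun p : (E × F) × (Fin c → ℂ) => ℓ (ψ p.1.1) p.1.2 + i p.2)
      ((x, a), 0) :=
    (an_apply (AnalyticAt.comp (g := fun z => ℓ (ψ z)) hℓ h2)
      (analyticAt_snd.comp analyticAt_fst)).add ((i.analyticAt _).comp analyticAt_snd)
  have hu : AnalyticAt ℂ u ((x, a), 0) := h2.prod h3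
  have hu0 : u ((x, a), 0) = (x, ℓ (ψ x) a) := by simp [u]
  have hb : Bijective (fderiv ℂ u ((x, a), 0)) := by
    refine bijective_of_injective _ (injective_fderiv_of_leftInv
      (g := fun q : E × W => ((q.1, (((ℓ (ψ q.1)).coprod i).inverse q.2).1),
        (((ℓ (ψ q.1)).coprod i).inverse q.2).2)) ?_ hu ?_) (by simp [hc, add_assoc])
    · have h4 : AnalyticAt ℂ (fun q : E × W => ((ℓ (ψ q.1)).coprod i).inverse q.2)
          (x, ℓ (ψ x) a) :=
        an_apply ((hψ.holAt_iff.1 ((h.hol.coprod (HolAt.const i)).inverse h1.self_of_nhds.1)).comp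
          (f := Prod.fst) (x := (x, ℓ (ψ x) a)) analyticAt_fst) analyticAt_snd
      rw [hu0]
      exact (analyticAt_fst.prod (analyticAt_fst.comp h4)).prod (analyticAt_snd.comp h4)
    · filter_upwards [(hψ.lh.cont.comp (f := fun p : (E × F) × (Fin c → ℂ) => p.1.1)
        (x := ((x, a), 0)) h2.continuousAt).eventually h1] with p hp
      have := (isInvertible_of_bijective hp.1).inverse_apply_self (p.1.2, p.2)
      simp only [ContinuousLinearMap.coprod_apply, comp_apply] at this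
      simp only [u, this]
  have hσ := IsParam.comp (u := u) (y := ((x, a), 0))
    (by rw [hu0]; exact hψ.prod (IsParam.self _)) hu hb
  have hσc := hσ.lh.cont.tendsto
  rw [hu0] at hσc
  obtain ⟨φ, h5, h6⟩ := hσ.restrict hj (by
    filter_upwards [hσc.eventually hr, (hψ.lh.cont.comp
      (f := fun p : (E × F) × (Fin c → ℂ) => p.1.1) (x := ((x, a), 0))
      h2.continuousAt).eventually h1] with p h5 h6
    rw [h5]
    exact (h6.2.2 _).trans (Eq.congr_left (h6.2.1 p.1.2 p.2)))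
  exact ⟨φ, h5, h6.mono fun p hp => by simpa [u] using hp⟩

end IsFrame

namespace HolSub

variable {ι : T → A} {t : T} {V : Set (T × W)} {r : ℕ}

theorem eventually [CompleteSpace W] (h : HolSub ι V r t) (hι : ContinuousAt ι t) :
    ∀ᶠ s in 𝓝 t, HolSub ι V r s := by
  obtain ⟨ℓ, h⟩ := h
  exact (h.eventually hι).mono fun s hs => ⟨ℓ, hs⟩

theorem pull {ι' : T' → A'} {u : T' → T} {t' : T'} (h : HolSub ι V r (u t'))
    (hu : ContinuousAt u t') (hι : HolAt ι' (fun s => ι (u s)) t') {V' : Set (T' × W)}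
    (hV : ∀ᶠ s in 𝓝 t', ∀ w, (s, w) ∈ V' ↔ (u s, w) ∈ V) : HolSub ι' V' r t' := by
  obtain ⟨ℓ, h⟩ := h
  exact ⟨_, h.pull hu hι hV⟩

theorem top [FiniteDimensional ℂ W] (hV : ∀ᶠ s in 𝓝 t, ∀ w, (s, w) ∈ V) :
    HolSub ι V (Module.finrank ℂ W) t :=
  IsFrame.holSub (ℓ := fun _ => ContinuousLinearMap.id ℂ W) ⟨HolAt.const _, injective_id,
    hV.mono fun _ hs w => iff_of_true (hs w) ⟨w, rfl⟩⟩ rfl

/-- The kernel of a holomorphic family of surjections. -/
theorem of_ker [FiniteDimensional ℂ W] [FiniteDimensional ℂ B] (hι : ContinuousAt ι t)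
    {m : T → W →L[ℂ] B} (hm : HolAt ι m t) (hs : Surjective (m t))
    (hV : ∀ᶠ s in 𝓝 t, ∀ w, (s, w) ∈ V ↔ m s w = 0)
    (hr : r + Module.finrank ℂ B = Module.finrank ℂ W) : HolSub ι V r t := by
  obtain ⟨p, hp⟩ := exists_compl_ker _ hs hr
  have h1 : HolAt ι (fun s => p.prod (m s)) t := (HolAt.const p).prodL hm
  refine ⟨fun s => (p.prod (m s)).inverse.comp (ContinuousLinearMap.inl ℂ _ _),
    (h1.inverse hp).clm_comp (HolAt.const _),
    (isInvertible_of_bijective hp).inverse.injective.comp (Prod.mk_left_injective 0), ?_⟩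
  filter_upwards [eventually_bijective (h1.cont hι) hp, hV] with s h2 h3 w
  refine (h3 w).trans ⟨fun hw => ⟨p w, ?_⟩, ?_⟩
  · have := (isInvertible_of_bijective h2).inverse_apply_self w
    simpa [hw] using this
  · rintro ⟨a, rfl⟩
    exact congrArg Prod.snd ((isInvertible_of_bijective h2).self_apply_inverse (a, 0))

/-- The kernel of a holomorphic family of linear maps whose dimension does not drop. -/
theorem of_ker_dim [FiniteDimensional ℂ W] [FiniteDimensional ℂ B] (hι : ContinuousAt ι t)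
    {m : T → W →L[ℂ] B} (hm : HolAt ι m t) (hV : ∀ᶠ s in 𝓝 t, ∀ w, (s, w) ∈ V ↔ m s w = 0)
    (h0 : Module.finrank ℂ (LinearMap.ker (m t : W →ₗ[ℂ] B)) = r)
    (hd : ∀ᶠ s in 𝓝 t, r ≤ Module.finrank ℂ (LinearMap.ker (m s : W →ₗ[ℂ] B))) :
    HolSub ι V r t := by
  let R := LinearMap.range (m t : W →ₗ[ℂ] B)
  obtain ⟨q, hq⟩ := ContinuousLinearMap.HasLeftInverse.of_injective_of_finiteDimensional
    (f := R.subtypeL) Subtype.val_injective
  have h1 : HolAt ι (fun s => q.comp (m s)) t := (HolAt.const q).clm_comp hm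
  have h2 : Surjective (q.comp (m t)) := by
    rintro ⟨_, w, rfl⟩
    exact ⟨w, hq ⟨_, w, rfl⟩⟩
  have h3 : r + Module.finrank ℂ R = Module.finrank ℂ W := by
    rw [← h0, add_comm]; exact LinearMap.finrank_range_add_finrank_ker _
  refine of_ker hι h1 h2 ?_ h3
  filter_upwards [hV, hd, eventually_surjective (h1.cont hι) h2] with s a b c w
  have h4 := LinearMap.finrank_range_add_finrank_ker (q.comp (m s) : W →ₗ[ℂ] R)
  rw [LinearMap.range_eq_top.2 c, finrank_top] at h4
  have h5 : LinearMap.ker (m s : W →ₗ[ℂ] B) = LinearMap.ker (q.comp (m s) : W →ₗ[ℂ] R) :=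
    Submodule.eq_of_le_of_finrank_le (fun v hv => by
      change q (m s v) = 0
      rw [show m s v = 0 from hv, map_zero]) (by omega)
  exact (a w).trans (SetLike.ext_iff.1 h5 w)

/-- The image of a holomorphic family of linear maps whose rank does not jump. -/
theorem of_range_dim [FiniteDimensional ℂ W] (hι : ContinuousAt ι t)
    {m : T → B →L[ℂ] W} (hm : HolAt ι m t) (hV : ∀ᶠ s in 𝓝 t, ∀ w, (s, w) ∈ V ↔ w ∈ range (m s))
    (h0 : Module.finrank ℂ (LinearMap.range (m t : B →ₗ[ℂ] W)) = r)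
    (hd : ∀ᶠ s in 𝓝 t, Module.finrank ℂ (LinearMap.range (m s : B →ₗ[ℂ] W)) ≤ r) :
    HolSub ι V r t := by
  let R := LinearMap.range (m t : B →ₗ[ℂ] W)
  obtain ⟨i, hi⟩ := exists_rightInv (l := (m t).codRestrict R fun v => ⟨v, rfl⟩)
    (by rintro ⟨_, w, rfl⟩; exact ⟨w, rfl⟩)
  have h1 : HolAt ι (fun s => (m s).comp i) t := hm.clm_comp (HolAt.const i)
  have h2 : Injective ((m t).comp i) := fun a b e =>
    (hi a).symm.trans ((Subtype.ext e).trans (hi b))
  refine IsFrame.holSub ⟨h1, h2, ?_⟩ h0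
  filter_upwards [hV, hd, eventually_injective (h1.cont hι) h2] with s a b c w
  have h5 : LinearMap.range ((m s).comp i : R →ₗ[ℂ] W) = LinearMap.range (m s : B →ₗ[ℂ] W) :=
    Submodule.eq_of_le_of_finrank_le (by rintro _ ⟨v, rfl⟩; exact ⟨i v, rfl⟩)
      (by rw [LinearMap.finrank_range_of_inj c]; exact b.trans h0.ge)
  exact (a w).trans (SetLike.ext_iff.1 h5 w).symm

/-- The total space of a holomorphic subbundle is a manifold. -/
theorem isMfd [FiniteDimensional ℂ W] {n : ℕ} {j : Z → T × W} (hj : IsEmbedding j) {z : Z}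
    (hm : IsMfd ι n (j z).1) (h : HolSub ι V r (j z).1)
    (hr : ∀ᶠ p in 𝓝 (j z), p ∈ range j ↔ p ∈ V) :
    IsMfd (fun z => Prod.map ι (fun w : W => w) (j z)) (n + r) z := by
  obtain ⟨ψ, hψ, h0⟩ := hm
  obtain ⟨ℓ, h⟩ := h
  obtain ⟨a, ha⟩ := (h.mem.self_of_nhds (j z).2).1 (hr.self_of_nhds.1 (mem_range_self z))
  rw [← h0] at h ha
  have e : (ψ 0, ℓ (ψ 0) a) = j z := Prod.ext h0 ha
  obtain ⟨φ, h1, h2⟩ := h.param hψ hj a (by rwa [e])
  have := h1.isMfd (n := n + r) (by simp)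
  rwa [hj.injective (h2.self_of_nhds.trans e)] at this

end HolSub

end Vale.Agent.P269.Holo
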