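import Vale.Agent.P269.Holo.Proper
import Vale.Agent.P269.Holo.Bundle

/-!
# Normal forms: slices of invariant submanifolds, fibrations, bundles; change of group
-/

namespace Vale.Agent.P269.Holo

open Set Function Topology Filter

set_option linter.unusedSectionVars false

variable {G G' : Type*} [Group G] [TopologicalSpace G] [Group G'] [TopologicalSpace G']
  {T T' Z : Type*} [TopologicalSpace T] [TopologicalSpace T'] [TopologicalSpace Z]
  [MulAction G T] {L L' A A' B E F W : Type*} [NormedAddCommGroup L] [NormedSpace ℂ L]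
  [NormedAddCommGroup L'] [NormedSpace ℂ L'] [NormedAddCommGroup A] [NormedSpace ℂ A]
  [NormedAddCommGroup A'] [NormedSpace ℂ A'] [NormedAddCommGroup B] [NormedSpace ℂ B]
  [NormedAddCommGroup E] [NormedSpace ℂ E] [NormedAddCommGroup F] [NormedSpace ℂ F]
  [NormedAddCommGroup W] [NormedSpace ℂ W]

/-- The chain rule for a holomorphic function along a holomorphic family. -/
theorem fderiv_comp_hol {ι : T → A} {f : T → B} {γ : E → T} {y : E} {Φ : A → B}
    (hΦ : AnalyticAt ℂ Φ (ι (γ y))) (hf : ∀ᶠ s in 𝓝 (γ y), f s = Φ (ι s)) (hc : ContinuousAt γ y)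
    (ha : AnalyticAt ℂ (fun z => ι (γ z)) y) (v : E) :
    fderiv ℂ (fun z => f (γ z)) y v = fderiv ℂ Φ (ι (γ y)) (fderiv ℂ (fun z => ι (γ z)) y v) := by
  rw [EventuallyEq.fderiv_eq (f₁ := fun z => f (γ z)) (f := fun z => Φ (ι (γ z)))
    (hc.eventually hf), fderiv_comp_an (f := fun z => ι (γ z)) hΦ ha]
  rfl

section maps

variable [MulAction G' T'] {κ : L → G} {κ' : L' → G'} {ι : T → A} {ι' : T' → A'} {u : T' → T}
  {ρ : G' → G} {lam : L' →L[ℂ] L} {Φ : A' → A}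

/-- The differential of an equivariant map intertwines the infinitesimal actions. -/
theorem inf_map [ContinuousSMul G' T'] {t' : T'} (hκ' : IsExp κ')
    (ha : HolAct κ ι (u t')) (ha' : HolAct κ' ι' t') (he : ∀ g s, u (g • s) = ρ g • u s)
    (hρ : ∀ x, ρ (κ' x) = κ (lam x)) (hΦ : AnalyticAt ℂ Φ (ι' t'))
    (hu : ∀ᶠ s in 𝓝 t', ι (u s) = Φ (ι' s)) (x : L') :
    fderiv ℂ Φ (ι' t') (inf κ' ι' t' x) = inf κ ι (u t') (lam x) := by
  have h1 := fderiv_comp_hol (γ := fun x => κ' x • t') (y := 0) (f := fun s => ι (u s))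
    (by simpa [hκ'.zero] using hΦ) (by simpa [hκ'.zero] using hu)
    (hκ'.cont.smul continuous_const).continuousAt ha'.an_orbit x
  simp only [hκ'.zero, one_smul, he, hρ] at h1
  rw [inf, ← h1, fderiv_comp_an (g := fun x => ι (κ x • u t')) (f := lam)
    (by rw [map_zero]; exact ha.an_orbit) (lam.analyticAt _), map_zero, lam.fderiv]
  rfl

/-- Slices of a fibration: a family over a slice of the base that is a slice in the fibre. -/
theorem IsSlK.of_fibration [ContinuousSMul G' T'] [FiniteDimensional ℂ L'] [FiniteDimensional ℂ E]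
    [FiniteDimensional ℂ F] (hκ : IsExp κ) (hκ' : IsExp κ') {φ : E → T} {φ' : E × F → T'} {y : E}
    {a : F} (h : IsSlK κ ι φ y) {m : ℕ} (hm : IsMfd ι' m (φ' (y, a))) (ha : HolAct κ ι (φ y))
    (ha' : HolAct κ' ι' (φ' (y, a))) (he : ∀ g s, u (g • s) = ρ g • u s)
    (hρ : ∀ x, ρ (κ' x) = κ (lam x)) (hΦ : AnalyticAt ℂ Φ (ι' (φ' (y, a))))
    (hu : ∀ᶠ s in 𝓝 (φ' (y, a)), ι (u s) = Φ (ι' s)) (hc : ContinuousAt φ' (y, a))
    (han : AnalyticAt ℂ (fun p => ι' (φ' p)) (y, a))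
    (hφ : ∀ᶠ p in 𝓝 (y, a), u (φ' p) = φ p.1)
    (hi : ∀ x b, lam x = 0 →
      inf κ' ι' (φ' (y, a)) x + fderiv ℂ (fun b => ι' (φ' (y, b))) a b = 0 → x = 0 ∧ b = 0)
    (hd : Module.finrank ℂ L' + (Module.finrank ℂ E + Module.finrank ℂ F) = m) :
    IsSlK κ' ι' φ' (y, a) := by
  refine IsSlK.of_transverse hκ' hm ha' hc han ?_ (by rwa [Module.finrank_prod])
  rw [injective_iff_map_eq_zero]
  rintro ⟨x, z, b⟩ h0
  have h1 : u (φ' (y, a)) = φ y := hφ.self_of_nhds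
  have h2 := congrArg (fderiv ℂ Φ (ι' (φ' (y, a)))) h0
  have h3 : fderiv ℂ (fun p => ι (u (φ' p))) (y, a) (z, b) = fderiv ℂ (fun z => ι (φ z)) y z := by
    rw [EventuallyEq.fderiv_eq (f := fun p : E × F => ι (φ p.1))
      (hφ.mono fun p hp => congrArg ι hp),
      fderiv_comp_an (g := fun z => ι (φ z)) (f := Prod.fst) (h.an hκ) analyticAt_fst, fderiv_fst]
    rfl
  rw [ContinuousLinearMap.coprod_apply, map_add, map_zero,
    inf_map hκ' (h1 ▸ ha) ha' he hρ hΦ hu, ← fderiv_comp_hol (f := fun s => ι (u s)) hΦ hu hc han,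
    h3, h1] at h2
  have h4 := (injective_iff_map_eq_zero _).1 (h.injective hκ ha) (lam x, z) h2
  obtain rfl : z = 0 := congrArg Prod.snd h4
  rw [ContinuousLinearMap.coprod_apply, ← fderiv_inr han] at h0
  obtain ⟨rfl, rfl⟩ := hi x b (congrArg Prod.fst h4) h0
  rfl

/-- A family that maps to a slice is a slice when the dimensions agree. -/
theorem IsSlK.of_comp [ContinuousSMul G' T'] [FiniteDimensional ℂ L'] [FiniteDimensional ℂ E]
    (hκ : IsExp κ) (hκ' : IsExp κ') {φ' : E → T'} {y : E} (h : IsSlK κ ι (fun z => u (φ' z)) y)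
    {m : ℕ} (hm : IsMfd ι' m (φ' y)) (ha : HolAct κ ι (u (φ' y))) (ha' : HolAct κ' ι' (φ' y))
    (he : ∀ g s, u (g • s) = ρ g • u s) (hρ : ∀ x, ρ (κ' x) = κ (lam x))
    (hΦ : AnalyticAt ℂ Φ (ι' (φ' y))) (hu : ∀ᶠ s in 𝓝 (φ' y), ι (u s) = Φ (ι' s))
    (hc : ContinuousAt φ' y) (han : AnalyticAt ℂ (fun p => ι' (φ' p)) y)
    (hi : Injective (inf κ' ι' (φ' y))) (hd : Module.finrank ℂ L' + Module.finrank ℂ E = m) :
    IsSlK κ' ι' φ' y := by
  refine IsSlK.of_transverse hκ' hm ha' hc han ?_ hd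
  rw [injective_iff_map_eq_zero]
  rintro ⟨x, z⟩ h0
  have h2 := congrArg (fderiv ℂ Φ (ι' (φ' y))) h0
  rw [ContinuousLinearMap.coprod_apply, map_add, map_zero, inf_map hκ' ha ha' he hρ hΦ hu,
    ← fderiv_comp_hol (f := fun s => ι (u s)) hΦ hu hc han] at h2
  obtain rfl : z = 0 :=
    congrArg Prod.snd ((injective_iff_map_eq_zero _).1
      (IsSlK.injective (φ := fun z => u (φ' z)) hκ ha h) (lam x, z) h2)
  exact Prod.ext (hi (by simpa using h0)) rfl

/-- The étale criterion: an equivariant map that is injective on the normal spaces of the orbits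
sends slices to slices when the dimensions of the quotients agree. -/
theorem IsSlK.map [ContinuousSMul G T] [ContinuousSMul G' T'] [FiniteDimensional ℂ L]
    [FiniteDimensional ℂ E] (hκ : IsExp κ) (hκ' : IsExp κ') {φ' : E → T'} {y : E}
    (h : IsSlK κ' ι' φ' y) {m : ℕ} (hm : IsMfd ι m (u (φ' y))) (ha : HolAct κ ι (u (φ' y)))
    (ha' : HolAct κ' ι' (φ' y)) (huc : ContinuousAt u (φ' y)) (hΦ : AnalyticAt ℂ Φ (ι' (φ' y)))
    (hu : ∀ᶠ s in 𝓝 (φ' y), ι (u s) = Φ (ι' s)) (hi : Injective (inf κ ι (u (φ' y))))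
    (hn : ∀ v ∈ tan ι' (φ' y), fderiv ℂ Φ (ι' (φ' y)) v ∈ range (inf κ ι (u (φ' y))) →
      v ∈ range (inf κ' ι' (φ' y)))
    (hd : Module.finrank ℂ L + Module.finrank ℂ E = m) : IsSlK κ ι (fun z => u (φ' z)) y := by
  have hc := h.cont hκ'
  have han := h.an hκ'
  refine IsSlK.of_transverse hκ hm ha (huc.comp hc)
    (HolAt.an_comp (f := fun s => ι (u s)) ⟨Φ, hΦ, hu⟩ hc han) ?_ hd
  rw [injective_iff_map_eq_zero]
  rintro ⟨x, z⟩ h0
  rw [ContinuousLinearMap.coprod_apply, fderiv_comp_hol (f := fun s => ι (u s)) hΦ hu hc han] at h0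
  obtain ⟨x', h1⟩ := hn _ (fderiv_mem_tan hc han z)
    ⟨-x, by rw [map_neg]; exact neg_eq_of_add_eq_zero_right h0⟩
  obtain rfl : z = 0 :=
    congrArg Prod.snd ((injective_iff_map_eq_zero _).1 (h.injective hκ' ha') (-x', z) (by simp [h1]))
  exact Prod.ext (hi (by simpa using h0)) rfl

end maps

section sub

variable [MulAction G Z] {κ : L → G} {ι : T → A} {j : Z → T}

theorem smul_mem_range_iff (he : ∀ (g : G) s, j (g • s) = g • j s) (g : G) (t : T) :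
    g • t ∈ range j ↔ t ∈ range j :=
  ⟨fun ⟨s, hs⟩ => ⟨g⁻¹ • s, by rw [he, hs, inv_smul_smul]⟩, fun ⟨s, hs⟩ => ⟨g • s, by rw [he, hs]⟩⟩

theorem inf_pull (he : ∀ (g : G) s, j (g • s) = g • j s) (z : Z) :
    inf κ (fun s => ι (j s)) z = inf κ ι (j z) := by
  simp only [inf, he]

/-- An invariant subspace that is a coordinate plane in a slice. -/
theorem IsSlK.restrict [FiniteDimensional ℂ L] [FiniteDimensional ℂ F] [FiniteDimensional ℂ B]
    (hκ : IsExp κ) {φ : F × B → T} {y : F} {b : B} (h : IsSlK κ ι φ (y, b)) (hj : IsEmbedding j)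
    (he : ∀ (g : G) s, j (g • s) = g • j s) (hr : ∀ᶠ p in 𝓝 (y, b), φ p ∈ range j ↔ p.2 = b) :
    ∃ φ' : F → Z, IsSlK κ (fun z => ι (j z)) φ' y ∧ ∀ᶠ z in 𝓝 y, j (φ' z) = φ (z, b) := by
  let e := ContinuousLinearEquiv.prodAssoc ℂ L F B
  have h1 := IsParam.comp (u := e) (y := ((0, y), b)) h (e.analyticAt _)
    (by rw [e.fderiv]; exact e.bijective)
  have h2 : Tendsto (fun p : (L × F) × B => (p.1.2, p.2)) (𝓝 ((0, y), b)) (𝓝 (y, b)) :=
    Continuous.continuousAt (by fun_prop)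
  obtain ⟨φ', h3, h4⟩ := h1.restrict hj
    ((h2.eventually hr).mono fun p hp => (smul_mem_range_iff he _ _).trans hp)
  have h5 : ∀ᶠ z in 𝓝 y, j (φ' (0, z)) = φ (z, b) :=
    ((tendsto_inr 0 y).eventually h4).mono fun z hz => by simpa [e, hκ.zero] using hz
  refine ⟨fun z => φ' (0, z), h3.congr ?_, h5⟩
  filter_upwards [h4, (continuousAt_snd (p := ((0 : L), y))).eventually h5] with p a c
  exact hj.injective (by rw [he, c]; exact a)

/-- Normal form of a submersion along a slice. -/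
theorem IsSlK.submersion [FiniteDimensional ℂ L] [FiniteDimensional ℂ E] [FiniteDimensional ℂ B]
    {φ : E → T} {y : E} (h : IsSlK κ ι φ y) {f : T → B} (hf : AnalyticAt ℂ (fun z => f (φ z)) y)
    (hs : Surjective (fderiv ℂ (fun z => f (φ z)) y)) {n : ℕ}
    (hn : n + Module.finrank ℂ B = Module.finrank ℂ E) :
    ∃ σ : (Fin n → ℂ) × B → E, AnalyticAt ℂ σ (0, f (φ y)) ∧ σ (0, f (φ y)) = y ∧
      IsSlK κ ι (fun p => φ (σ p)) (0, f (φ y)) ∧ ∀ᶠ p in 𝓝 (0, f (φ y)), f (φ (σ p)) = p.2 := by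
  obtain ⟨σ, h1, h2, h3, -, h4⟩ := (IsParam.self y).submersion (f := fun z => f (φ z)) hf hs hn
  exact ⟨σ, h1, h2, IsSlK.comp (by rwa [h2]) h1 h3, h4⟩

/-- A function that is a submersion on `T` and constant to first order along the orbit is a
submersion on every slice. -/
theorem IsSlK.surjective (hκ : IsExp κ) {φ : E → T} {y : E} (h : IsSlK κ ι φ y)
    (ha : HolAct κ ι (φ y)) {f : T → B} {Φ : A → B} (hΦ : AnalyticAt ℂ Φ (ι (φ y)))
    (hf : ∀ᶠ s in 𝓝 (φ y), f s = Φ (ι s))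
    (hs : ∀ b, ∃ v ∈ tan ι (φ y), fderiv ℂ Φ (ι (φ y)) v = b)
    (ho : ∀ x, fderiv ℂ Φ (ι (φ y)) (inf κ ι (φ y) x) = 0) :
    Surjective (fderiv ℂ (fun z => f (φ z)) y) := by
  intro b
  obtain ⟨v, h1, rfl⟩ := hs b
  obtain ⟨x, z, rfl⟩ := (h.mem_tan hκ ha).1 h1
  exact ⟨z, by rw [fderiv_comp_hol hΦ hf (h.cont hκ) (h.an hκ), map_add, ho, zero_add]⟩

theorem fderiv_inf_eq_zero [ContinuousSMul G T] (hκ : IsExp κ) {t : T} (ha : HolAct κ ι t)
    {Φ : A → B} (hΦ : AnalyticAt ℂ Φ (ι t)) (ho : ∀ᶠ g in 𝓝 (1 : G), Φ (ι (g • t)) = Φ (ι t))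
    (x : L) : fderiv ℂ Φ (ι t) (inf κ ι t x) = 0 := by
  have h1 := fderiv_comp_hol (γ := fun x => κ x • t) (y := 0) (f := fun s => Φ (ι s))
    (by simpa [hκ.zero] using hΦ) (Eventually.of_forall fun _ => rfl)
    (hκ.cont.smul continuous_const).continuousAt ha.an_orbit x
  simp only [hκ.zero, one_smul] at h1
  rw [inf, ← h1, EventuallyEq.fderiv_eq (f₁ := fun z => Φ (ι (κ z • t)))
    (f := fun _ => Φ (ι t)) (hκ.tendsto.eventually ho), fderiv_fun_const]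
  rfl

/-- Normal form of an invariant subspace cut out transversally by a holomorphic function `f`:
a slice `φ` of `T` with `f (φ (y, b)) = b` whose restriction to `b = 0` is a slice of `Z`. -/
theorem IsMfd.exists_slK_zero [ContinuousSMul G T] [FiniteDimensional ℂ L] [FiniteDimensional ℂ B]
    (hκ : IsExp κ) (hj : IsEmbedding j) (he : ∀ (g : G) s, j (g • s) = g • j s) {z : Z} {m n : ℕ}
    (hm : IsMfd ι m (j z)) (ha : HolAct κ ι (j z)) (hi : Injective (inf κ ι (j z))) {f : T → B}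
    {Φ : A → B} (hΦ : AnalyticAt ℂ Φ (ι (j z))) (hf : ∀ᶠ s in 𝓝 (j z), f s = Φ (ι s))
    (hs : ∀ b, ∃ v ∈ tan ι (j z), fderiv ℂ Φ (ι (j z)) v = b)
    (hZ : ∀ᶠ s in 𝓝 (j z), s ∈ range j ↔ f s = 0)
    (hd : Module.finrank ℂ L + (n + Module.finrank ℂ B) = m) :
    ∃ (φ : (Fin n → ℂ) × B → T) (φ' : (Fin n → ℂ) → Z), IsSlK κ ι φ (0, 0) ∧
      IsSlK κ (fun s => ι (j s)) φ' 0 ∧ φ' 0 = z ∧ φ (0, 0) = j z ∧
      (∀ᶠ p in 𝓝 (0, 0), f (φ p) = p.2) ∧ ∀ᶠ y in 𝓝 0, j (φ' y) = φ (y, 0) := by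
  obtain ⟨φ, h0, h1⟩ := hm.exists_slK hκ ha hi hd
  have hz : f (j z) = 0 := hZ.self_of_nhds.1 (mem_range_self z)
  have ho : ∀ᶠ g in 𝓝 (1 : G), Φ (ι (g • j z)) = Φ (ι (j z)) := by
    have : Tendsto (fun g : G => g • j z) (𝓝 1) (𝓝 (j z)) := by
      simpa using (tendsto_id (x := 𝓝 (1 : G))).smul (tendsto_const_nhds (x := j z))
    filter_upwards [this.eventually hf, this.eventually hZ] with g a b
    rw [← a, ← hf.self_of_nhds, hz, b.1 ⟨g • z, he g z⟩]
  have h2 := fderiv_inf_eq_zero hκ ha hΦ ho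
  rw [← h0] at ha hΦ hf hs hZ hz h2
  obtain ⟨σ, -, h3, h4, h5⟩ := h1.submersion (f := f)
    (HolAt.an_comp ⟨Φ, hΦ, hf⟩ (h1.cont hκ) (h1.an hκ)) (h1.surjective hκ ha hΦ hf hs h2)
    (Module.finrank_fin_fun ℂ).symm
  rw [hz] at h3 h4 h5
  have h6 : Tendsto (fun p => φ (σ p)) (𝓝 (0, 0)) (𝓝 (φ 0)) := by
    have := (h4.cont hκ).tendsto
    rwa [h3] at this
  obtain ⟨φ', h7, h8⟩ := h4.restrict hκ hj he
    (by filter_upwards [h6.eventually hZ, h5] with p a b using by rw [a, b])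
  exact ⟨_, φ', h4, h7, hj.injective (by rw [h8.self_of_nhds, h3, h0]), by rw [h3, h0], h5, h8⟩

/-- Normal form of a holomorphic section `s` of a holomorphic subbundle `V` at a transverse zero. -/
theorem IsMfd.exists_slK_section [ContinuousSMul G T] [FiniteDimensional ℂ L]
    [FiniteDimensional ℂ F] [FiniteDimensional ℂ W] (hκ : IsExp κ) (hj : IsEmbedding j)
    (he : ∀ (g : G) s, j (g • s) = g • j s) {z : Z} {m n : ℕ} (hm : IsMfd ι m (j z))
    (ha : HolAct κ ι (j z)) (hi : Injective (inf κ ι (j z))) {V : Set (T × W)}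
    {ℓ : T → F →L[ℂ] W} (hℓ : IsFrame ι V ℓ (j z)) {s : T → W} {Φ : A → W}
    (hΦ : AnalyticAt ℂ Φ (ι (j z))) (hf : ∀ᶠ t in 𝓝 (j z), s t = Φ (ι t))
    (hV : ∀ᶠ t in 𝓝 (j z), (t, s t) ∈ V)
    (hs : ∀ a, ∃ v ∈ tan ι (j z), fderiv ℂ Φ (ι (j z)) v = ℓ (j z) a)
    (hZ : ∀ᶠ t in 𝓝 (j z), t ∈ range j ↔ s t = 0)
    (hd : Module.finrank ℂ L + (n + Module.finrank ℂ F) = m) :
    ∃ (φ : (Fin n → ℂ) × F → T) (φ' : (Fin n → ℂ) → Z), IsSlK κ ι φ (0, 0) ∧
      IsSlK κ (fun s => ι (j s)) φ' 0 ∧ φ' 0 = z ∧ φ (0, 0) = j z ∧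
      (∀ᶠ p in 𝓝 (0, 0), s (φ p) = ℓ (φ p) p.2) ∧ ∀ᶠ y in 𝓝 0, j (φ' y) = φ (y, 0) := by
  obtain ⟨p, ⟨P, h1, h2⟩, h3⟩ := hℓ.exists_leftInv hm.cont
  have h4 : ∀ᶠ t in 𝓝 (j z), s t = ℓ t (p t (s t)) := by
    filter_upwards [hV, hℓ.mem, h3] with t a b c
    obtain ⟨w, hw⟩ := (b _).1 a
    rw [← hw, c]
  have h5 : Φ (ι (j z)) = 0 := hf.self_of_nhds.symm.trans (hZ.self_of_nhds.1 (mem_range_self z))
  obtain ⟨φ, φ', h6, h7, h8, h9, h10, h11⟩ := hm.exists_slK_zero hκ hj he ha hi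
    (f := fun t => p t (s t)) (Φ := fun a => P a (Φ a)) (an_apply h1 hΦ)
    (by filter_upwards [h2, hf] with t a b using by rw [a, b]) (fun a => by
      obtain ⟨v, h6, h7⟩ := hs a
      refine ⟨v, h6, ?_⟩
      rw [fderiv_clm_apply h1.differentiableAt hΦ.differentiableAt, h5]
      simp [h7, ← h2.self_of_nhds, h3.self_of_nhds a])
    (by
      filter_upwards [hZ, h4] with t a b
      exact a.trans ⟨fun e => by rw [e, map_zero], fun e => by rw [b, e, map_zero]⟩) hd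
  refine ⟨φ, φ', h6, h7, h8, h9, ?_, h11⟩
  filter_upwards [h10, (h6.cont hκ).eventually (h9 ▸ h4)] with q a b using by rw [b, a]

end sub

section bundle

variable [MulAction G W] [MulAction G Z] {κ : L → G} {ι : T → A}

/-- Slices of the total space of a holomorphic subbundle. -/
theorem IsSlK.total [ContinuousSMul G Z] [FiniteDimensional ℂ L] [FiniteDimensional ℂ E]
    [FiniteDimensional ℂ F] [FiniteDimensional ℂ W] (hκ : IsExp κ) {φ : E → T} {y : E}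
    (h : IsSlK κ ι φ y) (ha : HolAct κ ι (φ y)) {V : Set (T × W)} {ℓ : T → F →L[ℂ] W}
    (hℓ : IsFrame ι V ℓ (φ y)) (a : F) (hW : HolAct κ (fun w : W => w) (ℓ (φ y) a))
    {j : Z → T × W} (hj : IsEmbedding j) (he : ∀ (g : G) s, j (g • s) = g • j s)
    (hr : ∀ᶠ p in 𝓝 (φ y, ℓ (φ y) a), p ∈ range j ↔ p ∈ V) :
    ∃ φ' : E × F → Z, IsSlK κ (fun z => Prod.map ι (fun w : W => w) (j z)) φ' (y, a) ∧
      ∀ᶠ p in 𝓝 (y, a), j (φ' p) = (φ p.1, ℓ (φ p.1) p.2) := by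
  have e0 : κ ((0 : L), y).1 • φ ((0 : L), y).2 = φ y := by simp [hκ.zero]
  obtain ⟨ψ, h1, h2⟩ := IsFrame.param h (e0 ▸ hℓ) hj a (by rwa [e0])
  have h3 : Tendsto (fun p : E × F => (((0 : L), p.1), p.2)) (𝓝 (y, a)) (𝓝 ((0, y), a)) :=
    Continuous.continuousAt (by fun_prop)
  have h4 : ∀ᶠ p in 𝓝 (y, a), j (ψ ((0, p.1), p.2)) = (φ p.1, ℓ (φ p.1) p.2) :=
    (h3.eventually h2).mono fun p hp => by simpa [hκ.zero] using hp
  have h5 : j (ψ ((0, y), a)) = (φ y, ℓ (φ y) a) := h4.self_of_nhds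
  refine ⟨fun p => ψ ((0, p.1), p.2), IsSlK.of_fibration (u := fun z => (j z).1) (ρ := id)
    (lam := ContinuousLinearMap.id ℂ L) (Φ := Prod.fst) hκ hκ h (h1.isMfd rfl) ha
    (HolAct.pull (by rw [h5]; exact ha.prod hW) hj.continuous.continuousAt he)
    (fun g s => by rw [he]; rfl) (fun _ => rfl) analyticAt_fst (Eventually.of_forall fun _ => rfl)
    (h1.lh.cont.tendsto.comp h3) (AnalyticAt.comp (f := fun p : E × F => (((0 : L), p.1), p.2))
      (x := (y, a)) h1.an ((analyticAt_const.prod analyticAt_fst).prod analyticAt_snd))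
    (h4.mono fun p hp => congrArg Prod.fst hp) (fun x b hx h6 => ?_) (by simp [add_assoc]), h4⟩
  obtain rfl : x = 0 := hx
  have h7 : fderiv ℂ (fun b => Prod.map ι (fun w : W => w) (j (ψ ((0, y), b)))) a =
      fderiv ℂ (fun b => (ι (φ y), ℓ (φ y) b)) a :=
    EventuallyEq.fderiv_eq (((tendsto_inr y a).eventually h4).mono fun b hb => by simp [hb])
  rw [map_zero, zero_add, h7,
    ((hasFDerivAt_const (ι (φ y)) a).prodMk (ℓ (φ y)).hasFDerivAt).fderiv] at h6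
  exact ⟨rfl, hℓ.inj (by simpa using congrArg Prod.snd h6)⟩

end bundle

section misc

variable {ι : T → A}

/-- Translation of a slice by a group element that acts holomorphically. -/
theorem IsSl.smul [IsTopologicalGroup G] [ContinuousSMul G T] {φ : E → T} {y : E}
    (h : IsSl G ι φ y) (g : G) (h1 : HolAt ι (fun s => ι (g • s)) (φ y))
    (h2 : HolAt ι (fun s => ι (g⁻¹ • s)) (g • φ y)) : IsSl G ι (fun z => g • φ z) y := by
  have hc := h.cont
  obtain ⟨h3, h4, w, h5, h6⟩ := h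
  obtain ⟨Φ, h7, h8⟩ := h2
  let c : G ≃ₜ G := (Homeomorph.mulRight g).trans (Homeomorph.mulLeft g⁻¹)
  have hc1 : Prod.map c (fun z : E => z) (1, y) = (1, y) := by simp [c]
  have h9 : LH (Prod.map c fun z : E => z) (1, y) := (c.lh 1).prodMap (LH.id y)
  have h10 : LH (fun p : G × E => p.1 • g • φ p.2) (1, y) := by
    refine (((Homeomorph.smul g).lh _).comp (LH.comp' h3 h9 hc1)).congr
      (Eventually.of_forall fun p => ?_)
    simp [c, mul_smul]
  refine ⟨h10, h1.an_comp hc h4, fun a => w (Φ a),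
    AnalyticAt.comp (by rw [← h8.self_of_nhds]; simpa using h5) h7, ?_⟩
  have h11 := h10.cont.tendsto
  have h12 := h9.cont.tendsto
  rw [one_smul] at h11
  rw [hc1] at h12
  filter_upwards [h11.eventually h8, h12.eventually h6] with p a b
  rw [← a]
  simpa [c, mul_smul] using b

theorem holAt_smul_units {𝒜 : Type*} [NormedRing 𝒜] [NormedAlgebra ℂ 𝒜] [MulAction 𝒜ˣ T]
    {act : 𝒜 → A → A} {t : T} (g : 𝒜ˣ)
    (ha : AnalyticAt ℂ (fun p : 𝒜 × A => act p.1 p.2) (g, ι t))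
    (he : ∀ (g : 𝒜ˣ) s, ι (g • s) = act g (ι s)) : HolAt ι (fun s => ι (g • s)) t :=
  ⟨act g, ha.comp (f := fun a => ((g : 𝒜), a)) (analyticAt_const.prod analyticAt_id),
    Eventually.of_forall fun s => he g s⟩

theorem IsSl.comp_equiv {φ : E → T} {y : F} (e : F ≃L[ℂ] E) (h : IsSl G ι φ (e y)) :
    IsSl G ι (fun z => φ (e z)) y := by
  obtain ⟨h1, h2, w, h3, h4⟩ := h
  have h5 : LH (Prod.map (fun g : G => g) e) (1, y) := (LH.id 1).prodMap (e.toHomeomorph.lh y)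
  refine ⟨LH.comp' h1 h5 rfl, h2.comp (e.analyticAt y),
    fun a => e.symm (w a), (e.symm.analyticAt _).comp h3, ?_⟩
  filter_upwards [h5.cont.eventually h4] with p hp
  exact e.symm_apply_eq.2 hp

end misc

end Vale.Agent.P269.Holo
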