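import Vale.Agent.P269.Holo.Slice

/-!
# Proper actions: criteria, local consequences, the exponential map of a unit group
-/

namespace Vale.Agent.P269.Holo

open Set Function Topology Filter

set_option linter.unusedSectionVars false

section general

variable {G G' T T' X : Type*} [Group G] [TopologicalSpace G] [Group G'] [TopologicalSpace G']
  [TopologicalSpace T] [TopologicalSpace T'] [TopologicalSpace X] [MulAction G T]

/-- For a proper action, the elements that move a point near `x` to a point near `y` are close to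
the elements that move `x` to `y`. -/
theorem eventually_mem_of_proper [ProperSMul G T] {x y : T} {O : Set G} (hO : IsOpen O)
    (h : ∀ g, g • x = y → g ∈ O) :
    ∀ᶠ p in 𝓝 x ×ˢ 𝓝 y, ∀ g : G, g • p.1 = p.2 → g ∈ O := by
  have h1 := (ProperSMul.isProperMap_smul_pair (G := G) (X := T)).isClosedMap _
    (hO.isClosed_compl.prod isClosed_univ)
  have h2 : (y, x) ∈ ((fun gx : G × T => (gx.1 • gx.2, gx.2)) '' Oᶜ ×ˢ univ)ᶜ := by
    rintro ⟨⟨g, z⟩, h3, h4⟩
    obtain ⟨h5, rfl⟩ := Prod.mk.inj h4
    exact h3.1 (h g h5)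
  have h3 : Tendsto Prod.swap (𝓝 x ×ˢ 𝓝 y) (𝓝 (y, x)) := tendsto_snd.prodMk_nhds tendsto_fst
  filter_upwards [h3.eventually (h1.isOpen_compl.mem_nhds h2)] with p hp g hg
  by_contra h4
  exact hp ⟨(g, p.1), ⟨h4, trivial⟩, Prod.ext hg rfl⟩

theorem eventually_of_proper_free [ProperSMul G T] {x : T} (h : ∀ g : G, g • x = x → g = 1)
    {P : G → Prop} (hP : ∀ᶠ g in 𝓝 (1 : G), P g) :
    ∀ᶠ p in 𝓝 x ×ˢ 𝓝 x, ∀ g : G, g • p.1 = p.2 → P g := by
  obtain ⟨O, h1, h2, h3⟩ := _root_.eventually_nhds_iff.1 hP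
  exact (eventually_mem_of_proper h2 fun g hg => h g hg ▸ h3).mono fun p hp g hg => h1 g (hp g hg)

/-- Properness pulls back along equivariant maps. -/
theorem properSMul_of_equivariant [ProperSMul G T] [MulAction G T'] [ContinuousSMul G T']
    [T2Space T'] {f : T' → T} (hf : Continuous f) (he : ∀ (g : G) x, f (g • x) = g • f x) :
    ProperSMul G T' := by
  refine properSMul_iff_continuousSMul_ultrafilter_tendsto_t2.2 ⟨inferInstance, fun U x y h => ?_⟩
  obtain ⟨g, -, hg⟩ := (properSMul_iff_continuousSMul_ultrafilter_tendsto.1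
    (inferInstance : ProperSMul G T)).2 (U.map (Prod.map id f)) (f x) (f y) (by
      have := ((hf.prodMap hf).tendsto (x, y)).comp h
      simpa [Function.comp_def, he, tendsto_map'_iff] using this)
  exact ⟨g, hg⟩

/-- Properness for a group that maps properly to a group acting properly. -/
theorem properSMul_of_hom [ProperSMul G T] [MulAction G' T'] [ContinuousSMul G' T']
    [T2Space T'] {ρ : G' → G} (hρ : IsProperMap ρ) {f : T' → T} (hf : Continuous f)
    (he : ∀ (g : G') x, f (g • x) = ρ g • f x) : ProperSMul G' T' := by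
  refine properSMul_iff_continuousSMul_ultrafilter_tendsto_t2.2 ⟨inferInstance, fun U x y h => ?_⟩
  obtain ⟨g, -, hg⟩ := (properSMul_iff_continuousSMul_ultrafilter_tendsto.1
    (inferInstance : ProperSMul G T)).2 (U.map (Prod.map ρ f)) (f x) (f y) (by
      have := ((hf.prodMap hf).tendsto (x, y)).comp h
      simpa [Function.comp_def, he, tendsto_map'_iff] using this)
  obtain ⟨g', -, h1⟩ := (isProperMap_iff_ultrafilter.1 hρ).2 (𝒰 := U.map Prod.fst) hg
  exact ⟨g', h1⟩

/-- A compact stabiliser of a locally free action is finite. -/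
theorem finite_stabilizer [IsTopologicalGroup G] [ProperSMul G T] {x : T}
    (h : ∀ᶠ g in 𝓝 (1 : G), g • x = x → g = 1) : Finite (MulAction.stabilizer G x) := by
  have h1 : IsCompact (MulAction.stabilizer G x : Set G) := by
    have := ProperSMul.isCompact_setOfPred_inter_nonempty (G := G) (isCompact_singleton (x := x))
      (isCompact_singleton (x := x))
    convert this using 1
    ext g
    simp [eq_comm]
  refine h1.finite (isDiscrete_iff_forall_mem_exists_isOpen.2 fun g hg => ?_)
  obtain ⟨O, h2, h3, h4⟩ := _root_.eventually_nhds_iff.1 h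
  refine ⟨(fun k => g⁻¹ * k) ⁻¹' O, h3.preimage (by fun_prop), subset_antisymm ?_ ?_⟩
  · rintro k ⟨h5, h6⟩
    exact (inv_mul_eq_one.1 (h2 _ h5 ((MulAction.stabilizer G x).mul_mem
      ((MulAction.stabilizer G x).inv_mem hg) h6))).symm
  · rintro _ rfl
    exact ⟨by simpa using h4, hg⟩

theorem LH.of_open_inj {f : T → X} {x : T} (hc : ∀ᶠ y in 𝓝 x, ContinuousAt f y)
    (ho : ∀ᶠ y in 𝓝 x, 𝓝 (f y) ≤ map f (𝓝 y))
    (hi : ∀ᶠ p in 𝓝 x ×ˢ 𝓝 x, f p.1 = f p.2 → p.1 = p.2) : LH f x := by
  obtain ⟨V, hV, h1⟩ := (eventually_prod_self_iff (r := fun a b => f a = f b → a = b)).1 hi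
  obtain ⟨U, h2, h3, h4⟩ := _root_.eventually_nhds_iff.1 ((hc.and ho).and hV)
  refine (isLocalHomeomorphOn_iff_isOpenEmbedding_restrict _).2 ?_
  rintro _ rfl
  refine ⟨U, h3.mem_nhds h4, .of_continuous_injective_isOpenMap
    (continuous_iff_continuousAt.2 fun y => (h2 y y.2).1.1.comp continuous_subtype_val.continuousAt)
    (fun y z e => Subtype.ext (h1 _ (h2 y y.2).2 _ (h2 z z.2).2 e))
    (isOpenMap_iff_nhds_le.2 fun y => ?_)⟩
  have := (h2 y y.2).1.2
  rwa [← h3.isOpenEmbedding_subtypeVal.map_nhds_eq, map_map] at this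

variable {E : Type*} [TopologicalSpace E]

/-- A slice through a point with trivial stabiliser is a chart of the orbit space. -/
theorem LH.quot [ProperSMul G T] {π : T → X} (hπ : IsOpenQuotientMap π)
    (hf : ∀ s s', π s = π s' ↔ ∃ g : G, g • s = s') {φ : E → T} {y : E}
    (h : LH (fun p : G × E => p.1 • φ p.2) (1, y)) (h1 : ∀ g : G, g • φ y = φ y → g = 1) :
    LH (fun z => π (φ z)) y := by
  have h2 := (tendsto_inr 1 y).eventually h.eventually
  have h3 : ∀ᶠ z in 𝓝 y, ContinuousAt φ z := h2.mono fun z hz => by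
    simpa [Function.comp_def] using hz.cont.comp (f := fun z => (1, z)) (tendsto_inr 1 z)
  refine LH.of_open_inj (h3.mono fun z hz => hπ.continuous.continuousAt.comp hz)
    (h2.mono fun z hz => ?_) ?_
  · have h4 := hz.map_nhds
    rw [one_smul] at h4
    rw [← hπ.map_nhds_eq, ← h4, map_map]
    refine tendsto_map.comp (continuousAt_snd (p := ((1 : G), z))) |>.congr fun p => ?_
    exact (hf _ _).2 ⟨p.1, rfl⟩
  · obtain ⟨u, -, -, h4, -⟩ := h.exists_inv
    rw [nhds_prod_eq] at h4
    obtain ⟨P, hP, Q, hQ, h5⟩ := eventually_prod_iff.1 h4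
    have h6 := h3.self_of_nhds.tendsto
    filter_upwards [(h6.prodMap h6).eventually (eventually_of_proper_free h1 hP),
      tendsto_fst.eventually hQ, tendsto_snd.eventually hQ] with p a b c e
    obtain ⟨g, hg⟩ := (hf _ _).1 e
    have h7 := h5 (a g hg) b
    have h8 := h5 hP.self_of_nhds c
    simp only [one_smul, hg] at h7 h8
    exact congrArg Prod.snd (h7.symm.trans h8)

/-- Conversely, a chart of the orbit space at a free orbit is open after saturation. -/
theorem nhds_le_map_of_quot [ProperSMul G T] {π : T → X} (hπ : Continuous π)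
    (hf : ∀ s s', π s = π s' → ∃ g : G, g • s = s') {φ : E → T} {y : E} (hc : ContinuousAt φ y)
    (h : 𝓝 (π (φ y)) ≤ map (fun z => π (φ z)) (𝓝 y)) (h1 : ∀ g : G, g • φ y = φ y → g = 1) :
    𝓝 (φ y) ≤ map (fun p : G × E => p.1 • φ p.2) (𝓝 (1, y)) := by
  intro V hV
  rw [mem_map, nhds_prod_eq] at hV
  obtain ⟨P, hP, Q, hQ, h2⟩ := eventually_prod_iff.1 hV
  obtain ⟨R, hR, R', hR', h3⟩ := eventually_prod_iff.1 (eventually_of_proper_free h1 hP)
  have h4 := hπ.continuousAt.eventually (h (image_mem_map (hQ.and (hc.eventually hR))))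
  filter_upwards [h4, hR'] with s ⟨z, h5, h6⟩ h7
  obtain ⟨g, rfl⟩ := hf _ _ h6
  exact h2 (h3 h5.2 h7 g rfl) h5.1

end general

section units

variable {A T : Type*} [NormedRing A] [NormedAlgebra ℂ A] [TopologicalSpace T]

/-- A filter of units that are bounded with bounded inverses accumulates at a unit. -/
theorem exists_tendsto_units [FiniteDimensional ℂ A] {ι : Type*} (U : Ultrafilter ι) (g : ι → Aˣ)
    {C : ℝ} (h1 : ∀ᶠ i in U, ‖(g i : A)‖ ≤ C) {C' : ℝ} (h2 : ∀ᶠ i in U, ‖(↑(g i)⁻¹ : A)‖ ≤ C') :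
    ∃ u, Tendsto g U (𝓝 u) := by
  have := FiniteDimensional.proper ℂ A
  obtain ⟨a, -, ha⟩ := (isCompact_closedBall (0 : A) C).ultrafilter_le_nhds'
    (U.map fun i => (g i : A)) (h1.mono fun i hi => mem_closedBall_zero_iff.2 hi)
  obtain ⟨b, -, hb⟩ := (isCompact_closedBall (0 : A) C').ultrafilter_le_nhds'
    (U.map fun i => (↑(g i)⁻¹ : A)) (h2.mono fun i hi => mem_closedBall_zero_iff.2 hi)
  have h3 : Tendsto (fun i => (g i : A)) U (𝓝 a) := ha
  have h4 : Tendsto (fun i => (↑(g i)⁻¹ : A)) U (𝓝 b) := hb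
  refine ⟨⟨a, b, tendsto_nhds_unique (h3.mul h4) (by simp), tendsto_nhds_unique (h4.mul h3)
    (by simp)⟩, Units.isInducing_embedProduct.tendsto_nhds_iff.2 ?_⟩
  exact h3.prodMk_nhds (MulOpposite.continuous_op.continuousAt.tendsto.comp h4)

/-- An action of a unit group is proper when the elements that move points near `x` to points near
`y` are bounded. -/
theorem properSMul_units [FiniteDimensional ℂ A] [MulAction Aˣ T] [ContinuousSMul Aˣ T] [T2Space T]
    (h : ∀ x y : T, ∃ C : ℝ, ∀ᶠ p in 𝓝 (x, y), ∀ g : Aˣ, g • p.1 = p.2 → ‖(g : A)‖ ≤ C) :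
    ProperSMul Aˣ T := by
  refine properSMul_iff_continuousSMul_ultrafilter_tendsto_t2.2 ⟨inferInstance, fun U x y hU => ?_⟩
  obtain ⟨C, hC⟩ := h y x
  obtain ⟨C', hC'⟩ := h x y
  exact exists_tendsto_units U Prod.fst
    (((continuous_swap.tendsto (x, y)).comp hU).eventually hC |>.mono fun p hp => hp _ rfl)
    ((hU.eventually hC').mono fun p hp => hp _ (inv_smul_smul _ _))

/-- The same criterion with sequences. -/
theorem properSMul_units_seq [FiniteDimensional ℂ A] [MulAction Aˣ T] [ContinuousSMul Aˣ T]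
    [T2Space T] [FirstCountableTopology T]
    (h : ∀ (x y : T) (p : ℕ → T) (g : ℕ → Aˣ), Tendsto p atTop (𝓝 x) →
      Tendsto (fun n => g n • p n) atTop (𝓝 y) → ¬Tendsto (fun n => ‖(g n : A)‖) atTop atTop) :
    ProperSMul Aˣ T := by
  refine properSMul_units fun x y => by_contra fun hn => ?_
  push Not at hn
  obtain ⟨V, hV⟩ := (𝓝 (x, y)).exists_antitone_basis
  have h1 : ∀ n : ℕ, ∃ p ∈ V n, ∃ g : Aˣ, g • p.1 = p.2 ∧ (n : ℝ) < ‖(g : A)‖ := fun n => by
    obtain ⟨p, h2, h3⟩ := ((hn n).and_eventually (hV.1.mem_of_mem trivial)).exists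
    exact ⟨p, h3, h2⟩
  choose p hp g h2 h3 using h1
  have h4 := hV.tendsto hp
  refine h x y (fun n => (p n).1) g (continuousAt_fst.tendsto.comp h4) ?_
    (tendsto_atTop_mono (fun n => (h3 n).le) tendsto_natCast_atTop_atTop)
  simpa only [h2, Function.comp_def] using continuousAt_snd.tendsto.comp h4

variable [CompleteSpace A]

theorem exp_add_comm {x y : A} (h : Commute x y) :
    NormedSpace.exp (x + y) = NormedSpace.exp x * NormedSpace.exp y :=
  NormedSpace.exp_add_of_commute_of_mem_ball (𝕂 := ℂ) h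
    ((NormedSpace.expSeries_radius_eq_top ℂ A).symm ▸ edist_lt_top _ _)
    ((NormedSpace.expSeries_radius_eq_top ℂ A).symm ▸ edist_lt_top _ _)

/-- The exponential map of the unit group. -/
noncomputable def expU (x : A) : Aˣ where
  val := NormedSpace.exp x
  inv := NormedSpace.exp (-x)
  val_inv := by rw [← exp_add_comm (Commute.refl x).neg_right, add_neg_cancel, NormedSpace.exp_zero]
  inv_val := by rw [← exp_add_comm (Commute.refl x).neg_left, neg_add_cancel, NormedSpace.exp_zero]

@[simp] theorem expU_val (x : A) : (expU x : A) = NormedSpace.exp x := rfl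

theorem exp_an (x : A) : AnalyticAt ℂ NormedSpace.exp x := NormedSpace.exp_analytic x

theorem isExp_expU : IsExp (expU : A → Aˣ) := by
  have h1 : Continuous (NormedSpace.exp : A → A) :=
    continuous_iff_continuousAt.2 fun x => (exp_an x).continuousAt
  have h2 : Continuous (expU : A → Aˣ) := Units.continuous_iff.2 ⟨h1, h1.comp continuous_neg⟩
  refine ⟨LH.of_comp_left (g := Units.val) ?_ (Units.isOpenEmbedding_val.lh _) h2.continuousAt,
    h2, fun s s' x => Units.ext ?_⟩
  · exact (ift_equiv (exp_an 0) (ContinuousLinearEquiv.refl ℂ A)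
      (hasFDerivAt_exp_zero (𝕂 := ℂ)).fderiv).1
  · rw [add_smul]
    exact exp_add_comm (((Commute.refl x).smul_left s).smul_right s')

variable [MulAction Aˣ T] {W : Type*} [NormedAddCommGroup W] [NormedSpace ℂ W]

/-- An action of a unit group given by an analytic formula is holomorphic. -/
theorem holAct_units {ι : T → W} {t : T} {act : A → W → W}
    (ha : AnalyticAt ℂ (fun p : A × W => act p.1 p.2) (1, ι t))
    (he : ∀ (g : Aˣ) s, ι (g • s) = act g (ι s)) : HolAct (expU : A → Aˣ) ι t :=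
  ⟨fun p => act (NormedSpace.exp p.1) p.2,
    AnalyticAt.comp (g := fun p : A × W => act p.1 p.2)
      (f := fun p : A × W => (NormedSpace.exp p.1, p.2)) (by simpa using ha)
      (((exp_an _).comp analyticAt_fst).prod analyticAt_snd),
    Eventually.of_forall fun p => he _ _⟩

theorem inf_units {ι : T → W} {t : T} {act : A → W → W}
    (ha : AnalyticAt ℂ (fun p : A × W => act p.1 p.2) (1, ι t))
    (he : ∀ (g : Aˣ) s, ι (g • s) = act g (ι s)) :
    inf (expU : A → Aˣ) ι t = fderiv ℂ (fun a => act a (ι t)) 1 := by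
  have h1 : AnalyticAt ℂ (fun a => act a (ι t)) (NormedSpace.exp (0 : A)) := by
    rw [NormedSpace.exp_zero]
    exact ha.comp (f := fun a => (a, ι t)) (analyticAt_id.prod analyticAt_const)
  simp only [inf, he, expU_val]
  rw [fderiv_comp_an (g := fun a => act a (ι t)) h1 (exp_an 0),
    (hasFDerivAt_exp_zero (𝕂 := ℂ)).fderiv, NormedSpace.exp_zero]
  rfl

end units

end Vale.Agent.P269.Holo
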