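import Vale.Agent.P269.Holo.LH

/-!
# Spaces with holomorphic coordinates: holomorphic germs, parametrizations, tangent spaces

A space `T` comes with a map `ι : T → A` to a complex normed space.  A function on `T` is
holomorphic at `t` when it is an analytic function of `ι` near `t`; `T` is a complex manifold near
`t` when it has a holomorphic parametrization.
-/

namespace Vale.Agent.P269.Holo

open Set Function Topology Filter

variable {T T' : Type*} [TopologicalSpace T] [TopologicalSpace T']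
  {A A' B C E F : Type*} [NormedAddCommGroup A] [NormedSpace ℂ A]
  [NormedAddCommGroup A'] [NormedSpace ℂ A'] [NormedAddCommGroup B] [NormedSpace ℂ B]
  [NormedAddCommGroup C] [NormedSpace ℂ C] [NormedAddCommGroup E] [NormedSpace ℂ E]
  [NormedAddCommGroup F] [NormedSpace ℂ F]

/-- `f` is holomorphic at `t` for the coordinates `ι`. -/
def HolAt (ι : T → A) (f : T → B) (t : T) : Prop :=
  ∃ Φ : A → B, AnalyticAt ℂ Φ (ι t) ∧ ∀ᶠ s in 𝓝 t, f s = Φ (ι s)

namespace HolAt

variable {ι : T → A} {t : T} {f f' : T → B} {g : T → C}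

theorem self : HolAt ι ι t := ⟨id, analyticAt_id, Eventually.of_forall fun _ => rfl⟩

theorem const (b : B) : HolAt ι (fun _ => b) t :=
  ⟨fun _ => b, analyticAt_const, Eventually.of_forall fun _ => rfl⟩

theorem of_an {Φ : A → B} (h : AnalyticAt ℂ Φ (ι t)) : HolAt ι (fun s => Φ (ι s)) t :=
  ⟨Φ, h, Eventually.of_forall fun _ => rfl⟩

theorem congr (h : HolAt ι f t) (h' : f =ᶠ[𝓝 t] f') : HolAt ι f' t := by
  obtain ⟨Φ, h1, h2⟩ := h
  exact ⟨Φ, h1, by filter_upwards [h2, h'] with s a b using b.symm.trans a⟩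

theorem comp_an (h : HolAt ι f t) {Ψ : B → C} (hΨ : AnalyticAt ℂ Ψ (f t)) :
    HolAt ι (fun s => Ψ (f s)) t := by
  obtain ⟨Φ, h1, h2⟩ := h
  refine ⟨fun a => Ψ (Φ a), AnalyticAt.comp (by rwa [← h2.self_of_nhds]) h1, ?_⟩
  filter_upwards [h2] with s hs using by rw [hs]

theorem prod (h : HolAt ι f t) (h' : HolAt ι g t) : HolAt ι (fun s => (f s, g s)) t := by
  obtain ⟨Φ, h1, h2⟩ := h
  obtain ⟨Ψ, h3, h4⟩ := h'
  exact ⟨fun a => (Φ a, Ψ a), h1.prod h3, by filter_upwards [h2, h4] with s a b using by rw [a, b]⟩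

theorem clm (h : HolAt ι f t) (l : B →L[ℂ] C) : HolAt ι (fun s => l (f s)) t :=
  h.comp_an (l.analyticAt _)

theorem add (h : HolAt ι f t) (h' : HolAt ι f' t) : HolAt ι (fun s => f s + f' s) t :=
  (h.prod h').comp_an (Ψ := fun p => p.1 + p.2) (analyticAt_fst.add analyticAt_snd)

theorem sub (h : HolAt ι f t) (h' : HolAt ι f' t) : HolAt ι (fun s => f s - f' s) t :=
  (h.prod h').comp_an (Ψ := fun p => p.1 - p.2) (analyticAt_fst.sub analyticAt_snd)

theorem apply {l : T → B →L[ℂ] C} (hl : HolAt ι l t) (h : HolAt ι f t) :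
    HolAt ι (fun s => l s (f s)) t :=
  (hl.prod h).comp_an (Ψ := fun p => p.1 p.2)
    (((ContinuousLinearMap.id ℂ (B →L[ℂ] C)).analyticAt_bilinear _))

theorem clm_comp {l : T → B →L[ℂ] C} {l' : T → E →L[ℂ] B} (hl : HolAt ι l t)
    (hl' : HolAt ι l' t) : HolAt ι (fun s => (l s).comp (l' s)) t :=
  (hl.prod hl').comp_an (Ψ := fun p => p.1.comp p.2)
    ((ContinuousLinearMap.compL ℂ E B C).analyticAt_bilinear _)

/-- Composition with a map `u : T' → T` that is continuous and holomorphic in coordinates. -/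
theorem comp {ι' : T' → A'} {u : T' → T} {t' : T'} (h : HolAt ι f (u t'))
    (hu : ContinuousAt u t') (hι : HolAt ι' (fun s => ι (u s)) t') :
    HolAt ι' (fun s => f (u s)) t' := by
  obtain ⟨Φ, h1, h2⟩ := h
  exact (hι.comp_an h1).congr (by filter_upwards [hu.eventually h2] with s hs using hs.symm)

theorem trans {ι' : T → A'} (h : HolAt ι f t) (hι : HolAt ι' ι t) : HolAt ι' f t :=
  h.comp (u := fun s => s) continuousAt_id hι

theorem an_comp {u : E → T} {x : E} (h : HolAt ι f (u x)) (hu : ContinuousAt u x)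
    (hι : AnalyticAt ℂ (fun z => ι (u z)) x) : AnalyticAt ℂ (fun z => f (u z)) x := by
  obtain ⟨Φ, h1, h2⟩ := h
  exact (h1.comp (f := fun z => ι (u z)) hι).congr
    (by filter_upwards [hu.eventually h2] with s hs using hs.symm)

theorem eventually [CompleteSpace B] (h : HolAt ι f t) (hι : ContinuousAt ι t) :
    ∀ᶠ s in 𝓝 t, HolAt ι f s := by
  obtain ⟨Φ, h1, h2⟩ := h
  filter_upwards [hι.eventually h1.eventually_analyticAt, h2.eventually_nhds] with s a b
    using ⟨Φ, a, b⟩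

theorem cont (h : HolAt ι f t) (hι : ContinuousAt ι t) : ContinuousAt f t := by
  obtain ⟨Φ, h1, h2⟩ := h
  exact (h1.continuousAt.comp hι).congr (by filter_upwards [h2] with s hs using hs.symm)

theorem fst {ι' : T' → A'} {t' : T'} (h : HolAt ι f t) :
    HolAt (Prod.map ι ι') (fun p => f p.1) (t, t') :=
  HolAt.comp (u := Prod.fst) (t' := (t, t')) h continuousAt_fst (HolAt.of_an analyticAt_fst)

theorem snd {ι' : T' → A'} {t' : T'} (h : HolAt ι f t) :
    HolAt (Prod.map ι' ι) (fun p => f p.2) (t', t) :=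
  HolAt.comp (u := Prod.snd) (t' := (t', t)) h continuousAt_snd (HolAt.of_an analyticAt_snd)

end HolAt

theorem holAt_id_iff {f : A → B} {a : A} : HolAt (fun x : A => x) f a ↔ AnalyticAt ℂ f a :=
  ⟨fun ⟨_, h1, h2⟩ => h1.congr (by filter_upwards [h2] with s hs using hs.symm),
    fun h => HolAt.of_an h⟩

/-- `ψ` is a holomorphic parametrization of `T` near `ψ x`. -/
def IsParam (ι : T → A) (ψ : E → T) (x : E) : Prop :=
  LH ψ x ∧ AnalyticAt ℂ (fun z => ι (ψ z)) x ∧
    ∃ w : A → E, AnalyticAt ℂ w (ι (ψ x)) ∧ ∀ᶠ z in 𝓝 x, w (ι (ψ z)) = z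

/-- `T` is a complex manifold of dimension `n` near `t`. -/
def IsMfd (ι : T → A) (n : ℕ) (t : T) : Prop :=
  ∃ ψ : (Fin n → ℂ) → T, IsParam ι ψ 0 ∧ ψ 0 = t

/-- The Zariski tangent space of `T` at `t`, inside the coordinate space. -/
def tan (ι : T → A) (t : T) : Submodule ℂ A where
  carrier := {v | ∀ Φ : A → A, AnalyticAt ℂ Φ (ι t) → (∀ᶠ s in 𝓝 t, Φ (ι s) = 0) →
    fderiv ℂ Φ (ι t) v = 0}
  add_mem' hv hw Φ h1 h2 := by rw [map_add, hv Φ h1 h2, hw Φ h1 h2, add_zero]
  zero_mem' Φ _ _ := map_zero _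
  smul_mem' c v hv Φ h1 h2 := by rw [map_smul, hv Φ h1 h2, smul_zero]

/-- Velocities of holomorphic families are tangent. -/
theorem fderiv_mem_tan {ι : T → A} {u : E → T} {x : E} (hu : ContinuousAt u x)
    (hι : AnalyticAt ℂ (fun z => ι (u z)) x) (v : E) :
    fderiv ℂ (fun z => ι (u z)) x v ∈ tan ι (u x) := by
  intro Φ h1 h2
  have h3 : fderiv ℂ (fun z => Φ (ι (u z))) x = fderiv ℂ (fun _ : E => (0 : A)) x :=
    EventuallyEq.fderiv_eq (hu.eventually h2)
  rw [fderiv_comp_an (f := fun z => ι (u z)) h1 hι, fderiv_fun_const] at h3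
  exact congr($h3 v)

theorem tan_id (a : A) : tan (fun x : A => x) a = ⊤ := by
  rw [eq_top_iff]
  intro v _
  simpa using fderiv_mem_tan (ι := fun x : A => x) (u := fun x : A => x) (x := a) continuousAt_id
    analyticAt_id v

namespace IsParam

variable {ι : T → A} {ψ : E → T} {x : E}

theorem lh (h : IsParam ι ψ x) : LH ψ x := h.1

theorem an (h : IsParam ι ψ x) : AnalyticAt ℂ (fun z => ι (ψ z)) x := h.2.1

theorem injective (h : IsParam ι ψ x) : Injective (fderiv ℂ (fun z => ι (ψ z)) x) := by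
  obtain ⟨-, h1, w, h2, h3⟩ := h
  exact injective_fderiv_of_leftInv (f := fun z => ι (ψ z)) h2 h1 h3

/-- The inverse chart. -/
theorem exists_inv (h : IsParam ι ψ x) :
    ∃ w : A → E, AnalyticAt ℂ w (ι (ψ x)) ∧ w (ι (ψ x)) = x ∧ (∀ᶠ z in 𝓝 x, w (ι (ψ z)) = z) ∧
      (∀ᶠ s in 𝓝 (ψ x), ψ (w (ι s)) = s) ∧ LH (fun s => w (ι s)) (ψ x) := by
  obtain ⟨h0, -, w, h2, h3⟩ := h
  refine ⟨w, h2, h3.self_of_nhds, h3, ?_, ?_⟩
  · rw [← h0.map_nhds, eventually_map]
    filter_upwards [h3] with z hz using by rw [hz]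
  · exact LH.of_comp_right ((LH.id x).congr (by filter_upwards [h3] with z hz using hz.symm)) h0

theorem eventually_cont [CompleteSpace A] (h : IsParam ι ψ x) :
    ∀ᶠ s in 𝓝 (ψ x), ContinuousAt ι s := by
  obtain ⟨g, h0, h1, -, h3⟩ := h.lh.exists_inv
  have h4 : ∀ᶠ s in 𝓝 (ψ x), AnalyticAt ℂ (fun z => ι (ψ z)) (g s) :=
    h1.cont.eventually (by rw [h0]; exact h.an.eventually_analyticAt)
  filter_upwards [h4, h1.eventually_cont, h3.eventually_nhds] with s a b c
  exact (a.continuousAt.comp b).congr (by filter_upwards [c] with s hs using congrArg ι hs)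

theorem cont (h : IsParam ι ψ x) : ContinuousAt ι (ψ x) := by
  obtain ⟨g, h0, h1, -, h3⟩ := h.lh.exists_inv
  exact (ContinuousAt.comp_of_eq h.an.continuousAt h1.cont h0).congr
    (by filter_upwards [h3] with s hs using congrArg ι hs)

theorem eventually_inj (h : IsParam ι ψ x) :
    ∀ᶠ p in 𝓝 (ψ x) ×ˢ 𝓝 (ψ x), ι p.1 = ι p.2 → p.1 = p.2 := by
  obtain ⟨w, -, -, -, h1, -⟩ := h.exists_inv
  filter_upwards [tendsto_fst.eventually h1, tendsto_snd.eventually h1] with p a b c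
  rw [← a, c, b]

theorem holAt_iff (h : IsParam ι ψ x) {f : T → B} :
    HolAt ι f (ψ x) ↔ AnalyticAt ℂ (fun z => f (ψ z)) x := by
  refine ⟨fun hf => hf.an_comp h.lh.cont h.an, fun hf => ?_⟩
  obtain ⟨w, h1, h2, -, h3, -⟩ := h.exists_inv
  exact ⟨fun a => f (ψ (w a)), AnalyticAt.comp (g := fun z => f (ψ z)) (by rwa [h2]) h1,
    by filter_upwards [h3] with s hs using by rw [hs]⟩

theorem congr {ψ' : E → T} (h : IsParam ι ψ x) (h' : ψ =ᶠ[𝓝 x] ψ') : IsParam ι ψ' x := by
  obtain ⟨h0, h1, w, h2, h3⟩ := h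
  refine ⟨h0.congr h', h1.congr (by filter_upwards [h'] with z hz using by rw [hz]), w,
    by rwa [← h'.self_of_nhds], by filter_upwards [h', h3] with z a b using by rwa [← a]⟩

theorem eventually [CompleteSpace A] [CompleteSpace E] (h : IsParam ι ψ x) :
    ∀ᶠ y in 𝓝 x, IsParam ι ψ y := by
  obtain ⟨h0, h1, w, h2, h3⟩ := h
  filter_upwards [h0.eventually, h1.eventually_analyticAt,
    h1.continuousAt.eventually h2.eventually_analyticAt, h3.eventually_nhds] with y a b c d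
    using ⟨a, b, w, c, d⟩

/-- Reparametrization. -/
theorem comp [FiniteDimensional ℂ F] {u : F → E} {y : F} (h : IsParam ι ψ (u y))
    (hu : AnalyticAt ℂ u y) (hb : Bijective (fderiv ℂ u y)) : IsParam ι (fun z => ψ (u z)) y := by
  obtain ⟨h0, h1, w, h2, h3⟩ := h
  obtain ⟨h4, g, h5, -, h6, -⟩ := ift hu hb
  refine ⟨h0.comp h4, h1.comp (g := fun z => ι (ψ z)) hu, fun a => g (w a),
    AnalyticAt.comp (by rwa [h3.self_of_nhds]) h2, ?_⟩
  filter_upwards [hu.continuousAt.eventually h3, h6] with z a b using by rw [a, b]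

/-- Holomorphic maps into `T` are analytic in a parametrization. -/
theorem lift (h : IsParam ι ψ x) {u : F → T} {y : F} (h0 : u y = ψ x) (hu : ContinuousAt u y)
    (hι : AnalyticAt ℂ (fun z => ι (u z)) y) :
    ∃ k : F → E, AnalyticAt ℂ k y ∧ k y = x ∧ (∀ᶠ z in 𝓝 y, u z = ψ (k z)) ∧
      fderiv ℂ (fun z => ι (u z)) y = (fderiv ℂ (fun z => ι (ψ z)) x).comp (fderiv ℂ k y) := by
  obtain ⟨w, h1, h2, -, h3, -⟩ := h.exists_inv
  have hk : AnalyticAt ℂ (fun z => w (ι (u z))) y :=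
    AnalyticAt.comp (f := fun z => ι (u z)) (by rwa [h0]) hι
  have hky : w (ι (u y)) = x := by rw [h0, h2]
  have he : ∀ᶠ z in 𝓝 y, u z = ψ (w (ι (u z))) := by
    filter_upwards [hu.eventually (h0 ▸ h3)] with z hz using hz.symm
  refine ⟨_, hk, hky, he, ?_⟩
  have h4 := fderiv_comp_an (g := fun z => ι (ψ z)) (f := fun z => w (ι (u z))) (x := y)
    (by rw [hky]; exact h.an) hk
  rw [hky] at h4
  rw [← h4]
  exact EventuallyEq.fderiv_eq (by filter_upwards [he] with z hz using congrArg ι hz)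

theorem tan_eq (h : IsParam ι ψ x) :
    tan ι (ψ x) = LinearMap.range (fderiv ℂ (fun z => ι (ψ z)) x : E →ₗ[ℂ] A) := by
  refine le_antisymm (fun v hv => ?_) ?_
  · obtain ⟨w, h1, h2, -, h3, -⟩ := h.exists_inv
    have h4 : AnalyticAt ℂ (fun z => ι (ψ z)) (w (ι (ψ x))) := by rw [h2]; exact h.an
    have h5 := hv (fun a => a - ι (ψ (w a))) (analyticAt_id.sub (h4.comp h1))
      (by filter_upwards [h3] with s hs using by rw [hs, sub_self])
    have h6 := (hasFDerivAt_id (ι (ψ x))).sub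
      (h4.differentiableAt.hasFDerivAt.comp _ h1.differentiableAt.hasFDerivAt)
    rw [show fderiv ℂ (fun a => a - ι (ψ (w a))) (ι (ψ x)) = _ from h6.fderiv, h2] at h5
    exact ⟨fderiv ℂ w (ι (ψ x)) v, (sub_eq_zero.1 (by simpa using h5)).symm⟩
  · rintro _ ⟨v, rfl⟩
    exact fderiv_mem_tan h.lh.cont h.an v

theorem finrank_tan (h : IsParam ι ψ x) :
    Module.finrank ℂ (tan ι (ψ x)) = Module.finrank ℂ E := by
  rw [h.tan_eq, LinearMap.finrank_range_of_inj h.injective]

theorem finrank_eq {φ : F → T} {y : F} (h : IsParam ι ψ x) (h' : IsParam ι φ y) (h0 : φ y = ψ x) :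
    Module.finrank ℂ F = Module.finrank ℂ E := by
  rw [← h.finrank_tan, ← h'.finrank_tan, h0]

/-- Analytic functions vanishing on `T` kill the tangent space. -/
theorem fderiv_eq_zero (h : IsParam ι ψ x) {Φ : A → B} (h1 : AnalyticAt ℂ Φ (ι (ψ x)))
    (h2 : ∀ᶠ s in 𝓝 (ψ x), Φ (ι s) = 0) {v : A} (hv : v ∈ tan ι (ψ x)) :
    fderiv ℂ Φ (ι (ψ x)) v = 0 := by
  rw [h.tan_eq] at hv
  obtain ⟨v, rfl⟩ := hv
  have h3 : fderiv ℂ (fun z => Φ (ι (ψ z))) x = fderiv ℂ (fun _ : E => (0 : B)) x :=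
    EventuallyEq.fderiv_eq (h.lh.cont.eventually h2)
  rw [fderiv_comp_an (f := fun z => ι (ψ z)) h1 h.an, fderiv_fun_const] at h3
  exact congr($h3 v)

/-- An immersion into a manifold of the same dimension is a parametrization. -/
theorem of_injective [FiniteDimensional ℂ E] [FiniteDimensional ℂ F] (h : IsParam ι ψ x)
    {φ : F → T} {y : F} (h0 : φ y = ψ x) (hu : ContinuousAt φ y)
    (hι : AnalyticAt ℂ (fun z => ι (φ z)) y) (hi : Injective (fderiv ℂ (fun z => ι (φ z)) y))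
    (hd : Module.finrank ℂ F = Module.finrank ℂ E) : IsParam ι φ y := by
  obtain ⟨k, h1, h2, h3, h4⟩ := h.lift h0 hu hι
  rw [h4] at hi
  have h5 : Bijective (fderiv ℂ k y) := bijective_of_injective _ (Injective.of_comp hi) hd
  exact (IsParam.comp (h2 ▸ h) h1 h5).congr (by filter_upwards [h3] with z hz using hz.symm)

/-- A map whose derivative is a bijection onto the tangent space is a parametrization. -/
theorem of_range [FiniteDimensional ℂ F] (h : IsParam ι ψ x)
    {φ : F → T} {y : F} (h0 : φ y = ψ x) (hu : ContinuousAt φ y)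
    (hι : AnalyticAt ℂ (fun z => ι (φ z)) y) (hi : Injective (fderiv ℂ (fun z => ι (φ z)) y))
    (hs : ∀ v ∈ tan ι (φ y), ∃ z, fderiv ℂ (fun z => ι (φ z)) y z = v) : IsParam ι φ y := by
  obtain ⟨k, h1, h2, h3, h4⟩ := h.lift h0 hu hι
  have h5 : Bijective (fderiv ℂ k y) := by
    refine ⟨Injective.of_comp (f := fderiv ℂ (fun z => ι (ψ z)) x) (by rw [h4] at hi; exact hi),
      fun v => ?_⟩
    obtain ⟨z, hz⟩ := hs _ (h0 ▸ fderiv_mem_tan h.lh.cont h.an v)
    rw [h4] at hz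
    exact ⟨z, h.injective hz⟩
  exact (IsParam.comp (h2 ▸ h) h1 h5).congr (by filter_upwards [h3] with z hz using hz.symm)

/-- Transition maps between parametrizations. -/
theorem transition (h : IsParam ι ψ x) {φ : F → T} {y : F} (h' : IsParam ι φ y) (h0 : φ y = ψ x) :
    ∃ k : F → E, AnalyticAt ℂ k y ∧ k y = x ∧ (∀ᶠ z in 𝓝 y, φ z = ψ (k z)) ∧
      Bijective (fderiv ℂ k y) := by
  obtain ⟨k, h1, h2, h3, h4⟩ := h.lift h0 h'.lh.cont h'.an
  refine ⟨k, h1, h2, h3, Injective.of_comp (f := fderiv ℂ (fun z => ι (ψ z)) x)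
    (by have := h'.injective; rw [h4] at this; exact this), fun v => ?_⟩
  have h5 := fderiv_mem_tan h.lh.cont h.an v
  rw [← h0, h'.tan_eq] at h5
  obtain ⟨z, hz⟩ := h5
  rw [h4] at hz
  exact ⟨z, h.injective hz⟩

/-- An immersion that is open at the base point is a parametrization. -/
theorem of_map_nhds [FiniteDimensional ℂ E] [FiniteDimensional ℂ A]
    (hc : ∀ᶠ z in 𝓝 x, ContinuousAt ψ z) (hι : ∀ᶠ s in 𝓝 (ψ x), ContinuousAt ι s)
    (ha : AnalyticAt ℂ (fun z => ι (ψ z)) x) (hi : Injective (fderiv ℂ (fun z => ι (ψ z)) x))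
    (hm : 𝓝 (ψ x) ≤ map ψ (𝓝 x)) : IsParam ι ψ x := by
  have := FiniteDimensional.complete ℂ E
  obtain ⟨w, h1, h2⟩ := exists_leftInv ha hi
  refine ⟨LH.of_inv (fun s => w (ι s)) hc ?_ h2 (hm ?_), ha, w, h1, h2⟩
  · filter_upwards [hι, hι.self_of_nhds.eventually h1.eventually_analyticAt] with s a b
      using b.continuousAt.comp a
  · rw [mem_map]
    filter_upwards [h2] with z hz
    change ψ (w (ι (ψ z))) = ψ z
    rw [hz]

/-- Change of the coordinates. -/
theorem change {ι' : T → A'} (h : IsParam ι ψ x) (h1 : HolAt ι ι' (ψ x)) (h2 : HolAt ι' ι (ψ x)) :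
    IsParam ι' ψ x := by
  obtain ⟨w, h3, -, h4, -, -⟩ := h.exists_inv
  obtain ⟨Φ, h5, h6⟩ := h2
  refine ⟨h.lh, h.holAt_iff.1 h1, fun a => w (Φ a),
    AnalyticAt.comp (by rwa [← h6.self_of_nhds]) h5, ?_⟩
  filter_upwards [h4, h.lh.cont.eventually h6] with z a b using by rw [← b, a]

theorem self (a : A) : IsParam (fun z : A => z) (fun z => z) a :=
  ⟨LH.id a, analyticAt_id, id, analyticAt_id, Eventually.of_forall fun _ => rfl⟩

theorem prod {ι' : T' → A'} {φ : F → T'} {y : F} (h : IsParam ι ψ x) (h' : IsParam ι' φ y) :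
    IsParam (Prod.map ι ι') (Prod.map ψ φ) (x, y) := by
  obtain ⟨h0, h1, w, h2, h3⟩ := h
  obtain ⟨h0', h1', w', h2', h3'⟩ := h'
  refine ⟨h0.prodMap h0', (h1.comp (f := Prod.fst) (x := (x, y)) analyticAt_fst).prod
    (h1'.comp (f := Prod.snd) (x := (x, y)) analyticAt_snd), Prod.map w w',
    (AnalyticAt.comp (f := Prod.fst) h2 analyticAt_fst).prod
      (AnalyticAt.comp (f := Prod.snd) h2' analyticAt_snd), ?_⟩
  filter_upwards [(continuousAt_fst (p := (x, y))).eventually h3,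
    (continuousAt_snd (p := (x, y))).eventually h3'] with z a b using Prod.ext a b

/-- Push forward along a local homeomorphism, for compatible coordinates. -/
theorem push {ι' : T' → A'} {u : T → T'} (h : IsParam ι ψ x) (hu : LH u (ψ x))
    (h1 : HolAt ι (fun s => ι' (u s)) (ψ x)) (h2 : HolAt (fun s => ι' (u s)) ι (ψ x)) :
    IsParam ι' (fun z => u (ψ z)) x :=
  ⟨hu.comp h.lh, (h.change h1 h2).2⟩

/-- Pull back along a local homeomorphism. -/
theorem pull {u : T' → T} {t' : T'} (h : IsParam ι ψ x) (hu : LH u t') (h0 : u t' = ψ x) :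
    ∃ φ : E → T', φ x = t' ∧ (∀ᶠ z in 𝓝 x, u (φ z) = ψ z) ∧ IsParam (fun s => ι (u s)) φ x := by
  obtain ⟨g, h1, h2, -, h3⟩ := hu.exists_inv
  rw [h0] at h1 h2 h3
  have h4 : ∀ᶠ z in 𝓝 x, u (g (ψ z)) = ψ z := h.lh.cont.eventually h3
  obtain ⟨h5, h6, w, h7, h8⟩ := h
  refine ⟨fun z => g (ψ z), h1, h4, h2.comp h5,
    h6.congr (by filter_upwards [h4] with z hz using by rw [hz]), w,
    by beta_reduce; rwa [h4.self_of_nhds],
    by filter_upwards [h4, h8] with z a b using by rw [a, b]⟩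

theorem isMfd [FiniteDimensional ℂ E] (h : IsParam ι ψ x) {n : ℕ} (hn : Module.finrank ℂ E = n) :
    IsMfd ι n (ψ x) := by
  let e : (Fin n → ℂ) ≃L[ℂ] E :=
    ContinuousLinearEquiv.ofFinrankEq (by rw [Module.finrank_fin_fun, hn])
  have h1 : HasFDerivAt (fun z => x + e z) (e : (Fin n → ℂ) →L[ℂ] E) 0 :=
    e.hasFDerivAt.const_add x
  refine ⟨fun z => ψ (x + e z), IsParam.comp (u := fun z => x + e z) (by simpa using h)
    (analyticAt_const.add (e.analyticAt _)) (by rw [h1.fderiv]; exact e.bijective), by simp⟩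

end IsParam

end Vale.Agent.P269.Holo
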