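import Vale.Agent.P269.Holo.PB
import Vale.Agent.P269.Orb.Brg

set_option linter.all false

/-!
# Étale maps of presentations: orbit spaces, fundamental classes, charts of the statement
-/

namespace Vale.Agent.P269.Holo

open Set Function Topology Filter Module Vale.Agent.P291Z Vale.Agent.P269.Orb

section proper

variable {G₁ G₂ T₁ T₂ : Type*} [Group G₁] [TopologicalSpace G₁] [Group G₂] [TopologicalSpace G₂]
  [TopologicalSpace T₁] [TopologicalSpace T₂] [MulAction G₁ T₁] [MulAction G₂ T₂]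
  {ρ : G₁ →* G₂} {f : T₁ → T₂}

/-- properness lifts to a torsor -/
theorem Tor.properSMul (h : Tor ρ f) [IsTopologicalGroup G₁] [IsTopologicalGroup G₂]
    [ContinuousSMul G₁ T₁] [ProperSMul G₂ T₂] : ProperSMul G₁ T₁ := by
  refine properSMul_iff_continuousSMul_ultrafilter_tendsto.2 ⟨inferInstance, fun U x y hU => ?_⟩
  obtain ⟨k, h1, h2⟩ := (properSMul_iff_continuousSMul_ultrafilter_tendsto.1
    (inferInstance : ProperSMul G₂ T₂)).2 (U.map (Prod.map ρ f)) (f x) (f y) (by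
      have := ((h.cf.prodMap h.cf).tendsto (x, y)).comp hU
      simpa [Function.comp_def, h.eqv, tendsto_map'_iff] using this)
  obtain ⟨g, rfl, rfl⟩ := h.exists_smul h1
  refine ⟨g, rfl, tendsto_def.2 fun V hV => ?_⟩
  have h3 : Tendsto (fun q : G₁ × G₁ => g * (q.1 * q.2)) (𝓝 1 ×ˢ 𝓝 1) (𝓝 g) := by
    rw [← nhds_prod_eq]
    exact Continuous.tendsto' (by fun_prop) _ _ (by simp)
  obtain ⟨O, hO, O', hO', h4⟩ := eventually_prod_iff.1 (h3.eventually hV)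
  obtain ⟨R, hR, R', hR', h5⟩ := eventually_prod_iff.1 (h.rigid y _ hO)
  have h6 : Tendsto (fun q : G₁ × T₁ => q.1 • q.2) (𝓝 1 ×ˢ 𝓝 y) (𝓝 y) := by
    rw [← nhds_prod_eq]
    exact continuous_smul.tendsto' _ _ (one_smul _ _)
  obtain ⟨P, hP, Q, hQ, h7⟩ := eventually_prod_iff.1 (h6.eventually hR)
  have h8 : Tendsto (fun p : G₁ × T₁ => ρ (g⁻¹ * p.1)) U (𝓝 (ρ 1)) := by
    have := (tendsto_const_nhds (x := (ρ g)⁻¹)).mul (tendsto_map'_iff.1 h2)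
    rw [inv_mul_cancel] at this
    simpa [Function.comp_def] using this
  have h9 : Tendsto (fun p : G₁ × T₁ => g⁻¹ • p.1 • p.2) U (𝓝 y) := by
    simpa using (continuousAt_fst.tendsto.comp hU).const_smul g⁻¹
  filter_upwards [h8.eventually (h.oq.isOpenMap.image_mem_nhds (hO'.and hP)), h9.eventually hR',
    (continuousAt_snd.tendsto.comp hU).eventually hQ] with p ⟨s, a, e⟩ b c
  have h10 : g * (g⁻¹ * p.1 * s⁻¹ * s) ∈ V := h4 (h5 (h7 a.2 c) b (g⁻¹ * p.1 * s⁻¹) (by rw [map_mul, map_inv, e, mul_inv_cancel])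
    (by simp [mul_smul])) a.1
  rwa [inv_mul_cancel_right, mul_inv_cancel_left] at h10

end proper

section orb

variable {G₁ G₂ T₁ T₂ X₁ X₂ A₁ A₂ : Type} [Group G₁] [TopologicalSpace G₁] [Group G₂]
  [TopologicalSpace G₂] [TopologicalSpace T₁] [TopologicalSpace T₂] [MulAction G₁ T₁]
  [MulAction G₂ T₂] [TopologicalSpace X₁] [TopologicalSpace X₂] [NormedAddCommGroup A₁]
  [NormedSpace ℂ A₁] [NormedAddCommGroup A₂] [NormedSpace ℂ A₂] {ι₁ : T₁ → A₁} {ι₂ : T₂ → A₂}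
  {ρ : G₁ →* G₂} {f : T₁ → T₂} {π₁ : T₁ → X₁} {π₂ : T₂ → X₂} {F : X₁ → X₂} {n : ℕ}

theorem Tor.stab_eq (h : Tor ρ f) (t : T₁) : stab G₂ (f t) = stab G₁ t :=
  (stab_of_bijOn (h.bijOn t t)).symm

theorem Tor.exists_map (h : Tor ρ f) (h₁ : IsQuo G₁ π₁) (h₂ : IsQuo G₂ π₂) :
    ∃ F : X₁ → X₂, ∀ t, F (π₁ t) = π₂ (f t) :=
  h₁.exists_lift _ fun g t => by rw [h.eqv, h₂.smul]

theorem Tor.injective_map (h : Tor ρ f) (h₁ : IsQuo G₁ π₁) (h₂ : IsQuo G₂ π₂)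
    (e : ∀ t, F (π₁ t) = π₂ (f t)) : Injective F := fun x x' hx => by
  obtain ⟨t, rfl⟩ := h₁.surj x
  obtain ⟨t', rfl⟩ := h₁.surj x'
  rw [e, e] at hx
  obtain ⟨g, hg⟩ := (h₂.eq_iff _ _).1 hx
  obtain ⟨g', -, h1⟩ := h.exists_smul hg
  exact (h₁.eq_iff _ _).2 ⟨g', h1⟩

namespace PB

variable (h : PB ι₁ ι₂ ρ f)
include h

/-- properness descends to the base -/
theorem properSMul_push [ContinuousSMul G₂ T₂] [ProperSMul G₁ T₁] (hs : Surjective f) :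
    ProperSMul G₂ T₂ := by
  refine properSMul_iff_continuousSMul_ultrafilter_tendsto.2 ⟨inferInstance, fun U x y hU => ?_⟩
  obtain ⟨x, rfl⟩ := hs x
  obtain ⟨y, rfl⟩ := hs y
  obtain ⟨σ, h1⟩ := h.sec x
  obtain ⟨τ, h2⟩ := h.sec y
  have h3 := continuousAt_fst.tendsto.comp hU
  have h4 := continuousAt_snd.tendsto.comp hU
  have h5 : ∀ᶠ p : G₂ × T₂ in U, ∃ g, ρ g = p.1 ∧ g • τ p.2 = σ (p.1 • p.2) :=
    ((h3.eventually h1.inv).and (h4.eventually h2.inv)).mono fun p hp =>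
      h.exists_smul ((congrArg _ hp.2).trans hp.1.symm)
  obtain ⟨g, h6⟩ := h5.choice
  obtain ⟨k, h7, h8⟩ := (properSMul_iff_continuousSMul_ultrafilter_tendsto.1
    (inferInstance : ProperSMul G₁ T₁)).2 (U.map fun p => (g p, τ p.2)) x y
      (((h1.tendsto.comp h3).congr' (h6.mono fun p hp => hp.2.symm)).prodMk_nhds
        (h2.tendsto.comp h4))
  exact ⟨ρ k, by rw [← h.eqv, h7], ((h.oq.continuous.tendsto k).comp
    (tendsto_map'_iff.1 h8)).congr' (h6.mono fun p hp => hp.1)⟩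

theorem holOrb_lift (h₁ : PreOrb G₁ ι₁) (h₂ : HolOrb G₂ ι₂ n) : HolOrb G₁ ι₁ n :=
  haveI := h₁.grp
  haveI := h₁.proper
  ⟨h₁.grp, h₁.proper, h₁.nice, h₁.complete, fun t =>
    let ⟨_, h1, h2⟩ := h₂.slice (f t)
    (h.lift (isSlice_iff.1 h1) h2).imp fun _ h => ⟨h.1, h.2.1⟩, h₁.hol⟩

theorem holOrb_push (hs : Surjective f) (h₁ : HolOrb G₁ ι₁ n) (h₂ : PreOrb G₂ ι₂) :
    HolOrb G₂ ι₂ n :=
  haveI := h₁.grp
  haveI := h₂.proper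
  ⟨h₂.grp, h₂.proper, h₂.nice, h₂.complete, fun s => by
    obtain ⟨t, rfl⟩ := hs s
    obtain ⟨φ, h1, rfl⟩ := h₁.slice t
    exact ⟨_, isSlice_iff.2 (h.push (isSlice_iff.1 h1)), rfl⟩, h₂.hol⟩

theorem mem_sm_iff (h₁ : PreOrb G₁ ι₁) (h₂ : PreOrb G₂ ι₂) {t : T₁} :
    f t ∈ h₂.sm n ↔ t ∈ h₁.sm n :=
  haveI := h₁.grp
  haveI := h₁.proper
  haveI := h₂.proper
  ⟨fun ⟨_, h1, h2⟩ => (h.lift (isSlice_iff.1 h1) h2).imp fun _ h => ⟨h.1, h.2.1⟩,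
    fun ⟨_, h1, h2⟩ => ⟨_, isSlice_iff.2 (h.push (isSlice_iff.1 h1)), congrArg f h2⟩⟩

variable (h₁ : IsQuo G₁ π₁) (h₂ : IsQuo G₂ π₂) (e : ∀ t, F (π₁ t) = π₂ (f t))
include h₁ h₂ e

/-- **the map of orbit spaces is an open embedding** -/
theorem isOpenEmbedding : IsOpenEmbedding F :=
  .of_continuous_injective_isOpenMap (h₁.continuous_map h₂ e h.cf) (h.injective_map h₁ h₂ e)
    (h₁.isOpenMap_map h₂ e h.isOpenMap)

theorem isHomeomorph (hs : Surjective f) : IsHomeomorph F :=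
  ⟨h₁.continuous_map h₂ e h.cf, h₁.isOpenMap_map h₂ e h.isOpenMap, h.injective_map h₁ h₂ e,
    fun x => by
      obtain ⟨s, rfl⟩ := h₂.surj x
      obtain ⟨t, rfl⟩ := hs s
      exact ⟨_, e t⟩⟩

theorem res_fundQ [Nice X₂] (k₁ : HolOrb G₁ ι₁ n) (k₂ : HolOrb G₂ ι₂ n) :
    res F (fundQ G₂ ι₂ π₂ n) = fundQ G₁ ι₁ π₁ n := by
  haveI := k₁.grp
  haveI := k₂.proper
  rw [← one_smul ℂ (fundQ G₁ ι₁ π₁ n)]
  refine k₂.res_fund h₂ k₁ h₁ (h.isOpenEmbedding h₁ h₂ e) (h₁.meets dense_univ) fun t _ => ?_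
  obtain ⟨φ, h1, rfl⟩ := k₁.slice t
  exact ⟨φ, _, h1, rfl, isSlice_iff.2 (h.push (isSlice_iff.1 h1)), Eventually.of_forall fun z => (e _).symm,
    by rw [one_mul, h.stab_eq]⟩

variable [IsTopologicalGroup G₁] [Nice X₁] [Nice X₂] {β : BM X₂}

/-- **fundamental classes restrict**, also for singular spaces -/
theorem isFund_res [ContinuousSMul G₂ T₂] (hβ : Orb.IsFund (slCh G₂ ι₂ π₂ n) β) :
    Orb.IsFund (slCh G₁ ι₁ π₁ n) (res F β) := by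
  refine ⟨hβ.1.res F, ?_⟩
  rintro _ _ ⟨φ, h1, rfl, rfl⟩
  exact Val.res (h.isOpenEmbedding h₁ h₂ e) (h₁.cont.continuousAt.comp h1.cont)
    (Val.congr (hβ.2 _ _ ⟨_, isSlice_iff.2 (h.push (isSlice_iff.1 h1)), rfl, (h.stab_eq _).symm⟩)
      (Eventually.of_forall fun z => (e _).symm))

theorem isFund_of_res [ContinuousSMul G₁ T₁] (hs : Surjective f)
    (hβ : Orb.IsFund (slCh G₁ ι₁ π₁ n) (res F β)) : Orb.IsFund (slCh G₂ ι₂ π₂ n) β := by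
  refine ⟨push_res_homeo (h.isHomeomorph h₁ h₂ e hs) β ▸ hβ.1.push F, ?_⟩
  rintro _ _ ⟨ψ, h1, rfl, rfl⟩
  obtain ⟨t, h2⟩ := hs (ψ 0)
  obtain ⟨φ, h3, rfl, h4⟩ := h.lift (isSlice_iff.1 h1) h2.symm
  exact (Val.of_res (h.isOpenEmbedding h₁ h₂ e) (hβ.2 _ _ ⟨φ, h3, rfl, by
    rw [← h2, h.stab_eq]⟩)).congr (h4.mono fun z hz => (e _).trans (congrArg π₂ hz))

end PB

end orb

section ho

variable {Y₁ Y₂ : Loc.HO} (m : Ch.Mor Y₁.toSp Y₂.toSp) {d : Y₁.L →L[ℂ] Y₂.L}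
  (hd : ∀ x, m.ρ (Y₁.κ x) = Y₂.κ (d x)) (sd : Surjective d) (sr : Surjective m.ρ)
  (fib : ∀ t t', m.f t = m.f t' → ∃! g, m.ρ g = 1 ∧ g • t = t')
include hd sd sr fib

theorem etale_tor : Tor m.ρ m.f :=
  haveI := Y₂.exp.t1Space
  have h : ∀ (t : Y₁.T) g, m.ρ g = 1 → g • t = t → g = 1 := fun t g h1 h2 =>
    (fib t t rfl).unique ⟨h1, h2⟩ ⟨map_one _, one_smul _ _⟩
  ⟨⟨sr, m.cρ, Y₁.exp.isOpenMap Y₂.exp hd sd⟩, m.cf, m.eqv, fun t t' e => (fib t t' e).exists, h,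
    fun t => Rigid.of_proper m.cρ (h t)⟩

theorem etale_pb (hn : Y₁.n = Y₂.n) (hol : ∀ t, HolAt Y₁.ι (fun s => Y₂.ι (m.f s)) t) :
    PB Y₁.ι Y₂.ι m.ρ m.f :=
  ⟨etale_tor m hd sd sr fib, hol, fun t => (etale_tor m hd sd sr fib).exists_lsec Y₁.exp Y₂.exp hd sd
    (Y₁.mfd t) (Y₂.mfd _) (by omega) (Y₁.hol t) (hol t)⟩

end ho

/-- **Étale maps of complex orbifolds** -/
theorem etale (Y₁ Y₂ : Loc.HO) (hn : Y₁.n = Y₂.n) (m : Ch.Mor Y₁.toSp Y₂.toSp)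
    (hol : ∀ t, HolAt Y₁.ι (fun s => Y₂.ι (m.f s)) t) (d : Y₁.L →L[ℂ] Y₂.L)
    (hd : ∀ x, m.ρ (Y₁.κ x) = Y₂.κ (d x)) (sd : Surjective d) (sr : Surjective m.ρ)
    (fib : ∀ t t', m.f t = m.f t' → ∃! g, m.ρ g = 1 ∧ g • t = t') :
    IsOpenEmbedding m.map ∧ (∀ t, BijOn m.ρ {g | g • t = t} {g | g • m.f t = m.f t}) ∧
      (∀ (k : ℕ) (φ : (Fin k → ℂ) → Y₁.T) y, IsSlK Y₁.κ Y₁.ι φ y →
        IsSlK Y₂.κ Y₂.ι (fun z => m.f (φ z)) y) ∧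
      res m.map (fundQ Y₂.G Y₂.ι Y₂.π Y₂.n) = fundQ Y₁.G Y₁.ι Y₁.π Y₁.n ∧
      (∀ t, ∃ σ, LSec Y₁.ι Y₂.ι m.f σ t) ∧ IsOpenMap m.f :=
  have h := etale_pb m hd sd sr fib hn hol
  ⟨h.isOpenEmbedding Y₁.isQuo Y₂.isQuo m.map_π, fun t => h.bijOn t t,
    fun _ _ _ hφ => h.pushK Y₁.exp Y₂.exp Y₂.emb (Y₂.hol _) hφ,
    hn ▸ h.res_fundQ Y₁.isQuo Y₂.isQuo m.map_π Y₁.holOrb' (hn ▸ Y₂.holOrb'), h.sec, h.isOpenMap⟩

section stmt

variable {A₁ A₂ W₁ W₂ B : Type} [NormedRing A₁] [NormedAlgebra ℂ A₁] [NormedRing A₂]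
  [NormedAlgebra ℂ A₂] [NormedAddCommGroup W₁] [NormedSpace ℂ W₁] [NormedAddCommGroup W₂]
  [NormedSpace ℂ W₂] [NormedAddCommGroup B] [NormedSpace ℂ B] {act₁ : A₁ → W₁ → W₁}
  {act₂ : A₂ → W₂ → W₂} {T₁ S₁ : Set W₁} {T₂ S₂ : Set W₂} {θ : A₁ →L[ℂ] A₂} {f : W₁ → W₂}

theorem holAt_spv_iff {g : W₁ → B} {x : Sp act₁ T₁} : HolAt Sp.val (fun s => g s.val) x ↔
    ∃ Φ, AnalyticAt ℂ Φ x.val ∧ ∀ᶠ y in 𝓝[T₁] x.val, g y = Φ y :=
  exists_congr fun Φ => and_congr_right' (eventually_nhds_subtype_iff T₁ x fun y => g y = Φ y)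

open Polynomial in
/-- a surjective homomorphism of finite dimensional algebras is surjective on units -/
theorem exists_unit_of_surj [FiniteDimensional ℂ A₁] (one : θ 1 = 1)
    (mul : ∀ a b, θ (a * b) = θ a * θ b) (surj : Surjective θ) (b : A₂) (hb : IsUnit b) :
    ∃ a, IsUnit a ∧ θ a = b := by
  obtain ⟨a, rfl⟩ := surj b
  let θ' : A₁ →ₐ[ℂ] A₂ := AlgHom.ofLinearMap θ.toLinearMap one mul
  obtain ⟨q, h1, h2⟩ := exists_eq_pow_rootMultiplicity_mul_and_not_dvd _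
    (minpoly.ne_zero (Algebra.IsIntegral.isIntegral (R := ℂ) a)) 0
  rw [map_zero, sub_zero] at h1 h2
  have h3 : IsCoprime X q := prime_X.irreducible.coprime_iff_not_dvd.2 h2
  obtain ⟨u, v, h4⟩ : IsCoprime (X + q) (minpoly ℂ a) := by
    rw [h1]
    refine IsCoprime.mul_right (IsCoprime.pow_right ?_) ?_
    · simpa [add_comm] using h3.symm.add_mul_left_left 1
    · simpa using h3.add_mul_left_left 1
  have h5 := congrArg (aeval a) h4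
  have h6 := congrArg (aeval a) ((congrArg (· + _) (mul_comm (X + q) u)).trans h4)
  have h7 := congrArg (fun p => θ' (aeval a p)) h1
  simp only [map_add, map_mul, minpoly.aeval, mul_zero, add_zero, map_one, aeval_X, map_zero,
    map_pow] at h5 h6 h7
  refine ⟨a + aeval a q, ⟨⟨_, _, h6, h5⟩, rfl⟩, ?_⟩
  rw [map_add, show θ (aeval a q) = 0 from (hb.pow _).mul_right_eq_zero.1 h7.symm, add_zero]

theorem free_of_unique [IsAct act₁ T₁] (one : θ 1 = 1)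
    (H : ∀ x ∈ T₁, ∀ y ∈ T₁, f x = f y → ∃! a, IsUnit a ∧ θ a = 1 ∧ act₁ a x = y) :
    ∀ x ∈ T₁, ∀ a, IsUnit a → θ a = 1 → act₁ a x = x → a = 1 := fun x hx _ h1 h2 h3 =>
  (H x hx x hx rfl).unique ⟨h1, h2, h3⟩ ⟨isUnit_one, one, IsAct.one x hx⟩

/-- `f : T₁ → T₂` is holomorphic and equivariant along `θ`; its fibres are free orbits of the
kernel of `θ` on units. -/
structure Et (act₁ : A₁ → W₁ → W₁) (act₂ : A₂ → W₂ → W₂) (T₁ : Set W₁) (T₂ : Set W₂)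
    (θ : A₁ →L[ℂ] A₂) (f : W₁ → W₂) : Prop where
  one : θ 1 = 1
  mul : ∀ a b, θ (a * b) = θ a * θ b
  surj : Surjective θ
  usurj : ∀ b, IsUnit b → ∃ a, IsUnit a ∧ θ a = b
  maps : MapsTo f T₁ T₂
  hol : ∀ x ∈ T₁, ∃ Φ, AnalyticAt ℂ Φ x ∧ ∀ᶠ y in 𝓝[T₁] x, f y = Φ y
  eqv : ∀ a, IsUnit a → ∀ x ∈ T₁, f (act₁ a x) = act₂ (θ a) (f x)
  fib : ∀ x ∈ T₁, ∀ y ∈ T₁, f x = f y → ∃ a, IsUnit a ∧ θ a = 1 ∧ act₁ a x = y
  free : ∀ x ∈ T₁, ∀ a, IsUnit a → θ a = 1 → act₁ a x = x → a = 1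

/-- the units in the kernel of `θ` that move points near `x` to points near `x` tend to `1` -/
def Rig (act₁ : A₁ → W₁ → W₁) (T₁ : Set W₁) (θ : A₁ →L[ℂ] A₂) (x : W₁) : Prop :=
  ∀ (y : ℕ → W₁) (a : ℕ → A₁), (∀ n, y n ∈ T₁ ∧ IsUnit (a n) ∧ θ (a n) = 1) →
    Tendsto y atTop (𝓝 x) → Tendsto (fun n => act₁ (a n) (y n)) atTop (𝓝 x) → Tendsto a atTop (𝓝 1)

/-- `f : T₁ → T₂` is a holomorphic principal bundle over an open subset. -/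
structure Bun (act₁ : A₁ → W₁ → W₁) (act₂ : A₂ → W₂ → W₂) (T₁ : Set W₁) (T₂ : Set W₂)
    (θ : A₁ →L[ℂ] A₂) (f : W₁ → W₂) : Prop extends Et act₁ act₂ T₁ T₂ θ f where
  rig : ∀ x ∈ T₁, Rig act₁ T₁ θ x
  sec : ∀ x ∈ T₁, ∃ σ, AnalyticAt ℂ σ (f x) ∧ σ (f x) = x ∧
    ∀ᶠ y in 𝓝[T₂] (f x), σ y ∈ T₁ ∧ f (σ y) = y

namespace Et

variable (h : Et act₁ act₂ T₁ T₂ θ f)
include h

/-- `θ` as a ring homomorphism -/
noncomputable def ring : A₁ →+* A₂ := ⟨⟨⟨θ, h.one⟩, h.mul⟩, map_zero θ, map_add θ⟩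

/-- `θ` on units -/
noncomputable def ρ : A₁ˣ →* A₂ˣ := Units.map h.ring.toMonoidHom

@[simp] theorem ρ_val (g : A₁ˣ) : (h.ρ g : A₂) = θ g := rfl

theorem isUnit {a : A₁} (ha : IsUnit a) : IsUnit (θ a) := ha.map h.ring

/-- `f` on the spaces -/
def F (x : Sp act₁ T₁) : Sp act₂ T₂ := Sp.of act₂ (f x.val) (h.maps x.val_mem)

@[simp] theorem F_val (x : Sp act₁ T₁) : (h.F x).val = f x.val := rfl

/-- the induced map of orbit spaces -/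
def map : Quo act₁ T₁ → Quo act₂ T₂ :=
  Quot.map (fun x => ⟨f x, h.maps x.2⟩) fun x _ ⟨a, h1, h2⟩ =>
    ⟨θ a, h.isUnit h1, (congrArg f h2).trans (h.eqv a h1 x x.2)⟩

theorem map_mk (x : T₁) : h.map (Quo.mk act₁ x) = Quo.mk act₂ ⟨f x, h.maps x.2⟩ := rfl

theorem continuousOn : ContinuousOn f T₁ := fun x hx =>
  let ⟨_, h1, h2⟩ := h.hol x hx
  h1.continuousAt.continuousWithinAt.congr_of_eventuallyEq_of_mem h2 hx

theorem continuous_F : Continuous h.F := h.continuousOn.restrict.subtype_mk _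

theorem holAt (x : Sp act₁ T₁) : HolAt Sp.val (fun s => (h.F s).val) x :=
  holAt_spv_iff.2 (h.hol _ x.val_mem)

theorem mono (h₁ : S₁ ⊆ T₁) (hm : MapsTo f S₁ S₂) : Et act₁ act₂ S₁ S₂ θ f :=
  ⟨h.one, h.mul, h.surj, h.usurj, hm, fun x hx => (h.hol x (h₁ hx)).imp fun _ h =>
    ⟨h.1, h.2.filter_mono (nhdsWithin_mono _ h₁)⟩, fun a ha x hx => h.eqv a ha x (h₁ hx),
    fun x hx y hy => h.fib x (h₁ hx) y (h₁ hy), fun x hx => h.free x (h₁ hx)⟩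

theorem isAct_preimage [IsAct act₁ T₁] (hS : ∀ b, IsUnit b → ∀ y ∈ S₂, act₂ b y ∈ S₂) :
    IsAct act₁ (T₁ ∩ f ⁻¹' S₂) :=
  IsAct.mono ‹_› inter_subset_left fun a ha x hx => ⟨IsAct.mem a ha x hx.1, by
    rw [mem_preimage, h.eqv a ha x hx.1]
    exact hS _ (h.isUnit ha) _ hx.2⟩

theorem locallyCompact_preimage [LocallyCompactSpace T₁] (hS : IsLocallyClosed S₂) :
    LocallyCompactSpace (T₁ ∩ f ⁻¹' S₂ : Set W₁) :=
  (IsEmbedding.inclusion (inter_subset_left : T₁ ∩ f ⁻¹' S₂ ⊆ T₁)).isInducing.locallyCompactSpace (by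
    convert hS.preimage h.continuousOn.restrict using 1
    ext x
    simp)

variable [IsAct act₁ T₁] [IsAct act₂ T₂] [FiniteDimensional ℂ A₁] [FiniteDimensional ℂ A₂]

theorem ρ_exp [CompleteSpace A₁] [CompleteSpace A₂] (x : A₁) : h.ρ (expU x) = expU (θ x) :=
  Units.ext (NormedSpace.map_exp_of_mem_ball (𝕂 := ℂ) h.ring θ.continuous x
    ((NormedSpace.expSeries_radius_eq_top ℂ A₁).symm ▸ edist_lt_top _ _))

theorem isOpenQuotientMap_ρ : IsOpenQuotientMap h.ρ :=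
  have := FiniteDimensional.complete ℂ A₁
  have := FiniteDimensional.complete ℂ A₂
  ⟨fun g => let ⟨_, ⟨a, h1⟩, h2⟩ := h.usurj g g.isUnit
    ⟨a, Units.ext ((congrArg θ h1).trans h2)⟩, θ.continuous.units_map h.ring.toMonoidHom,
    isExp_expU.isOpenMap isExp_expU h.ρ_exp h.surj⟩

theorem rigid_iff {x : Sp act₁ T₁} : Rigid h.ρ x ↔ Rig act₁ T₁ θ x.val := by
  have := FiniteDimensional.complete ℂ A₁
  refine ⟨fun H y a h1 h2 h3 => ?_, fun H => Rigid.of_seq fun y g h1 h2 h3 =>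
    Units.isOpenEmbedding_val.isInducing.tendsto_nhds_iff.2 (H (fun n => (y n).val) (fun n => g n)
      (fun n => ⟨(y n).val_mem, (g n).isUnit, congrArg Units.val (h1 n)⟩)
      (Sp.continuous_val.continuousAt.tendsto.comp h2)
      (Sp.continuous_val.continuousAt.tendsto.comp h3))⟩
  choose h4 h5 h6 using h1
  lift a to ℕ → A₁ˣ using h5
  refine (Units.continuous_val.tendsto 1).comp (tendsto_def.2 fun O hO => ?_)
  have h7 : Tendsto (fun n => (Sp.of act₁ (y n) (h4 n), a n • Sp.of act₁ (y n) (h4 n))) atTop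
      (𝓝 x ×ˢ 𝓝 x) := Tendsto.prodMk (Sp.isEmbedding_val.isInducing.tendsto_nhds_iff.2 h2)
    (Sp.isEmbedding_val.isInducing.tendsto_nhds_iff.2 h3)
  exact (h7.eventually (H O hO)).mono fun n hn => hn _ (Units.ext (h6 n)) rfl

theorem free' (x : Sp act₁ T₁) (g : A₁ˣ) (h1 : h.ρ g = 1) (h2 : g • x = x) : g = 1 :=
  Units.ext (h.free _ x.val_mem g g.isUnit (congrArg Units.val h1) (congrArg Sp.val h2))

theorem rig_of_proper [ProperSMul A₁ˣ (Sp act₁ T₁)] : ∀ x ∈ T₁, Rig act₁ T₁ θ x := fun x hx =>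
  (h.rigid_iff (x := Sp.of act₁ x hx)).1
    (Rigid.of_proper h.isOpenQuotientMap_ρ.continuous (h.free' _))

theorem tor (hr : ∀ x ∈ T₁, Rig act₁ T₁ θ x) : Tor h.ρ h.F :=
  ⟨h.isOpenQuotientMap_ρ, h.continuous_F, fun g x => Sp.ext (h.eqv g g.isUnit _ x.val_mem),
    fun x y e => let ⟨_, ⟨a, h1⟩, h2, h3⟩ := h.fib _ x.val_mem _ y.val_mem (congrArg Sp.val e)
      ⟨a, Units.ext ((congrArg θ h1).trans h2), Sp.ext ((congrArg (act₁ · _) h1).trans h3)⟩,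
    h.free', fun x => h.rigid_iff.2 (hr _ x.val_mem)⟩

omit [IsAct act₁ T₁] [IsAct act₂ T₂] in
theorem sec_of_lsec {x : Sp act₁ T₁} {σ : Sp act₂ T₂ → Sp act₁ T₁} (hσ : LSec Sp.val Sp.val h.F σ x) :
    ∃ σ, AnalyticAt ℂ σ (f x.val) ∧ σ (f x.val) = x.val ∧
      ∀ᶠ y in 𝓝[T₂] (f x.val), σ y ∈ T₁ ∧ f (σ y) = y := by
  obtain ⟨Φ, h1, h2⟩ := hσ.hol
  exact ⟨Φ, h1, h2.self_of_nhds.symm.trans (congrArg Sp.val hσ.eq),
    (eventually_nhds_subtype_iff T₂ (h.F x) fun y => Φ y ∈ T₁ ∧ f (Φ y) = y).1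
      ((h2.and hσ.inv).mono fun s hs => ⟨hs.1 ▸ (σ s).val_mem,
        (congrArg f hs.1.symm).trans (congrArg Sp.val hs.2)⟩)⟩

/-- **local holomorphic sections from a dimension count** -/
theorem bun [FiniteDimensional ℂ W₁] (hr : ∀ x ∈ T₁, Rig act₁ T₁ θ x)
    (hm : ∀ x : Sp act₁ T₁, ∃ m₁ m₂, IsMfd Sp.val m₁ x ∧ IsMfd Sp.val m₂ (h.F x) ∧
      m₁ + finrank ℂ A₂ = m₂ + finrank ℂ A₁) : Bun act₁ act₂ T₁ T₂ θ f :=
  have := FiniteDimensional.complete ℂ A₁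
  have := FiniteDimensional.complete ℂ A₂
  have := FiniteDimensional.complete ℂ W₁
  ⟨h, hr, fun x hx =>
    let ⟨_, _, h1, h2, h3⟩ := hm (Sp.of act₁ x hx)
    let ⟨_, h4⟩ := (h.tor hr).exists_lsec isExp_expU isExp_expU h.ρ_exp h.surj h1 h2 h3
      (Sp.holAct _) (h.holAt _)
    h.sec_of_lsec h4⟩

/-- **étale maps** -/
theorem etale [FiniteDimensional ℂ W₁] [ProperSMul A₁ˣ (Sp act₁ T₁)] {n : ℕ}
    (h₁ : ∀ x : Sp act₁ T₁, IsMfd Sp.val (finrank ℂ A₁ + n) x)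
    (h₂ : ∀ x : Sp act₂ T₂, IsMfd Sp.val (finrank ℂ A₂ + n) x) : Bun act₁ act₂ T₁ T₂ θ f :=
  h.bun h.rig_of_proper fun x => ⟨_, _, h₁ x, h₂ _, by omega⟩

end Et

namespace Bun

variable (h : Bun act₁ act₂ T₁ T₂ θ f)
include h

/-- restriction to a subset of `T₂` and an open part of its preimage -/
theorem mono (h₁ : S₁ ⊆ T₁) (h₂ : S₂ ⊆ T₂) (hm : MapsTo f S₁ S₂)
    (hr : ∀ x ∈ S₁, ∀ᶠ y in 𝓝[T₁] x, f y ∈ S₂ → y ∈ S₁) : Bun act₁ act₂ S₁ S₂ θ f :=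
  ⟨h.toEt.mono h₁ hm, fun x hx y a h1 => h.rig x (h₁ hx) y a fun n => ⟨h₁ (h1 n).1, (h1 n).2⟩,
    fun x hx => by
      obtain ⟨σ, h1, h2, h3⟩ := h.sec x (h₁ hx)
      have h4 := h3.filter_mono (nhdsWithin_mono _ h₂)
      have h5 : Tendsto σ (𝓝[S₂] (f x)) (𝓝[T₁] x) := tendsto_nhdsWithin_iff.2
        ⟨(h1.continuousAt.tendsto.mono_right (by rw [h2])).mono_left nhdsWithin_le_nhds,
          h4.mono fun _ h => h.1⟩
      refine ⟨σ, h1, h2, ?_⟩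
      filter_upwards [h4, h5.eventually (hr x hx), self_mem_nhdsWithin] with y a b c
        using ⟨b (a.2.symm ▸ c), a.2⟩⟩

theorem restrict (h₂ : S₂ ⊆ T₂) : Bun act₁ act₂ (T₁ ∩ f ⁻¹' S₂) S₂ θ f :=
  h.mono inter_subset_left h₂ (fun _ hx => hx.2) fun _ _ =>
    eventually_mem_nhdsWithin.mono fun _ a b => ⟨a, b⟩

theorem nhdsWithin_le {x : W₁} (hx : x ∈ T₁) : 𝓝[T₂] (f x) ≤ map f (𝓝[T₁] x) := fun V hV => by
  obtain ⟨σ, h1, h2, h3⟩ := h.sec x hx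
  have h5 : Tendsto σ (𝓝[T₂] (f x)) (𝓝[T₁] x) := tendsto_nhdsWithin_iff.2
    ⟨(h1.continuousAt.tendsto.mono_right (by rw [h2])).mono_left nhdsWithin_le_nhds,
      h3.mono fun _ h => h.1⟩
  filter_upwards [h3, h5.eventually hV] with y a b using a.2 ▸ b

/-- **closures** -/
theorem closure_preimage {M : Set W₂} (hM : M ⊆ T₂) :
    closure (T₁ ∩ f ⁻¹' M) ∩ T₁ = T₁ ∩ f ⁻¹' closure M := by
  ext x
  refine ⟨fun hx => ⟨hx.2, (((h.continuousOn x hx.2).mono inter_subset_left).mem_closure hx.1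
    fun _ hy => hy.2)⟩, fun hx => ⟨mem_closure_iff_frequently.2 ?_, hx.1⟩⟩
  have h1 : ∃ᶠ y in 𝓝[T₂] (f x), y ∈ M := frequently_nhdsWithin_iff.2
    ((mem_closure_iff_frequently.1 hx.2).mono fun y hy => ⟨hy, hM hy⟩)
  exact (frequently_nhdsWithin_iff.1 (frequently_map.1 (h1.filter_mono (h.nhdsWithin_le hx.1)))).mono
    fun y hy => ⟨hy.2, hy.1⟩

variable [IsAct act₁ T₁] [IsAct act₂ T₂] [FiniteDimensional ℂ A₁] [FiniteDimensional ℂ A₂]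
  [FiniteDimensional ℂ W₁]

theorem pb : PB Sp.val Sp.val h.ρ h.F := by
  classical
  have := FiniteDimensional.complete ℂ W₁
  refine ⟨h.tor h.rig, h.holAt, fun x => ?_⟩
  obtain ⟨σ, h1, h2, h3⟩ := h.sec _ x.val_mem
  have h4 := (eventually_nhds_subtype_iff T₂ (h.F x) fun y => σ y ∈ T₁ ∧ f (σ y) = y).2 h3
  let τ : Sp act₂ T₂ → Sp act₁ T₁ := fun s => if hs : σ s.val ∈ T₁ then Sp.of act₁ _ hs else x
  have h5 : ∀ᶠ s in 𝓝 (h.F x), (τ s).val = σ s.val := h4.mono fun s hs => congrArg Sp.val (dif_pos hs.1)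
  exact ⟨τ, .of_isInducing Sp.isEmbedding_val.isInducing
    (Eventually.of_forall fun _ => Sp.continuous_val.continuousAt)
    (Sp.ext (h5.self_of_nhds.trans h2)) ⟨σ, h1, h5⟩
    ((h4.and h5).mono fun s hs => Sp.ext ((congrArg f hs.2).trans hs.1.2))⟩

theorem properSMul [ProperSMul A₂ˣ (Sp act₂ T₂)] : ProperSMul A₁ˣ (Sp act₁ T₁) :=
  h.pb.toTor.properSMul

omit [IsAct act₁ T₁] [IsAct act₂ T₂] in
theorem surjective_F (hs : SurjOn f T₁ T₂) : Surjective h.F := fun y =>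
  let ⟨x, h1, h2⟩ := hs y.val_mem
  ⟨Sp.of act₁ x h1, Sp.ext h2⟩

theorem isMfd_push {x : Sp act₁ T₁} {m₁ m₂ : ℕ} (hm : IsMfd Sp.val m₁ x)
    (hd : m₁ + finrank ℂ A₂ = m₂ + finrank ℂ A₁) : IsMfd Sp.val m₂ (h.F x) :=
  have := FiniteDimensional.complete ℂ A₁
  have := FiniteDimensional.complete ℂ A₂
  h.pb.isMfd_push isExp_expU isExp_expU h.ρ_exp (Sp.holAct x) (by
    have := finrank_ker_add h.surj
    rwa [show _ + m₂ = m₁ by omega])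

theorem isMfd_lift {x : Sp act₁ T₁} {m₁ m₂ : ℕ} (hm : IsMfd Sp.val m₂ (h.F x))
    (hd : m₁ + finrank ℂ A₂ = m₂ + finrank ℂ A₁) : IsMfd Sp.val m₁ x := by
  have := FiniteDimensional.complete ℂ A₁
  have := FiniteDimensional.complete ℂ A₂
  have h1 := h.pb.isMfd_lift isExp_expU isExp_expU h.ρ_exp (Sp.holAct x) Sp.isEmbedding_val hm
  have := finrank_ker_add h.surj
  rwa [show _ + m₂ = m₁ by omega] at h1

variable {Φ : Quo act₁ T₁ → Quo act₂ T₂}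
  (e : ∀ x : T₁, Φ (Quo.mk act₁ x) = Quo.mk act₂ ⟨f x, h.maps x.2⟩)

include e in
/-- **the map of orbit spaces is an open embedding** -/
theorem isOpenEmbedding : IsOpenEmbedding Φ := h.pb.isOpenEmbedding isQuo_sp isQuo_sp e

include e in
theorem isHomeomorph (hs : SurjOn f T₁ T₂) : IsHomeomorph Φ :=
  h.pb.isHomeomorph isQuo_sp isQuo_sp e (h.surjective_F hs)

variable [FiniteDimensional ℂ W₂] [ProperSMul A₁ˣ (Sp act₁ T₁)] [ProperSMul A₂ˣ (Sp act₂ T₂)] {d : ℕ}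
  {U : Set (Fin d → ℂ)}

/-- **charts push forward** -/
theorem chart_push {φ : U → T₁} (hφ : IsChart act₁ T₁ d U φ) : ∃ (U' : Set (Fin d → ℂ)) (hU : U' ⊆ U),
    IsChart act₂ T₂ d U' fun z => ⟨f (φ (inclusion hU z)), h.maps (φ _).2⟩ := by
  have := FiniteDimensional.complete ℂ A₁
  have := FiniteDimensional.complete ℂ A₂
  obtain ⟨φ', h1, h2, h3⟩ := hφ.exists_slK
  obtain ⟨U', h4, h5⟩ := (h.pb.pushK isExp_expU isExp_expU Sp.isEmbedding_val (Sp.holAct _)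
    h2).isChart (h.pb.free_iff.2 h3) (hφ.isOpen.mem_nhds hφ.zero_mem)
  exact ⟨U', h4, (funext fun z : U' => congrArg h.F (h1 (inclusion h4 z))) ▸ h5⟩

/-- **charts lift** -/
theorem chart_lift {ψ : U → T₂} (hψ : IsChart act₂ T₂ d U ψ) {x : W₁} (hx : x ∈ T₁)
    (h0 : f x = ψ ⟨0, hψ.zero_mem⟩) : ∃ (U' : Set (Fin d → ℂ)) (hU : U' ⊆ U) (φ : U' → T₁)
      (hφ : IsChart act₁ T₁ d U' φ), φ ⟨0, hφ.zero_mem⟩ = x ∧ ∀ z, f (φ z) = ψ (inclusion hU z) := by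
  have := FiniteDimensional.complete ℂ A₁
  have := FiniteDimensional.complete ℂ A₂
  obtain ⟨ψ', h1, h2, h3⟩ := hψ.exists_slK
  have h4 : ψ' 0 = h.F (Sp.of act₁ x hx) := (h1 ⟨0, hψ.zero_mem⟩).trans (Sp.ext h0.symm)
  obtain ⟨φ, h5, h6, h7⟩ := h.pb.liftK isExp_expU isExp_expU Sp.isEmbedding_val h2 h4 (Sp.holAct _)
  obtain ⟨U', h8, h9⟩ := h5.isChart (h.pb.free_iff.1 (by rwa [h6, ← h4]))
    (inter_mem (hψ.isOpen.mem_nhds hψ.zero_mem) h7)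
  exact ⟨U', fun z hz => (h8 hz).1, _, h9, congrArg Sp.val h6, fun z =>
    congrArg Sp.val ((h8 z.2).2.trans (h1 ⟨z, (h8 z.2).1⟩))⟩

variable [LocallyCompactSpace T₁] [LocallyCompactSpace T₂] [Nice (Quo act₂ T₂)]
  {β : BM (Quo act₂ T₂)}
include e

/-- **fundamental classes of the statement restrict** -/
theorem isFund_res (hβ : P269.IsFund act₂ T₂ β) : P269.IsFund act₁ T₁ (res Φ β) := by
  have := FiniteDimensional.complete ℂ A₁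
  have := nice_quo (act := act₁) (S := T₁)
  obtain ⟨n, h1, h2⟩ := id hβ
  refine ⟨n, h1.res Φ, fun d U φ hφ => ?_⟩
  obtain ⟨U', h3, h4⟩ := h.chart_push hφ
  obtain ⟨φ', h5, h6, h7⟩ := hφ.exists_slK
  have h8 := h6.isSl isExp_expU
  exact ⟨(h2 _ _ _ h4).1, (hφ.val_iff (ψ := Sp.mk ∘ φ') fun z => congrArg Sp.mk (h5 z)).2
    (Val.res (h.isOpenEmbedding e) (Sp.continuous_mk.continuousAt.comp h8.cont)
      ((hβ.val (isSlice_iff.2 (h.pb.push h8)) (h.pb.free_iff.2 h7)).2.congr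
        (Eventually.of_forall fun z => (e _).symm)))⟩

theorem isFund_of_res (hs : SurjOn f T₁ T₂) (hβ : P269.IsFund act₁ T₁ (res Φ β)) :
    P269.IsFund act₂ T₂ β := by
  have := FiniteDimensional.complete ℂ A₂
  have := nice_quo (act := act₁) (S := T₁)
  obtain ⟨n, h1, h2⟩ := id hβ
  refine ⟨n, push_res_homeo (h.isHomeomorph e hs) β ▸ h1.push Φ, fun d U ψ hψ => ?_⟩
  obtain ⟨x, h3, h4⟩ := hs (ψ ⟨0, hψ.zero_mem⟩).2
  obtain ⟨U', -, φ', h5, -⟩ := h.chart_lift hψ h3 h4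
  obtain ⟨ψ', h6, h7, h8⟩ := hψ.exists_slK
  have h9 : ψ' 0 = h.F (Sp.of act₁ x h3) := (h6 ⟨0, hψ.zero_mem⟩).trans (Sp.ext h4.symm)
  obtain ⟨φ, h10, h11, h12⟩ := h.pb.lift (h7.isSl isExp_expU) h9
  exact ⟨(h2 _ _ _ h5).1, (hψ.val_iff (ψ := Sp.mk ∘ ψ') fun z => congrArg Sp.mk (h6 z)).2
    ((Val.of_res (h.isOpenEmbedding e) (hβ.val (isSlice_iff.2 h10) (h.pb.free_iff.1
      (by rwa [h11, ← h9]))).2).congr (h12.mono fun z hz => (e _).trans (congrArg Sp.mk hz)))⟩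

theorem isFund_push (hs : SurjOn f T₁ T₂) {γ : BM (Quo act₁ T₁)} (hγ : P269.IsFund act₁ T₁ γ) :
    P269.IsFund act₂ T₂ (push Φ γ) := by
  have := nice_quo (act := act₁) (S := T₁)
  have h1 := h.isHomeomorph e hs
  exact h.isFund_of_res e hs (by rwa [res_push_homeo h1])

end Bun

/-- **invariant subsets and their preimages** -/
theorem Bun.sub (h : Bun act₁ act₂ T₁ T₂ θ f) [IsAct act₁ T₁] [IsAct act₂ T₂]
    [FiniteDimensional ℂ A₁] [FiniteDimensional ℂ A₂] [FiniteDimensional ℂ W₁]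
    [FiniteDimensional ℂ W₂] [ProperSMul A₂ˣ (Sp act₂ T₂)] (hS : S₂ ⊆ T₂)
    (hi : ∀ b, IsUnit b → ∀ y ∈ S₂, act₂ b y ∈ S₂)
    {Φ : Quo act₁ (T₁ ∩ f ⁻¹' S₂) → Quo act₂ S₂}
    (e : ∀ x, Φ (Quo.mk act₁ x) = Quo.mk act₂ ⟨f x, x.2.2⟩) :
    IsOpenEmbedding Φ ∧ (S₂ ⊆ f '' T₁ → IsHomeomorph Φ) ∧
      (∀ d U φ, IsChart act₁ (T₁ ∩ f ⁻¹' S₂) d U φ → ∃ (U' : Set (Fin d → ℂ)) (hU : U' ⊆ U),
        IsChart act₂ S₂ d U' fun z => ⟨f (φ (inclusion hU z)), (φ _).2.2⟩) ∧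
      (∀ d U ψ (hψ : IsChart act₂ S₂ d U ψ), ∀ x ∈ T₁, f x = ψ ⟨0, hψ.zero_mem⟩ →
        ∃ (U' : Set (Fin d → ℂ)) (hU : U' ⊆ U) (φ : U' → (T₁ ∩ f ⁻¹' S₂ : Set W₁))
          (hφ : IsChart act₁ (T₁ ∩ f ⁻¹' S₂) d U' φ),
          φ ⟨0, hφ.zero_mem⟩ = x ∧ ∀ z, f (φ z) = ψ (inclusion hU z)) ∧
      ∀ [LocallyCompactSpace T₁] [Nice (Quo act₂ S₂)], IsLocallyClosed S₂ → ∀ β,
        (P269.IsFund act₂ S₂ β → P269.IsFund act₁ (T₁ ∩ f ⁻¹' S₂) (res Φ β)) ∧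
        (S₂ ⊆ f '' T₁ → P269.IsFund act₁ (T₁ ∩ f ⁻¹' S₂) (res Φ β) → P269.IsFund act₂ S₂ β) := by
  have := h.isAct_preimage hi
  have := IsAct.mono (act := act₂) ‹_› hS hi
  have := Sp.properSMul_mono (act := act₂) hS
  have k := h.restrict hS
  have := k.properSMul
  have hs : S₂ ⊆ f '' T₁ → SurjOn f (T₁ ∩ f ⁻¹' S₂) S₂ := fun H y hy =>
    let ⟨x, h1, h2⟩ := H hy
    ⟨x, ⟨h1, mem_of_eq_of_mem (x := f x) h2 hy⟩, h2⟩
  refine ⟨k.isOpenEmbedding e, fun H => k.isHomeomorph e (hs H), fun _ _ _ => k.chart_push,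
    fun _ _ ψ hψ x hx h0 => k.chart_lift hψ ⟨hx, mem_of_eq_of_mem (x := f x) h0 (ψ _).2⟩ h0, fun H β => ?_⟩
  have := FiniteDimensional.proper ℂ W₂
  have := H.locallyCompactSpace
  have := h.locallyCompact_preimage H
  exact ⟨k.isFund_res e, fun H => k.isFund_of_res e (hs H)⟩

end stmt

end Vale.Agent.P269.Holo
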