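import Vale.Agent.P269.Holo.LH

/-!
# The theorem of Osgood and Clements

An injective holomorphic germ between spaces of the same dimension has a bijective derivative
(the elementary proof of Rosay).
-/

namespace Vale.Agent.P269.Holo

open Set Function Topology Filter Module Metric

namespace Osg

section top

variable {X Y Z : Type*} [TopologicalSpace X] [TopologicalSpace Y]

/-- `f` is injective near `x`. -/
def LI (f : X → Z) (x : X) : Prop := ∃ U ∈ 𝓝 x, InjOn f U

theorem LI.eventually {f : X → Z} {x : X} (h : LI f x) : ∀ᶠ y in 𝓝 x, LI f y := by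
  obtain ⟨U, hU, h⟩ := h
  filter_upwards [eventually_mem_nhds_iff.2 hU] with y hy using ⟨U, hy, h⟩

theorem LI.comp {g : Y → Z} {f : X → Y} {x : X} (hg : LI g (f x)) (hf : LI f x)
    (hc : ContinuousAt f x) : LI (fun y => g (f y)) x := by
  obtain ⟨U, hU, h⟩ := hg
  obtain ⟨V, hV, k⟩ := hf
  exact ⟨V ∩ f ⁻¹' U, inter_mem hV (hc hU), fun a ha b hb e => k ha.1 hb.1 (h ha.2 hb.2 e)⟩

theorem LI.of_left {f : X → Z} {x : X} (g : Z → X) (h : ∀ᶠ y in 𝓝 x, g (f y) = y) : LI f x :=
  ⟨_, h, fun a ha b hb e => by rw [← show g (f a) = a from ha, e]; exact hb⟩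

theorem LI.not_const {f : X → Z} {x : X} (h : LI f x) [(𝓝[≠] x).NeBot] :
    ¬ ∀ᶠ y in 𝓝 x, f y = f x := fun hc => by
  obtain ⟨U, hU, h⟩ := h
  obtain ⟨y, ⟨h1, h2⟩, h3⟩ := (((hc.and hU).filter_mono nhdsWithin_le_nhds).and
    (self_mem_nhdsWithin (s := {x}ᶜ))).exists
  exact h3 (h h2 (mem_of_mem_nhds hU) h1)

end top

/-- One variable. -/
theorem one {f : ℂ → ℂ} {x : ℂ} (hf : AnalyticAt ℂ f x) (h : LI f x) : deriv f x ≠ 0 := by
  obtain ⟨V, hV, hi⟩ := h
  obtain ⟨U, hU, ho, hx⟩ := _root_.eventually_nhds_iff.1 (hf.eventually_analyticAt.and hV)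
  replace hi : InjOn f U := hi.mono fun y hy => (hU y hy).2
  have hl : ∀ z ∈ U, ∀ᶠ y in 𝓝 z, invFunOn f U (f y) = y := fun z hz => by
    filter_upwards [ho.mem_nhds hz] with y hy using hi.leftInvOn_invFunOn hy
  have hm : ∀ z ∈ U, 𝓝 (f z) ≤ map f (𝓝 z) := fun z hz =>
    (hU z hz).1.eventually_constant_or_nhds_le_map_nhds.resolve_left
      (LI.not_const ⟨U, ho.mem_nhds hz, hi⟩)
  have hc : ∀ z ∈ U, ContinuousAt (invFunOn f U) (f z) := fun z hz => by
    refine Tendsto.mono_left (tendsto_map'_iff.2 ?_) (hm z hz)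
    rw [(hl z hz).self_of_nhds]
    exact tendsto_id.congr' (EventuallyEq.symm (hl z hz))
  have hr : ∀ z ∈ U, ∀ᶠ w in 𝓝 (f z), w ∈ f '' U := fun z hz =>
    hm z hz (image_mem_map (ho.mem_nhds hz))
  have hd : ∀ᶠ z in 𝓝[≠] x, deriv f z ≠ 0 := by
    refine hf.deriv.eventually_eq_zero_or_eventually_ne_zero.resolve_left fun h0 => ?_
    obtain ⟨r, hr0, h1⟩ := eventually_nhds_iff_ball.1 (h0.and hf.eventually_analyticAt)
    refine LI.not_const ⟨U, ho.mem_nhds hx, hi⟩ ?_
    filter_upwards [ball_mem_nhds x hr0] with y hy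
    exact isOpen_ball.is_const_of_deriv_eq_zero (convex_ball x r).isPreconnected
      (fun z hz => (h1 z hz).2.differentiableAt.differentiableWithinAt) (fun z hz => (h1 z hz).1) hy
      (mem_ball_self hr0)
  have ha : AnalyticAt ℂ (invFunOn f U) (f x) := by
    refine Complex.analyticAt_of_differentiable_on_punctured_nhds_of_continuousAt ?_ (hc x hx)
    rw [eventually_nhdsWithin_iff] at hd ⊢
    refine hm x hx (mem_map.2 ?_)
    filter_upwards [hd, ho.mem_nhds hx] with z h1 h2 h3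
    have h4 := (hl z h2).self_of_nhds
    refine (HasDerivAt.of_local_left_inverse (hc z h2) (f := f) (f' := deriv f z) ?_
      (h1 fun e => h3 (congrArg f e)) ?_).differentiableAt
    · rw [h4]
      exact (hU z h2).1.differentiableAt.hasDerivAt
    · filter_upwards [hr z h2] with w hw using invFunOn_eq hw
  intro h0
  have h1 := fderiv_leftInv ha hf (hl x hx) 1
  rw [fderiv_apply_one_eq_deriv, h0, map_zero] at h1
  exact zero_ne_one h1

variable {E E' K A : Type*} [NormedAddCommGroup E] [NormedSpace ℂ E] [NormedAddCommGroup E']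
  [NormedSpace ℂ E'] [NormedAddCommGroup K] [NormedSpace ℂ K]

/-- The minimum principle. -/
theorem not_unit [FiniteDimensional ℂ K] [NormedRing A] [NormedAlgebra ℂ A] [CompleteSpace A]
    [NormOneClass A] {a : K × ℂ → A} {t₀ : ℂ} (ha : AnalyticAt ℂ a (0, t₀)) (h0 : a (0, t₀) = 0)
    (hu : ∀ᶠ z in 𝓝 ((0 : K), t₀), z.2 ≠ t₀ → IsUnit (a z)) :
    ∀ᶠ k in 𝓝 (0 : K), ¬ IsUnit (a (k, t₀)) := by
  have := FiniteDimensional.proper ℂ K
  obtain ⟨r, hr, h1⟩ := nhds_basis_closedBall.eventually_iff.1 (ha.eventually_analyticAt.and hu)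
  rw [← closedBall_prod_same] at h1
  have h2 : ∀ z ∈ closedBall (0 : K) r ×ˢ closedBall t₀ r, IsUnit (a z) →
      DifferentiableAt ℂ (fun z => Ring.inverse (a z)) z := fun z hz hu =>
    (h1 hz).1.differentiableAt.inverse hu
  have h3 : ∀ t ∈ sphere t₀ r, t ≠ t₀ := fun t ht => ne_of_mem_sphere ht hr.ne'
  obtain ⟨C, hC⟩ := ((isCompact_closedBall (0 : K) r).prod (isCompact_sphere t₀ r)).exists_bound_of_continuousOn
    (f := fun z => Ring.inverse (a z)) fun z hz => (h2 z ⟨hz.1, sphere_subset_closedBall hz.2⟩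
      ((h1 ⟨hz.1, sphere_subset_closedBall hz.2⟩).2 (h3 _ hz.2))).continuousAt.continuousWithinAt
  have h4 : Tendsto (fun k : K => ‖a (k, t₀)‖ * C) (𝓝 0) (𝓝 0) := by
    have := ((ha.continuousAt.comp (f := fun k : K => (k, t₀))
      (continuousAt_id.prodMk continuousAt_const)).norm.mul_const C).tendsto
    simpa [h0] using this
  filter_upwards [h4.eventually (gt_mem_nhds one_pos), closedBall_mem_nhds 0 hr] with k h5 hk hu
  have h6 : ‖Ring.inverse (a (k, t₀))‖ ≤ C := by
    refine Complex.norm_le_of_forall_mem_frontier_norm_le (U := ball t₀ r)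
      (f := fun t => Ring.inverse (a (k, t))) isBounded_ball
      (DifferentiableOn.diffContOnCl fun t ht => ?_) (fun t ht => hC (k, t) ⟨hk, ?_⟩)
      (subset_closure (mem_ball_self hr))
    · rw [closure_ball _ hr.ne'] at ht
      refine ((h2 (k, t) ⟨hk, ht⟩ ?_).comp t (f := fun t => (k, t))
        ((differentiableAt_const _).prodMk differentiableAt_id)).differentiableWithinAt
      rcases eq_or_ne t t₀ with rfl | e
      exacts [hu, (h1 (x := (k, t)) ⟨hk, ht⟩).2 e]
    · rwa [frontier_ball _ hr.ne'] at ht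
  have h7 := norm_mul_le (a (k, t₀)) (Ring.inverse (a (k, t₀)))
  rw [Ring.mul_inverse_cancel _ hu, norm_one] at h7
  linarith [mul_le_mul_of_nonneg_left h6 (norm_nonneg (a (k, t₀)))]

/-- The critical set is locally contained in a smooth hypersurface. -/
theorem exists_hyp [CompleteSpace E'] {f : E → E'} {U : Set E} (hf : AnalyticOnNhd ℂ f U) {x : E}
    (hx : x ∈ U) (h0 : fderiv ℂ f x = 0) (hn : ¬ ∀ᶠ y in 𝓝 x, f y = f x) :
    ∃ (g : E → ℂ) (b : E), b ∈ U ∧ fderiv ℂ f b = 0 ∧ AnalyticAt ℂ g b ∧ fderiv ℂ g b ≠ 0 ∧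
      ∀ y ∈ U, fderiv ℂ f y = 0 → g y = 0 := by
  by_contra H
  have h1 : ∀ n, ∀ b ∈ U, fderiv ℂ f b = 0 → iteratedFDeriv ℂ (n + 1) f b = 0 := by
    intro n
    induction n with
    | zero =>
      intro b _ hb
      ext m
      rw [iteratedFDeriv_one_apply, hb]
      rfl
    | succ n ih =>
      intro b hb h2
      ext m
      refine SeparatingDual.eq_zero_of_forall_dual_eq_zero (R := ℂ) fun l => ?_
      have h3 := hf.iteratedFDeriv (n + 1) b hb
      have h4 : AnalyticAt ℂ (fun y => iteratedFDeriv ℂ (n + 1) f y (Fin.tail m)) b :=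
        ((ContinuousMultilinearMap.apply ℂ _ E' (Fin.tail m)).analyticAt _).comp h3
      have h5 : fderiv ℂ (fun y => l (iteratedFDeriv ℂ (n + 1) f y (Fin.tail m))) b = 0 := by
        by_contra h5
        exact H ⟨_, b, hb, h2, (l.analyticAt _).comp h4, h5, fun y hy h6 => by
          change l (iteratedFDeriv ℂ (n + 1) f y _) = 0
          rw [ih y hy h6, zero_apply, map_zero]⟩
      rw [fderiv_comp_an (l.analyticAt _) h4, l.fderiv] at h5
      rw [iteratedFDeriv_succ_apply_left,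
        ← fderiv_continuousMultilinear_apply_const_apply h3.differentiableAt]
      exact congr($h5 (m 0))
  obtain ⟨p, r, hp⟩ := hf x hx
  refine hn ?_
  filter_upwards [eball_mem_nhds x hp.r_pos] with y hy
  have h2 := hp.hasSum_iteratedFDeriv (y := y - x) (by rwa [mem_eball_zero_iff, ← edist_eq_enorm_sub])
  rw [add_sub_cancel] at h2
  refine (h2.unique (hasSum_single 0 fun n hn => ?_)).trans (by simp)
  obtain ⟨n, rfl⟩ := Nat.exists_eq_succ_of_ne_zero hn
  rw [h1 n x hx h0]
  simp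

/-- The statement in dimension `n`. -/
def St (n : ℕ) : Prop := ∀ (f : (Fin n → ℂ) → Fin n → ℂ) (x : Fin n → ℂ), AnalyticAt ℂ f x →
  LI f x → Injective (fderiv ℂ f x)

theorem surj {l : E →L[ℂ] ℂ} (h : l ≠ 0) : Surjective l := fun c => by
  obtain ⟨v, hv⟩ := DFunLike.ne_iff.1 h
  exact ⟨(c / l v) • v, by rw [map_smul, smul_eq_mul, div_mul_cancel₀ _ hv]⟩

theorem li_slice {Z : Type*} {f : E → Z} {σ : K × ℂ → E} {τ : E → K × ℂ} {t : ℂ} (hσ : AnalyticAt ℂ σ (0, t))
    (h : ∀ᶠ z in 𝓝 (0, t), τ (σ z) = z) (hi : LI f (σ (0, t))) : LI (fun k => f (σ (k, t))) 0 :=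
  LI.comp (g := fun z => f (σ z)) (f := fun k => (k, t)) (hi.comp (LI.of_left τ h) hσ.continuousAt)
    (LI.of_left Prod.fst (Eventually.of_forall fun _ => rfl))
    (continuousAt_id.prodMk continuousAt_const)

variable [FiniteDimensional ℂ E] [FiniteDimensional ℂ E'] {n : ℕ} {f : E → E'} {x : E}

theorem inj_of_ne (ih : St n) (hE : n + 1 = finrank ℂ E) (hE' : n + 1 = finrank ℂ E')
    (hf : AnalyticAt ℂ f x) (hi : LI f x) (h0 : fderiv ℂ f x ≠ 0) : Injective (fderiv ℂ f x) := by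
  obtain ⟨v, hv⟩ := DFunLike.ne_iff.1 h0
  obtain ⟨l, hl⟩ := SeparatingDual.exists_ne_zero (R := ℂ) hv
  have hg : AnalyticAt ℂ (fun y => l (f y)) x := (l.analyticAt _).comp hf
  have hg' : fderiv ℂ (fun y => l (f y)) x = l.comp (fderiv ℂ f x) := by
    rw [fderiv_comp_an (l.analyticAt _) hf, l.fderiv]
  obtain ⟨σ, τ, hσ, h1, hτ, h2, -, h3, h4, h5⟩ := submersion_form hg
    (surj (by rw [hg']; exact DFunLike.ne_iff.2 ⟨v, hl⟩)) (n := n) (by rwa [finrank_self])
  obtain ⟨p, hp⟩ := exists_compl_ker l (surj (DFunLike.ne_iff.2 ⟨_, hl⟩)) (n := n)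
    (by rwa [finrank_self])
  have hc : AnalyticAt ℂ (fun k : Fin n → ℂ => (k, l (f x))) 0 :=
    analyticAt_id.prod analyticAt_const
  have hs : AnalyticAt ℂ (fun k => σ (k, l (f x))) 0 := hσ.comp (f := fun k => (k, l (f x))) hc
  have hf' : AnalyticAt ℂ f (σ (0, l (f x))) := by rwa [h1]
  have hF : AnalyticAt ℂ (fun k => f (σ (k, l (f x)))) 0 :=
    hf'.comp (f := fun k => σ (k, l (f x))) hs
  have h6 := ih (fun k => p (f (σ (k, l (f x))))) 0 ((p.analyticAt _).comp hF) (by
    obtain ⟨V, hV, h⟩ := li_slice hσ h4 (by rwa [h1])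
    refine ⟨_, inter_mem hV (hc.continuousAt.eventually h4), fun a ha b hb e => h ha.1 hb.1 (hp.1
      (Prod.ext e ?_))⟩
    exact ((h5 _).symm.trans (congrArg Prod.snd ha.2)).trans
      ((h5 _).symm.trans (congrArg Prod.snd hb.2)).symm)
  rw [injective_iff_map_eq_zero] at h6 ⊢
  intro w hw
  have h7 := fderiv_leftInv (by rwa [h2]) hτ h3 w
  have h8 : (fderiv ℂ τ x w).2 = 0 := by
    have h := congr($(fderiv.snd hτ.differentiableAt) w)
    simp only [h5, hg', ContinuousLinearMap.comp_apply, hw, map_zero] at h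
    exact h.symm
  have h9 : fderiv ℂ (fun k : Fin n → ℂ => (k, l (f x))) 0 (fderiv ℂ τ x w).1 = fderiv ℂ τ x w := by
    rw [(hasFDerivAt_prodMk_left _ _).fderiv]
    exact Prod.ext rfl h8.symm
  have h10 := h6 (fderiv ℂ τ x w).1 (by
    rw [fderiv_comp_an (p.analyticAt _) hF, p.fderiv,
      fderiv_comp_an (f := fun k => σ (k, l (f x))) hf' hs,
      fderiv_comp_an (f := fun k => (k, l (f x))) hσ hc]
    simp only [ContinuousLinearMap.comp_apply]
    rw [h9, ← h2, h7, h2, h1, hw, map_zero])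
  rw [← h7, show fderiv ℂ τ x w = 0 from Prod.ext h10 h8, map_zero]

theorem step (ih : St n) (hE : n + 1 = finrank ℂ E) (hE' : n + 1 = finrank ℂ E')
    (hf : AnalyticAt ℂ f x) (hi : LI f x) : Injective (fderiv ℂ f x) := by
  refine inj_of_ne ih hE hE' hf hi fun h0 => ?_
  have := FiniteDimensional.complete ℂ E
  have := FiniteDimensional.complete ℂ E'
  have : Nontrivial E := nontrivial_of_finrank_pos (R := ℂ) (by omega)
  have := punctured_nhds_neBot ℂ E x
  obtain ⟨U, hU, ho, hx⟩ := _root_.eventually_nhds_iff.1 (hf.eventually_analyticAt.and hi.eventually)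
  obtain ⟨g, b, hb, h1, hg, h2, h3⟩ := exists_hyp (fun y hy => (hU y hy).1) hx h0 hi.not_const
  obtain ⟨σ, τ, hσ, h4, -, -, -, -, h5, h6⟩ := submersion_form hg (surj h2) (n := n)
    (by rwa [finrank_self])
  have hf' : AnalyticAt ℂ f (σ (0, g b)) := by rw [h4]; exact (hU b hb).1
  have hi' : LI f (σ (0, g b)) := by rw [h4]; exact (hU b hb).2
  rcases n with _ | n
  · let e : E' ≃L[ℂ] ℂ := ContinuousLinearEquiv.ofFinrankEq (by rw [finrank_self, ← hE'])
    have hc : AnalyticAt ℂ (fun t : ℂ => ((0 : Fin 0 → ℂ), t)) (g b) :=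
      analyticAt_const.prod analyticAt_id
    have hs : AnalyticAt ℂ (fun t => σ (0, t)) (g b) := hσ.comp (f := fun t => (0, t)) hc
    have hF : AnalyticAt ℂ (fun t => f (σ (0, t))) (g b) := hf'.comp (f := fun t => σ (0, t)) hs
    refine one (f := fun t => e (f (σ (0, t)))) ((e.analyticAt _).comp hF) ?_ ?_
    · exact LI.comp (g := fun z => e (f (σ z))) (f := fun t => (0, t))
        ((LI.of_left e.symm (Eventually.of_forall e.symm_apply_apply)).comp
          (hi'.comp (LI.of_left τ h5) hσ.continuousAt) (hf'.comp hσ).continuousAt)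
        (LI.of_left Prod.snd (Eventually.of_forall fun _ => rfl)) hc.continuousAt
    · rw [← fderiv_apply_one_eq_deriv, fderiv_comp_an (e.analyticAt _) hF,
        fderiv_comp_an (f := fun t => σ (0, t)) hf' hs, h4, h1]
      simp
  let e : E' ≃L[ℂ] E := ContinuousLinearEquiv.ofFinrankEq (hE'.symm.trans hE)
  have hm : ∀ᶠ z in 𝓝 (0, g b), σ z ∈ U := hσ.continuousAt.eventually (ho.mem_nhds (by rwa [h4]))
  have hu : ∀ y ∈ U, fderiv ℂ f y ≠ 0 → IsUnit ((e : E' →L[ℂ] E).comp (fderiv ℂ f y)) :=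
    fun y hy h => ContinuousLinearMap.isUnit_iff_bijective.2 (bijective_of_injective _
      (e.injective.comp (inj_of_ne ih hE hE' (hU y hy).1 (hU y hy).2 h)) rfl)
  have h7 := not_unit (a := fun z => (e : E' →L[ℂ] E).comp (fderiv ℂ f (σ z))) (t₀ := g b)
    (((ContinuousLinearMap.compL ℂ E E' E e).analyticAt _).comp (hf'.fderiv.comp hσ))
    (by simp only [h4, h1, ContinuousLinearMap.comp_zero]) (by
      filter_upwards [hm, h5] with z a1 a2 a3
      refine hu _ a1 fun a4 => a3 ?_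
      rw [← a2, h6, h3 _ a1 a4, h3 b hb h1])
  have hc : AnalyticAt ℂ (fun k : Fin (n + 1) → ℂ => (k, g b)) 0 :=
    analyticAt_id.prod analyticAt_const
  have hs : AnalyticAt ℂ (fun k => σ (k, g b)) 0 := hσ.comp (f := fun k => (k, g b)) hc
  obtain ⟨r, hr, h8⟩ := eventually_nhds_iff_ball.1
    (h7.and ((hc.continuousAt.eventually hm).and hs.eventually_analyticAt))
  have := punctured_nhds_neBot ℂ (Fin (n + 1) → ℂ) 0
  refine (li_slice hσ h5 hi').not_const ?_
  filter_upwards [ball_mem_nhds 0 hr] with k hk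
  refine isOpen_ball.is_const_of_fderiv_eq_zero (𝕜 := ℂ) (f := fun k => f (σ (k, g b)))
    (convex_ball 0 r).isPreconnected (fun z hz => ((hU _ (h8 z hz).2.1).1.comp (f := fun k => σ (k, g b))
      (h8 z hz).2.2).differentiableAt.differentiableWithinAt) (fun z hz => ?_) hk (mem_ball_self hr)
  rw [fderiv_comp_an (f := fun k => σ (k, g b)) (hU _ (h8 z hz).2.1).1 (h8 z hz).2.2,
    not_imp_comm.1 (hu _ (h8 z hz).2.1) (h8 z hz).1]
  rfl

theorem st (n : ℕ) : St n := by
  induction n with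
  | zero => exact fun f x _ _ => injective_of_subsingleton _
  | succ n ih => exact fun f x => step ih (finrank_fin_fun ℂ).symm (finrank_fin_fun ℂ).symm

end Osg

/-- An injective holomorphic germ between spaces of the same dimension is etale. -/
theorem osgood {E E' : Type*} [NormedAddCommGroup E] [NormedSpace ℂ E] [NormedAddCommGroup E']
    [NormedSpace ℂ E'] [FiniteDimensional ℂ E] [FiniteDimensional ℂ E']
    (hd : finrank ℂ E = finrank ℂ E') {f : E → E'} {x : E} (hf : AnalyticAt ℂ f x)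
    (hi : ∃ U ∈ 𝓝 x, InjOn f U) : Bijective (fderiv ℂ f x) := by
  refine bijective_of_injective _ ?_ hd
  rcases h : finrank ℂ E with _ | n
  · have := finrank_zero_iff.1 h
    exact injective_of_subsingleton _
  · exact Osg.step (Osg.st n) h.symm (h.symm.trans hd) hf hi

end Vale.Agent.P269.Holo
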