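import Vale.Agent.P269.Holo.Set

/-!
# Holomorphic functions on subsets of vector spaces
-/

namespace Vale.Agent.P269.Holo

open Set Function Topology Filter

variable {A A' B B' : Type*} [NormedAddCommGroup A] [NormedSpace ℂ A] [NormedAddCommGroup A']
  [NormedSpace ℂ A'] [NormedAddCommGroup B] [NormedSpace ℂ B] [NormedAddCommGroup B']
  [NormedSpace ℂ B']

/-- The restriction of `f` to `S` extends analytically near `a`. -/
def HolOn (S : Set A) (f : A → B) (a : A) : Prop :=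
  ∃ Φ, AnalyticAt ℂ Φ a ∧ ∀ᶠ s in 𝓝 a, s ∈ S → f s = Φ s

variable {S Z : Set A} {S' : Set A'} {n m : ℕ} {a : A} {f : A → B}

theorem holOn_iff (ha : a ∈ S) :
    HolOn S f a ↔ HolAt (Subtype.val : S → A) (fun s => f s.1) ⟨a, ha⟩ := (holAt_val_iff ha).symm

namespace HolOn

theorem of_an (h : AnalyticAt ℂ f a) : HolOn S f a := ⟨f, h, .of_forall fun _ _ => rfl⟩

theorem congr (h : HolOn S f a) {f' : A → B} (e : ∀ᶠ s in 𝓝 a, s ∈ S → f' s = f s) :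
    HolOn S f' a :=
  let ⟨Φ, h1, h2⟩ := h
  ⟨Φ, h1, by filter_upwards [h2, e] with s b1 b2 hs using (b2 hs).trans (b1 hs)⟩

theorem mono (h : HolOn S f a) (e : ∀ᶠ s in 𝓝 a, s ∈ Z → s ∈ S) : HolOn Z f a :=
  let ⟨Φ, h1, h2⟩ := h
  ⟨Φ, h1, by filter_upwards [h2, e] with s b1 b2 hs using b1 (b2 hs)⟩

theorem tendsto (h : HolOn S f a) (ha : a ∈ S) : Tendsto f (𝓝 a ⊓ 𝓟 S) (𝓝 (f a)) :=
  let ⟨_, h1, h2⟩ := h
  (h2.self_of_nhds ha ▸ h1.continuousAt.tendsto.mono_left inf_le_left).congr'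
    (eventually_inf_principal.2 (h2.mono fun _ b hs => (b hs).symm))

theorem ev (h : HolOn S f a) (ha : a ∈ S) {p : B → Prop} (hp : ∀ᶠ y in 𝓝 (f a), p y) :
    ∀ᶠ s in 𝓝 a, s ∈ S → p (f s) := eventually_inf_principal.1 ((h.tendsto ha).eventually hp)

theorem comp {F : A → A'} {G : A' → B} (hG : HolOn S' G (F a)) (hF : HolOn S F a) (ha : a ∈ S)
    (h : ∀ᶠ s in 𝓝 a, s ∈ S → F s ∈ S') : HolOn S (fun s => G (F s)) a := by
  obtain ⟨Ψ, g1, g2⟩ := hG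
  obtain ⟨Φ, f1, f2⟩ := id hF
  refine ⟨fun s => Ψ (Φ s), AnalyticAt.comp (f2.self_of_nhds ha ▸ g1) f1, ?_⟩
  filter_upwards [f2, h, hF.ev ha g2] with s b1 b2 b3 hs
  rw [b3 hs (b2 hs), b1 hs]

theorem comp_an {G : B → B'} (hF : HolOn S f a) (ha : a ∈ S) (hG : AnalyticAt ℂ G (f a)) :
    HolOn S (fun s => G (f s)) a :=
  (of_an (S := univ) hG).comp hF ha (.of_forall fun _ _ => trivial)

theorem prod {f' : A → B'} (h : HolOn S f a) (h' : HolOn S f' a) :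
    HolOn S (fun s => (f s, f' s)) a :=
  let ⟨Φ, h1, h2⟩ := h
  let ⟨Ψ, h3, h4⟩ := h'
  ⟨fun s => (Φ s, Ψ s), h1.prod h3, by
    filter_upwards [h2, h4] with s b1 b2 hs using Prod.ext (b1 hs) (b2 hs)⟩

theorem pi {σ : Type*} [Fintype σ] {C : σ → Type*} [∀ i, NormedAddCommGroup (C i)]
    [∀ i, NormedSpace ℂ (C i)] {f : A → ∀ i, C i} (h : ∀ i, HolOn S (fun s => f s i) a) :
    HolOn S f a := by
  choose Φ h1 h2 using h
  exact ⟨fun s i => Φ i s, analyticAt_pi_iff.2 h1,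
    (eventually_all.2 h2).mono fun s b hs => funext fun i => b i hs⟩

theorem arc {c : ℂ → A} (h : HolOn S f a) (hc : Arc S a c) :
    AnalyticAt ℂ (fun ε => f (c ε)) 0 := by
  obtain ⟨Φ, h1, h2⟩ := h
  refine (AnalyticAt.comp (hc.zero ▸ h1) hc.an).congr ?_
  filter_upwards [hc.an.continuousAt.tendsto.eventually (hc.zero ▸ h2), hc.mem] with ε b1 b2
    using (b1 b2).symm

end HolOn

theorem Arc.ev {c : ℂ → A} (hc : Arc S a c) {p : A → Prop} (h : ∀ᶠ s in 𝓝 a, s ∈ S → p s) :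
    ∀ᶠ ε in 𝓝 0, p (c ε) := by
  filter_upwards [hc.an.continuousAt.tendsto.eventually (hc.zero ▸ h), hc.mem] with ε b1 b2
    using b1 b2

theorem Arc.map {c : ℂ → A} (hc : Arc S a c) {F : A → A'} (hF : HolOn S F a)
    (h : ∀ᶠ s in 𝓝 a, s ∈ S → F s ∈ S') : Arc S' (F a) fun ε => F (c ε) :=
  ⟨hF.arc hc, congrArg F hc.zero, hc.ev (p := fun s => F s ∈ S') h⟩

namespace MfdAt

variable [CompleteSpace A]

theorem iso' [CompleteSpace A'] (h : MfdAt S n a) {F : A → A'} {G : A' → A} (hF : HolOn S F a)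
    (hG : HolOn S' G (F a)) (h1 : ∀ᶠ s in 𝓝 a, s ∈ S → F s ∈ S' ∧ G (F s) = s)
    (h2 : ∀ᶠ s in 𝓝 (F a), s ∈ S' → G s ∈ S ∧ F (G s) = s) : MfdAt S' n (F a) := by
  obtain ⟨Φ, f1, f2⟩ := id hF
  obtain ⟨Ψ, g1, g2⟩ := id hG
  obtain ⟨h3, h4⟩ := h1.self_of_nhds h.1
  have e := f2.self_of_nhds h.1
  refine e ▸ h.iso (G := Ψ) f1 (e ▸ g1) ?_ (e ▸ ?_)
  · filter_upwards [f2, h1, hF.ev h.1 g2] with s b1 b2 b3 hs
    rw [← b1 hs, ← b3 hs (b2 hs).1]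
    exact b2 hs
  · filter_upwards [g2, h2, hG.ev h3 (p := fun s => s ∈ S → F s = Φ s) (h4.symm ▸ f2)]
      with s b1 b2 b3 hs
    rw [← b1 hs, ← b3 hs (b2 hs).1]
    exact b2 hs

/-- The zero set of a holomorphic map that is a submersion along arcs. -/
theorem sub' [FiniteDimensional ℂ B] (h : MfdAt S m a) (hf : HolOn S f a) (h0 : f a = 0)
    (hs : ⊤ ≤ Submodule.span ℂ {b | ∃ c, Arc S a c ∧ deriv (fun ε => f (c ε)) 0 = b})
    (hZ : ∀ᶠ s in 𝓝 a, s ∈ Z ↔ s ∈ S ∧ f s = 0) :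
    ∃ n, n + Module.finrank ℂ B = m ∧ MfdAt Z n a := by
  obtain ⟨Φ, h1, h2⟩ := hf
  have h3 : ⊤ ≤ Submodule.span ℂ {b | ∃ c, Arc S a c ∧ deriv (fun ε => Φ (c ε)) 0 = b} :=
    hs.trans (Submodule.span_mono fun _ ⟨c, hc, e⟩ =>
      ⟨c, hc, (EventuallyEq.deriv_eq (hc.ev (p := fun s => f s = Φ s) h2)).symm.trans e⟩)
  have h4 : Module.finrank ℂ B ≤ m := by
    have h5 : ⊤ ≤ (tan (Subtype.val : S → A) ⟨a, h.1⟩).map (fderiv ℂ Φ a : A →ₗ[ℂ] B) := by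
      refine h3.trans (Submodule.span_le.2 ?_)
      rintro _ ⟨c, hc, rfl⟩
      exact ⟨_, hc.mem_tan h.1, (HasFDerivAt.comp_hasDerivAt_of_eq 0
        h1.differentiableAt.hasFDerivAt hc.an.differentiableAt.hasDerivAt hc.zero.symm).deriv.symm⟩
    obtain ⟨ψ, h6, h7⟩ := h.2
    have : FiniteDimensional ℂ (tan (Subtype.val : S → A) ⟨a, h.1⟩) := by
      rw [← h7, h6.tan_eq]; infer_instance
    rw [← h.2.finrank_tan, ← finrank_top, ← top_le_iff.1 h5]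
    exact Submodule.finrank_map_le _ _
  refine ⟨m - Module.finrank ℂ B, Nat.sub_add_cancel h4, h.sub h1
    ((h2.self_of_nhds h.1).symm.trans h0) h3 ?_ (Nat.sub_add_cancel h4)⟩
  filter_upwards [h2, hZ] with s b1 b2
  exact b2.trans (and_congr_right fun hs => by rw [b1 hs])

end MfdAt

end Vale.Agent.P269.Holo
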