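import Vale.Agent.P269.Holo.Bundle

/-!
# Subsets of vector spaces that are complex manifolds near a point
-/

namespace Vale.Agent.P269.Holo

open Set Function Topology Filter

variable {A A' B : Type*} [NormedAddCommGroup A] [NormedSpace ℂ A] [NormedAddCommGroup A']
  [NormedSpace ℂ A'] [NormedAddCommGroup B] [NormedSpace ℂ B]

/-- The set `S` is a complex manifold of dimension `n` near `a`. -/
def MfdAt (S : Set A) (n : ℕ) (a : A) : Prop := ∃ h : a ∈ S, IsMfd (Subtype.val : S → A) n ⟨a, h⟩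

/-- A holomorphic arc in `S` through `a`. -/
structure Arc (S : Set A) (a : A) (c : ℂ → A) : Prop where
  an : AnalyticAt ℂ c 0
  zero : c 0 = a
  mem : ∀ᶠ ε in 𝓝 0, c ε ∈ S

variable {S Z : Set A} {S' : Set A'} {n m : ℕ} {a : A} {a' : A'}

omit [NormedSpace ℂ A] in
theorem ev_sub {p : A → Prop} (ha : a ∈ S) :
    (∀ᶠ s : S in 𝓝 ⟨a, ha⟩, p s.1) ↔ ∀ᶠ s in 𝓝 a, s ∈ S → p s := by
  rw [nhds_subtype_eq_comap, eventually_comap]
  exact eventually_congr (.of_forall fun s =>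
    ⟨fun h hs => h ⟨s, hs⟩ rfl, fun h b e => e ▸ h (e ▸ b.2)⟩)

theorem Arc.mem_tan {c : ℂ → A} (h : Arc S a c) (ha : a ∈ S) :
    deriv c 0 ∈ tan (Subtype.val : S → A) ⟨a, ha⟩ := fun Φ h1 h2 => by
  have h3 : ∀ᶠ ε in 𝓝 (0 : ℂ), Φ (c ε) = 0 := by
    have h4 := h.an.continuousAt.tendsto
    rw [h.zero] at h4
    filter_upwards [h4.eventually ((ev_sub ha (p := fun s => Φ s = 0)).1 h2), h.mem] with ε b1 b2
      using b1 b2
  have h5 : HasDerivAt (fun ε => Φ (c ε)) (fderiv ℂ Φ a (deriv c 0)) 0 :=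
    HasFDerivAt.comp_hasDerivAt_of_eq 0 h1.differentiableAt.hasFDerivAt
      h.an.differentiableAt.hasDerivAt h.zero.symm
  exact h5.unique ((hasDerivAt_const 0 0).congr_of_eventuallyEq h3)

namespace MfdAt

theorem mem (h : MfdAt S n a) : a ∈ S := h.1

theorem isMfd (h : MfdAt S n a) (ha : a ∈ S) : IsMfd (Subtype.val : S → A) n ⟨a, ha⟩ := h.2

theorem unique (h : MfdAt S n a) (h' : MfdAt S m a) : n = m := h.2.unique h'.2

theorem univ [FiniteDimensional ℂ A] (a : A) : MfdAt univ (Module.finrank ℂ A) a :=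
  ⟨trivial, (IsMfd.of_lh (lh_of_range_mem IsEmbedding.subtypeVal (by simp))).1⟩

theorem eventually [CompleteSpace A] (h : MfdAt S n a) : ∀ᶠ s in 𝓝 a, s ∈ S → MfdAt S n s :=
  (ev_sub h.1).1 (h.2.eventually.mono fun s b => ⟨s.2, b⟩)

/-- Local isomorphisms. -/
theorem iso [CompleteSpace A] [CompleteSpace A'] (h : MfdAt S n a) {F : A → A'} {G : A' → A}
    (hF : AnalyticAt ℂ F a) (hG : AnalyticAt ℂ G (F a))
    (h1 : ∀ᶠ s in 𝓝 a, s ∈ S → F s ∈ S' ∧ G (F s) = s)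
    (h2 : ∀ᶠ s in 𝓝 (F a), s ∈ S' → G s ∈ S ∧ F (G s) = s) : MfdAt S' n (F a) := by
  classical
  obtain ⟨ha, hm⟩ := h
  obtain ⟨ha', e0⟩ := h1.self_of_nhds ha
  let u : S → S' := fun s => if h : F s ∈ S' then ⟨F s, h⟩ else ⟨F a, ha'⟩
  let w : S' → S := fun s => if h : G s ∈ S then ⟨G s, h⟩ else ⟨a, ha⟩
  have hu : ∀ᶠ s : S in 𝓝 ⟨a, ha⟩, (u s).1 = F s ∧ w (u s) = s :=
    ((ev_sub ha).2 h1).mono fun s b => by
      have e : (u s).1 = F s := congrArg Subtype.val (dif_pos b.1)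
      exact ⟨e, Subtype.ext (by
        have : G (u s).1 ∈ S := by rw [e, b.2]; exact s.2
        rw [show (w (u s)).1 = G (u s).1 from congrArg Subtype.val (dif_pos this), e, b.2])⟩
  have u0 : u ⟨a, ha⟩ = ⟨F a, ha'⟩ := dif_pos ha'
  have hw : ∀ᶠ s : S' in 𝓝 ⟨F a, ha'⟩, (w s).1 = G s ∧ u (w s) = s :=
    ((ev_sub ha').2 h2).mono fun s b => by
      have e : (w s).1 = G s := congrArg Subtype.val (dif_pos b.1)
      exact ⟨e, Subtype.ext (by
        have : F (w s).1 ∈ S' := by rw [e, b.2]; exact s.2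
        rw [show (u (w s)).1 = F (w s).1 from congrArg Subtype.val (dif_pos this), e, b.2])⟩
  have cu : ∀ᶠ s : S in 𝓝 ⟨a, ha⟩, ContinuousAt u s := by
    filter_upwards [hu.eventually_nhds, continuous_subtype_val.continuousAt.eventually
      hF.eventually_analyticAt] with s b1 b2
    exact IsInducing.subtypeVal.continuousAt_iff.2 ((b2.continuousAt.comp
      continuous_subtype_val.continuousAt).congr (b1.mono fun _ b => b.1.symm))
  have cw : ∀ᶠ s : S' in 𝓝 ⟨F a, ha'⟩, ContinuousAt w s := by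
    filter_upwards [hw.eventually_nhds, continuous_subtype_val.continuousAt.eventually
      hG.eventually_analyticAt] with s b1 b2
    exact IsInducing.subtypeVal.continuousAt_iff.2 ((b2.continuousAt.comp
      continuous_subtype_val.continuousAt).congr (b1.mono fun _ b => b.1.symm))
  have lh : LH u ⟨a, ha⟩ := .of_inv w cu (u0 ▸ cw) (hu.mono fun _ b => b.2)
    (u0 ▸ hw.mono fun _ b => b.2)
  refine ⟨ha', u0 ▸ hm.push lh ⟨F, hF, hu.mono fun _ b => b.1⟩ ⟨G, ?_, ?_⟩⟩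
  · simpa only [u0] using hG
  · filter_upwards [hu, (ev_sub ha).2 h1] with s b1 b2
    rw [b1.1, b2.2]

theorem congr [CompleteSpace A] (h : MfdAt S n a) (e : ∀ᶠ s in 𝓝 a, s ∈ S ↔ s ∈ Z) :
    MfdAt Z n a :=
  h.iso (F := id) (G := id) analyticAt_id analyticAt_id (e.mono fun _ b c => ⟨b.1 c, rfl⟩)
    (e.mono fun _ b c => ⟨b.2 c, rfl⟩)

theorem prod (h : MfdAt S n a) (h' : MfdAt S' m a') : MfdAt (S ×ˢ S') (n + m) (a, a') :=
  ⟨⟨h.1, h'.1⟩, IsMfd.pull (ι := Prod.map Subtype.val Subtype.val) (u := Homeomorph.Set.prod S S')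
    (t' := ⟨(a, a'), h.1, h'.1⟩) (h.2.prod h'.2) (Homeomorph.lh _ _)⟩

/-- The zero set of a map that is a submersion along arcs. -/
theorem sub [FiniteDimensional ℂ B] (h : MfdAt S m a) {Φ : A → B} (hΦ : AnalyticAt ℂ Φ a)
    (h0 : Φ a = 0) (hs : ⊤ ≤ Submodule.span ℂ {b | ∃ c, Arc S a c ∧ deriv (fun ε => Φ (c ε)) 0 = b})
    (hZ : ∀ᶠ s in 𝓝 a, s ∈ Z ↔ s ∈ S ∧ Φ s = 0) (hn : n + Module.finrank ℂ B = m)
    [CompleteSpace A] : MfdAt Z n a := by
  have h1 := IsMfd.sub (ι := (Subtype.val : S → A)) (Z := {s | s ∈ S ∧ Φ s = 0})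
    (j := inclusion fun _ b => b.1) (IsEmbedding.inclusion _) (z := ⟨a, h.1, h0⟩) h.2 hΦ
    (fun b => ?_) (.of_forall fun s => ⟨fun ⟨z, e⟩ => e ▸ z.2.2, fun e => ⟨⟨s, s.2, e⟩, rfl⟩⟩) hn
  · exact congr (S := {s | s ∈ S ∧ Φ s = 0}) ⟨⟨h.1, h0⟩, h1.1⟩ (hZ.mono fun _ b => b.symm)
  · refine Submodule.span_le.2 (show _ ⊆ (((tan (Subtype.val : S → A) ⟨a, h.1⟩).map
      (fderiv ℂ Φ a : A →ₗ[ℂ] B) : Submodule ℂ B) : Set B) from ?_) (hs trivial)
    rintro _ ⟨c, hc, rfl⟩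
    exact ⟨_, hc.mem_tan h.1, (HasFDerivAt.comp_hasDerivAt_of_eq 0
      hΦ.differentiableAt.hasFDerivAt hc.an.differentiableAt.hasDerivAt hc.zero.symm).deriv.symm⟩

/-- Graphs of analytic maps. -/
theorem graph [CompleteSpace A] [CompleteSpace B] (h : MfdAt S n a) {F : A → B}
    (hF : AnalyticAt ℂ F a) {Y : Set (A × B)}
    (hY : ∀ᶠ s in 𝓝 (a, F a), s ∈ Y ↔ s.1 ∈ S ∧ s.2 = F s.1) : MfdAt Y n (a, F a) :=
  congr (S := {s : A × B | s.1 ∈ S ∧ s.2 = F s.1}) (h.iso (F := fun s => (s, F s)) (G := Prod.fst)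
    (analyticAt_id.prod hF) analyticAt_fst (.of_forall fun _ b => ⟨⟨b, rfl⟩, rfl⟩)
    (.of_forall fun _ b => ⟨b.1, Prod.ext rfl b.2.symm⟩)) (hY.mono fun _ b => b.symm)

end MfdAt

/-- Holomorphic functions on a subset. -/
theorem holAt_val_iff (ha : a ∈ S) {f : A → B} :
    HolAt (Subtype.val : S → A) (fun s => f s.1) ⟨a, ha⟩ ↔
      ∃ Φ, AnalyticAt ℂ Φ a ∧ ∀ᶠ s in 𝓝 a, s ∈ S → f s = Φ s :=
  exists_congr fun Φ => and_congr_right fun _ => ev_sub ha (p := fun s => f s = Φ s)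

/-- A square matrix of derivatives along arcs with nonzero determinant gives a submersion. -/
theorem span_of_det {κ : Type*} [Fintype κ] [DecidableEq κ] {X : Set (κ → ℂ)} {D : Matrix κ κ ℂ}
    (h : D.det ≠ 0) (hX : ∀ e, D e ∈ X) : ⊤ ≤ Submodule.span ℂ X := by
  have h1 := (Matrix.linearIndependent_rows_iff_isUnit.2
    ((Matrix.isUnit_iff_isUnit_det D).2 h.isUnit)).span_eq_top_of_card_eq_finrank' (by simp)
  exact h1.ge.trans (Submodule.span_mono (range_subset_iff.2 hX))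

end Vale.Agent.P269.Holo
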