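import Vale.Agent.P269.Holo.Bundle
import Vale.Agent.P281.MF.Hol

/-!
# Division with parameters, implicit functions, the normal form `u v = τ` of a node, retracts
-/

namespace Vale.Agent.P269.Holo

open Set Function Topology Filter Metric

variable {P E F A : Type*} [NormedAddCommGroup P] [NormedSpace ℂ P] [NormedAddCommGroup E]
  [NormedSpace ℂ E] [NormedAddCommGroup F] [NormedSpace ℂ F] [NormedAddCommGroup A]
  [NormedSpace ℂ A]

/-- Divided differences depend analytically on parameters. -/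
theorem analyticAt_dslope [FiniteDimensional ℂ P] [CompleteSpace F] {f : ℂ × P → F} {w : P}
    (hf : AnalyticAt ℂ f (0, w)) :
    AnalyticAt ℂ (fun p : ℂ × P => dslope (fun x => f (x, p.2)) 0 p.1) (0, w) := by
  obtain ⟨ε, hε, h1⟩ := Metric.eventually_nhds_iff_ball.1 hf.eventually_analyticAt
  have h2 : ∀ x y, ‖x‖ < ε → y ∈ ball w ε → DifferentiableAt ℂ f (x, y) := fun x y hx hy =>
    (h1 _ (by rw [← ball_prod_same]; exact ⟨mem_ball_zero_iff.2 hx, hy⟩)).differentiableAt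
  let G : (ℂ × P) × ℂ → F := fun q => (q.2 - q.1.1)⁻¹ • q.2⁻¹ • (f (q.2, q.1.2) - f (0, q.1.2))
  have hU : IsOpen (ball (0 : ℂ) (ε / 4) ×ˢ ball w ε) := isOpen_ball.prod isOpen_ball
  have hW : IsOpen {z : ℂ | ε / 4 < ‖z‖ ∧ ‖z‖ < ε} :=
    (isOpen_lt continuous_const continuous_norm).inter (isOpen_lt continuous_norm continuous_const)
  have h3 := P281.MF.differentiableOn_circleIntegral (G := G) (c := 0) (R := ε / 2) (by positivity)
    hU hW (fun z hz => by
      rw [mem_sphere_zero_iff_norm] at hz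
      constructor <;> linarith) (by
      rintro ⟨⟨x, y⟩, z⟩ ⟨⟨hx, hy⟩, hz, hz'⟩
      rw [mem_ball_zero_iff] at hx
      have e1 : z ≠ 0 := fun e => by rw [e, norm_zero] at hz; linarith
      have e2 : z - x ≠ 0 := fun e => by rw [sub_eq_zero.1 e] at hz; linarith
      have d1 : DifferentiableAt ℂ (fun q : (ℂ × P) × ℂ => f (q.2, q.1.2)) ((x, y), z) :=
        (h2 z y hz' hy).comp (f := fun q : (ℂ × P) × ℂ => (q.2, q.1.2)) ((x, y), z) (by fun_prop)
      have d2 : DifferentiableAt ℂ (fun q : (ℂ × P) × ℂ => f (0, q.1.2)) ((x, y), z) :=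
        (h2 0 y (by simpa using hε) hy).comp (f := fun q : (ℂ × P) × ℂ => (0, q.1.2)) ((x, y), z)
          (by fun_prop)
      have d3 : DifferentiableAt ℂ (fun q : (ℂ × P) × ℂ => q.2 - q.1.1) ((x, y), z) := by fun_prop
      exact ((d3.inv e2).smul ((differentiableAt_snd.inv e1).smul
        (d1.sub d2))).differentiableWithinAt)
  have h4 : ((0 : ℂ), w) ∈ ball (0 : ℂ) (ε / 4) ×ˢ ball w ε :=
    ⟨mem_ball_self (by positivity), mem_ball_self hε⟩
  refine ((P281.MF.analyticAt_of_differentiableOn hU h3 h4).const_smul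
    (c := (2 * Real.pi * Complex.I : ℂ)⁻¹)).congr ?_
  filter_upwards [hU.mem_nhds h4]
  rintro ⟨x, y⟩ ⟨hx, hy⟩
  have h5 : DifferentiableOn ℂ (fun x => f (x, y)) (ball 0 ε) := fun z hz =>
    ((h2 z y (mem_ball_zero_iff.1 hz) hy).comp z (by fun_prop)).differentiableWithinAt
  have h6 := (((Complex.differentiableOn_dslope (ball_mem_nhds 0 hε)).2 h5).mono
    (closedBall_subset_ball (half_lt_self hε))).circleIntegral_sub_inv_smul (w := x)
    (ball_subset_ball (by linarith) hx)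
  have h7 : (∮ t in C(0, ε / 2), G ((x, y), t)) =
      ∮ z in C(0, ε / 2), (z - x)⁻¹ • dslope (fun x => f (x, y)) 0 z := by
    refine circleIntegral.integral_congr (by positivity) fun z hz => ?_
    have e1 : z ≠ 0 := fun e => by rw [e, mem_sphere_zero_iff_norm, norm_zero] at hz; linarith
    simp [G, dslope_of_ne _ e1, slope]
  simp only [Pi.smul_apply, h7, h6]
  rw [inv_smul_smul₀ Complex.two_pi_I_ne_zero]

/-- Division by a coordinate. -/
theorem exists_div [FiniteDimensional ℂ P] [CompleteSpace F] {f : ℂ × P → F} {w : P}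
    (hf : AnalyticAt ℂ f (0, w)) :
    ∃ g : ℂ × P → F, AnalyticAt ℂ g (0, w) ∧ ∀ p, f p = f (0, p.2) + p.1 • g p :=
  ⟨_, analyticAt_dslope hf, fun p => by
    have := sub_smul_dslope (fun x => f (x, p.2)) 0 p.1
    rw [sub_zero] at this
    rw [this, add_sub_cancel]⟩

/-- Division by the square of a coordinate. -/
theorem exists_div_sq [FiniteDimensional ℂ P] [CompleteSpace F] {f : ℂ × P → F} {w : P}
    (hf : AnalyticAt ℂ f (0, w)) (h : ∀ᶠ s in 𝓝 w, deriv (fun x => f (x, s)) 0 = 0) :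
    ∃ g : ℂ × P → F, AnalyticAt ℂ g (0, w) ∧
      ∀ᶠ p in 𝓝 (0, w), f p = f (0, p.2) + p.1 ^ 2 • g p := by
  obtain ⟨g, h1, h2⟩ := exists_div (analyticAt_dslope hf)
  refine ⟨g, h1, ((continuousAt_snd (p := ((0 : ℂ), w))).eventually h).mono fun p hp => ?_⟩
  have h3 := sub_smul_dslope (fun x => f (x, p.2)) 0 p.1
  rw [h2 p, dslope_same, hp, sub_zero, zero_add, smul_smul, ← sq] at h3
  rw [h3, add_sub_cancel]

/-- Hadamard's lemma with parameters. -/
theorem hadamard_fin [FiniteDimensional ℂ P] [CompleteSpace F] {w : P} :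
    ∀ {n : ℕ} {f : (Fin n → ℂ) × P → F}, AnalyticAt ℂ f (0, w) →
      ∃ g : Fin n → (Fin n → ℂ) × P → F, (∀ i, AnalyticAt ℂ (g i) (0, w)) ∧
        ∀ p, f p = f (0, p.2) + ∑ i, p.1 i • g i p
  | 0, f, _ => ⟨fun i => i.elim0, fun i => i.elim0, fun p => by
      rw [Finset.univ_eq_empty, Finset.sum_empty, add_zero]
      exact congrArg f (Prod.ext (Subsingleton.elim _ _) rfl)⟩
  | n + 1, f, hf => by
    let e : ℂ × (Fin n → ℂ) × P → (Fin (n + 1) → ℂ) × P := fun q => (Fin.cons q.1 q.2.1, q.2.2)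
    let e' : (Fin (n + 1) → ℂ) × P → ℂ × (Fin n → ℂ) × P := fun q => (q.1 0, Fin.tail q.1, q.2)
    have he : ∀ q, AnalyticAt ℂ e q := fun q =>
      (AnalyticAt.pi fun i => Fin.cases analyticAt_fst (fun i =>
        ((ContinuousLinearMap.proj i : (Fin n → ℂ) →L[ℂ] ℂ).analyticAt _).comp
          (analyticAt_fst.comp analyticAt_snd)) i).prod (analyticAt_snd.comp analyticAt_snd)
    have hp : ∀ i q, AnalyticAt ℂ (fun q : (Fin (n + 1) → ℂ) × P => q.1 i) q := fun i q =>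
      ((ContinuousLinearMap.proj i : (Fin (n + 1) → ℂ) →L[ℂ] ℂ).analyticAt _).comp analyticAt_fst
    have he' : ∀ q, AnalyticAt ℂ e' q := fun q =>
      (hp 0 q).prod ((AnalyticAt.pi fun i : Fin n => hp i.succ q).prod analyticAt_snd)
    have hz : (Fin.cons 0 0 : Fin (n + 1) → ℂ) = 0 := funext fun i => Fin.cases rfl (fun _ => rfl) i
    have h0 : e (0, 0, w) = (0, w) := by simp [e, hz]
    have h1 : AnalyticAt ℂ (fun q => f (e q)) (0, 0, w) := AnalyticAt.comp (by rwa [h0]) (he _)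
    obtain ⟨g, h2, h3⟩ := exists_div h1
    obtain ⟨g', h4, h5⟩ := hadamard_fin (f := fun q => f (e (0, q))) (w := w)
      (h1.comp (f := fun q => (0, q)) (analyticAt_const.prod analyticAt_id))
    refine ⟨Fin.cases (fun p => g (e' p)) fun i p => g' i (e' p).2, fun i => Fin.cases
      (AnalyticAt.comp (g := g) h2 (he' _))
      (fun i => AnalyticAt.comp (g := g' i) (h4 i) (analyticAt_snd.comp (he' _))) i, fun p => ?_⟩
    have h6 := h3 (e' p)
    rw [h5] at h6
    simpa [e, e', Fin.sum_univ_succ, add_assoc, add_comm, add_left_comm, Fin.tail, hz] using h6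

theorem hadamard [FiniteDimensional ℂ P] [FiniteDimensional ℂ E] [CompleteSpace F] {w : P}
    {f : E × P → F} (hf : AnalyticAt ℂ f (0, w)) :
    ∃ g : E × P → E →L[ℂ] F, AnalyticAt ℂ g (0, w) ∧ ∀ p, f p = f (0, p.2) + g p p.1 := by
  let e : E ≃L[ℂ] (Fin (Module.finrank ℂ E) → ℂ) :=
    ContinuousLinearEquiv.ofFinrankEq (Module.finrank_fin_fun ℂ).symm
  obtain ⟨g, h1, h2⟩ := hadamard_fin (f := fun q => f (e.symm q.1, q.2)) (w := w)
    (AnalyticAt.comp (by simpa using hf)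
      (((e.symm.analyticAt _).comp analyticAt_fst).prod analyticAt_snd))
  refine ⟨fun p => ∑ i, ((ContinuousLinearMap.proj i).comp
    (e : E →L[ℂ] (Fin (Module.finrank ℂ E) → ℂ))).smulRight (g i (e p.1, p.2)),
    analyticAt_of_apply fun v => ?_, fun p => by simpa using h2 (e p.1, p.2)⟩
  simp only [sum_apply, ContinuousLinearMap.smulRight_apply]
  exact Finset.analyticAt_fun_sum _ fun i _ => analyticAt_const.smul
    (AnalyticAt.comp (g := g i) (by simpa using h1 i)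
      (((e.analyticAt _).comp analyticAt_fst).prod analyticAt_snd))

/-- The analytic implicit function theorem. -/
theorem implicit [FiniteDimensional ℂ P] [FiniteDimensional ℂ E] {f : E × P → F} {x : E} {w : P}
    (hf : AnalyticAt ℂ f (x, w)) (hb : Bijective (fderiv ℂ (fun y => f (y, w)) x)) :
    ∃ k : P → E, AnalyticAt ℂ k w ∧ k w = x ∧
      ∀ᶠ p in 𝓝 (x, w), f p = f (x, w) ↔ p.1 = k p.2 := by
  have : FiniteDimensional ℂ F :=
    (LinearEquiv.ofBijective (fderiv ℂ (fun y => f (y, w)) x : E →ₗ[ℂ] F) hb).finiteDimensional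
  have h1 : AnalyticAt ℂ (fun p => (f p, p.2)) (x, w) := hf.prod analyticAt_snd
  obtain ⟨-, g, h2, h3, h4, h5⟩ := ift h1 (bijective_of_injective _ (by
    rw [injective_iff_map_eq_zero, (hf.differentiableAt.hasFDerivAt.prodMk hasFDerivAt_snd).fderiv]
    rintro ⟨u, v⟩ h
    obtain rfl : v = 0 := congrArg Prod.snd h
    obtain rfl : u = 0 := hb.1 (by rw [fderiv_inl hf, map_zero]; exact congrArg Prod.fst h)
    rfl)
    (by rw [Module.finrank_prod, Module.finrank_prod, finrank_eq_of_bijective _ hb]))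
  refine ⟨fun s => (g (f (x, w), s)).1, analyticAt_fst.comp (h2.comp (f := fun s => (f (x, w), s))
    (analyticAt_const.prod analyticAt_id)), congrArg Prod.fst h3, ?_⟩
  filter_upwards [h4, ((tendsto_inr _ w).comp (continuousAt_snd (p := (x, w)))).eventually h5]
    with p a b
  refine ⟨fun e => by rw [← e, a], fun e => ?_⟩
  have : g (f (x, w), p.2) = p := Prod.ext e.symm (Prod.ext_iff.1 b).2
  simpa [this] using (Prod.ext_iff.1 b).1

theorem eq_zero_of_mul_eq_zero {X : Type*} [TopologicalSpace X] {a : ℂ × X → ℂ} {x : X}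
    (ha : ∀ᶠ p in 𝓝 (0, x), ContinuousAt a p) (h : ∀ᶠ p in 𝓝 (0, x), p.1 * a p = 0) :
    ∀ᶠ p in 𝓝 (0, x), a p = 0 := by
  filter_upwards [ha, h.eventually_nhds] with p h1 h2
  have h3 : Tendsto (fun z : ℂ => (z, p.2)) (𝓝[≠] p.1) (𝓝 p) :=
    (tendsto_inl p.1 p.2).mono_left nhdsWithin_le_nhds
  by_cases h4 : p.1 = 0
  · refine tendsto_nhds_unique (h1.tendsto.comp h3) (tendsto_const_nhds.congr' ?_)
    filter_upwards [h3.eventually h2, self_mem_nhdsWithin] with z a b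
    exact ((mul_eq_zero.1 a).resolve_left (h4 ▸ b)).symm
  · exact (mul_eq_zero.1 h2.self_of_nhds).resolve_left h4

/-- A function that vanishes on the two axes is divisible by `x y`. -/
theorem exists_div_axes {f : ℂ × ℂ → ℂ} (hf : AnalyticAt ℂ f (0, 0))
    (h1 : ∀ᶠ x in 𝓝 0, f (x, 0) = 0) (h2 : ∀ᶠ y in 𝓝 0, f (0, y) = 0) :
    ∃ b : ℂ × ℂ → ℂ, AnalyticAt ℂ b (0, 0) ∧ ∀ᶠ q in 𝓝 (0, 0), f q = q.1 * q.2 * b q := by
  obtain ⟨g, h3, h4⟩ := exists_div hf
  have hs : ∀ q : ℂ × ℂ, AnalyticAt ℂ Prod.swap q := fun q => analyticAt_snd.prod analyticAt_fst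
  obtain ⟨b, h5, h6⟩ := exists_div (f := fun q => g q.swap) (w := 0)
    (AnalyticAt.comp (g := g) h3 (hs _))
  have h7 : ∀ᶠ p in 𝓝 ((0 : ℂ), (0 : ℂ)), g (p.1, 0) = 0 := by
    have : AnalyticAt ℂ (fun p : ℂ × ℂ => g (p.1, 0)) (0, 0) :=
      AnalyticAt.comp (g := g) h3 (analyticAt_fst.prod analyticAt_const)
    refine eq_zero_of_mul_eq_zero (this.eventually_analyticAt.mono fun _ h => h.continuousAt) ?_
    filter_upwards [(continuousAt_fst (p := ((0 : ℂ), (0 : ℂ)))).eventually h1] with p hp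
    simpa [hp, h1.self_of_nhds] using (h4 (p.1, 0)).symm
  refine ⟨fun q => b q.swap, AnalyticAt.comp (g := b) h5 (hs _), ?_⟩
  filter_upwards [h7, (continuousAt_snd (p := ((0 : ℂ), (0 : ℂ)))).eventually h2] with q a c
  have := h6 q.swap
  simp only [Prod.swap_swap, Prod.snd_swap, Prod.swap_prod_mk, a, Prod.fst_swap] at this
  rw [h4, c, this]
  simp [mul_assoc]

/-- The inverse function theorem with parameters. -/
theorem ift_fibre [FiniteDimensional ℂ P] [FiniteDimensional ℂ E] {θ : E × P → F} {x : E} {w : P}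
    (hθ : AnalyticAt ℂ θ (x, w)) (hb : Bijective (fderiv ℂ (fun y => θ (y, w)) x)) :
    ∃ σ : F × P → E, AnalyticAt ℂ σ (θ (x, w), w) ∧ σ (θ (x, w), w) = x ∧
      (∀ᶠ p in 𝓝 (x, w), σ (θ p, p.2) = p.1) ∧ ∀ᶠ q in 𝓝 (θ (x, w), w), θ (σ q, q.2) = q.1 := by
  have : FiniteDimensional ℂ F :=
    (LinearEquiv.ofBijective (fderiv ℂ (fun y => θ (y, w)) x : E →ₗ[ℂ] F) hb).finiteDimensional
  have h1 : AnalyticAt ℂ (fun p => (θ p, p.2)) (x, w) := hθ.prod analyticAt_snd
  obtain ⟨-, g, h2, h3, h4, h5⟩ := ift h1 (bijective_of_injective _ (by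
    rw [injective_iff_map_eq_zero, (hθ.differentiableAt.hasFDerivAt.prodMk hasFDerivAt_snd).fderiv]
    rintro ⟨u, v⟩ h
    obtain rfl : v = 0 := congrArg Prod.snd h
    obtain rfl : u = 0 := hb.1 (by rw [fderiv_inl hθ, map_zero]; exact congrArg Prod.fst h)
    rfl)
    (by rw [Module.finrank_prod, Module.finrank_prod, finrank_eq_of_bijective _ hb]))
  refine ⟨fun q => (g q).1, analyticAt_fst.comp h2, congrArg Prod.fst h3,
    h4.mono fun p hp => congrArg Prod.fst hp, h5.mono fun q hq => ?_⟩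
  rw [← (Prod.ext_iff.1 hq).2]
  exact (Prod.ext_iff.1 hq).1

theorem hasFDerivAt_mul_zero {l : E →L[ℂ] ℂ} {a : E → ℂ} (ha : AnalyticAt ℂ a 0) :
    HasFDerivAt (fun q => l q * a q) (a 0 • l) 0 := by
  refine (l.hasFDerivAt.fun_mul ha.differentiableAt.hasFDerivAt).congr_fderiv ?_
  ext v
  simp

/-- The critical point of a deformation of `x y b`. -/
theorem exists_crit [FiniteDimensional ℂ P] {f : (ℂ × ℂ) × P → ℂ} {w : P}
    (hf : AnalyticAt ℂ f (0, w)) {b : ℂ × ℂ → ℂ} (hb : AnalyticAt ℂ b 0) (hb0 : b 0 ≠ 0)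
    (h : ∀ᶠ q in 𝓝 0, f (q, w) = q.1 * q.2 * b q) :
    ∃ k : P → ℂ × ℂ, AnalyticAt ℂ k w ∧ k w = 0 ∧
      ∀ᶠ s in 𝓝 w, fderiv ℂ f (k s, s) ((1, 0), 0) = 0 ∧ fderiv ℂ f (k s, s) ((0, 1), 0) = 0 := by
  let D : (ℂ × ℂ) × P → ℂ × ℂ := fun p => (fderiv ℂ f p ((1, 0), 0), fderiv ℂ f p ((0, 1), 0))
  have hD : AnalyticAt ℂ D (0, w) :=
    (an_apply hf.fderiv analyticAt_const).prod (an_apply hf.fderiv analyticAt_const)
  let α : ℂ × ℂ → ℂ := fun q => b q + q.1 * fderiv ℂ b q (1, 0)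
  let β : ℂ × ℂ → ℂ := fun q => b q + q.2 * fderiv ℂ b q (0, 1)
  have hα : AnalyticAt ℂ α 0 := hb.add (analyticAt_fst.mul (an_apply hb.fderiv analyticAt_const))
  have hβ : AnalyticAt ℂ β 0 := hb.add (analyticAt_snd.mul (an_apply hb.fderiv analyticAt_const))
  have h1 : (fun q => D (q, w)) =ᶠ[𝓝 0] fun q => (q.2 * α q, q.1 * β q) := by
    filter_upwards [h.eventually_nhds, hb.eventually_analyticAt,
      (tendsto_inl 0 w).eventually hf.eventually_analyticAt] with q h1 h2 h3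
    have h4 := ((hasFDerivAt_fst.mul hasFDerivAt_snd).mul h2.differentiableAt.hasFDerivAt).fderiv
    have h5 : fderiv ℂ (fun q => f (q, w)) q = _ := (EventuallyEq.fderiv_eq h1).trans h4
    simp only [D, ← fderiv_inl h3, h5, α, β]
    ext <;> simp <;> ring
  have h2 := ((hasFDerivAt_mul_zero (l := ContinuousLinearMap.snd ℂ ℂ ℂ) hα).prodMk
    (hasFDerivAt_mul_zero (l := ContinuousLinearMap.fst ℂ ℂ ℂ) hβ)).fderiv
  obtain ⟨k, h3, h4, h5⟩ := implicit hD (by
    rw [h1.fderiv_eq.trans h2]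
    refine bijective_of_injective _ ((injective_iff_map_eq_zero _).2 fun v hv => ?_) rfl
    simpa [α, β, hb0, Prod.ext_iff, and_comm] using hv)
  have h6 : D (0, w) = 0 := by simpa [Prod.ext_iff] using h1.self_of_nhds
  have h7 : Tendsto (fun s => (k s, s)) (𝓝 w) (𝓝 (0, w)) :=
    (h4 ▸ h3.continuousAt.tendsto).prodMk_nhds tendsto_id
  exact ⟨k, h3, h4, (h7.eventually h5).mono fun s hs => Prod.ext_iff.1 ((hs.2 rfl).trans h6)⟩

/-- The Morse lemma with parameters in two variables: a deformation of `x y b` is `u v - τ`. -/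
theorem node_form [FiniteDimensional ℂ P] {f : (ℂ × ℂ) × P → ℂ} {w : P}
    (hf : AnalyticAt ℂ f (0, w)) {b : ℂ × ℂ → ℂ} (hb : AnalyticAt ℂ b 0) (hb0 : b 0 ≠ 0)
    (h : ∀ᶠ q in 𝓝 0, f (q, w) = q.1 * q.2 * b q) :
    ∃ (θ : (ℂ × ℂ) × P → ℂ × ℂ) (τ : P → ℂ), AnalyticAt ℂ θ (0, w) ∧ AnalyticAt ℂ τ w ∧ τ w = 0 ∧
      (∀ᶠ q in 𝓝 0, θ (q, w) = (q.1, q.2 * b q)) ∧ Bijective (fderiv ℂ (fun q => θ (q, w)) 0) ∧
      ∀ᶠ p in 𝓝 (0, w), f p = (θ p).1 * (θ p).2 - τ p.2 := by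
  obtain ⟨k, k1, k2, k3⟩ := exists_crit hf hb hb0 h
  let g : (ℂ × ℂ) × P → ℂ := fun p => f (p.1 + k p.2, p.2)
  have hk : ∀ {X : Type _} [NormedAddCommGroup X] [NormedSpace ℂ X] (x : X),
      AnalyticAt ℂ (fun p : X × P => k p.2) (x, w) := fun x =>
    k1.comp (f := Prod.snd) (x := (x, w)) analyticAt_snd
  have hg : AnalyticAt ℂ g (0, w) := AnalyticAt.comp (g := f) (by simpa [k2] using hf)
    ((analyticAt_fst.add (hk _)).prod analyticAt_snd)
  have gw : ∀ q, g (q, w) = f (q, w) := fun q => by simp [g, k2]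
  have h7 : Tendsto (fun s => (k s, s)) (𝓝 w) (𝓝 (0, w)) :=
    (k2 ▸ k1.continuousAt.tendsto).prodMk_nhds tendsto_id
  have hd : ∀ v : ℂ × ℂ, ∀ᶠ s in 𝓝 w,
      deriv (fun x : ℂ => g (x • v, s)) 0 = fderiv ℂ f (k s, s) (v, 0) := fun v => by
    filter_upwards [h7.eventually hf.eventually_analyticAt] with s hs
    have h1 : HasDerivAt (fun x : ℂ => (x • v + k s, s)) (v, 0) 0 := by
      simpa using (((hasDerivAt_id (0 : ℂ)).smul_const v).add_const (k s)).prodMk
        (hasDerivAt_const (0 : ℂ) s)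
    have h2 : HasFDerivAt f (fderiv ℂ f (k s, s)) ((0 : ℂ) • v + k s, s) := by
      simpa using hs.differentiableAt.hasFDerivAt
    exact (h2.comp_hasDerivAt (0 : ℂ) h1).deriv
  have hl : ∀ v : ℂ × ℂ, AnalyticAt ℂ (fun p : ℂ × P => g (p.1 • v, p.2)) (0, w) := fun v =>
    AnalyticAt.comp (g := g) (by simpa using hg)
      ((analyticAt_fst.smul analyticAt_const).prod analyticAt_snd)
  obtain ⟨a, a1, a2⟩ := exists_div_sq (hl (1, 0))
    (by filter_upwards [hd (1, 0), k3] with s e e' using e.trans e'.1)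
  obtain ⟨c, c1, c2⟩ := exists_div_sq (hl (0, 1))
    (by filter_upwards [hd (0, 1), k3] with s e e' using e.trans e'.2)
  obtain ⟨g₁, g1, g2⟩ := exists_div (f := fun p : ℂ × ℂ × P => g ((p.2.1, p.1), p.2.2))
    (w := (0, w)) (AnalyticAt.comp (g := g) hg (((analyticAt_fst.comp analyticAt_snd).prod
      analyticAt_fst).prod (analyticAt_snd.comp analyticAt_snd)))
  obtain ⟨B, B1, B2⟩ := exists_div (f := fun p : ℂ × ℂ × P => g₁ (p.2.1, p.1, p.2.2))
    (w := (0, w)) (AnalyticAt.comp (g := g₁) g1 ((analyticAt_fst.comp analyticAt_snd).prod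
      (analyticAt_fst.prod (analyticAt_snd.comp analyticAt_snd))))
  have t1 : AnalyticAt ℂ (fun p : (ℂ × ℂ) × P => (p.1.1, p.2)) (0, w) :=
    (analyticAt_fst.comp analyticAt_fst).prod analyticAt_snd
  have t2 : AnalyticAt ℂ (fun p : (ℂ × ℂ) × P => (p.1.2, p.2)) (0, w) :=
    (analyticAt_snd.comp analyticAt_fst).prod analyticAt_snd
  have t3 : AnalyticAt ℂ (fun p : (ℂ × ℂ) × P => (p.1.1, p.1.2, p.2)) (0, w) :=
    (analyticAt_fst.comp analyticAt_fst).prod t2
  let a' : (ℂ × ℂ) × P → ℂ := fun p => a (p.1.1, p.2)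
  let c' : (ℂ × ℂ) × P → ℂ := fun p => c (p.1.2, p.2)
  let B' : (ℂ × ℂ) × P → ℂ := fun p => B (p.1.1, p.1.2, p.2)
  have a3 : AnalyticAt ℂ a' (0, w) := AnalyticAt.comp (g := a) a1 t1
  have c3 : AnalyticAt ℂ c' (0, w) := AnalyticAt.comp (g := c) c1 t2
  have B3 : AnalyticAt ℂ B' (0, w) := AnalyticAt.comp (g := B) B1 t3
  have key : ∀ᶠ p in 𝓝 ((0 : ℂ × ℂ), w),
      g p = g (0, p.2) + p.1.1 ^ 2 * a' p + p.1.2 ^ 2 * c' p + p.1.1 * p.1.2 * B' p := by
    filter_upwards [t1.continuousAt.eventually a2, t2.continuousAt.eventually c2] with p e1 e2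
    have e3 := g2 (p.1.2, p.1.1, p.2)
    have e4 := g2 (p.1.2, 0, p.2)
    have e5 := B2 (p.1.1, p.1.2, p.2)
    simp only [Prod.smul_mk, smul_eq_mul, mul_one, mul_zero, Prod.mk_zero_zero,
      Prod.mk.eta] at e1 e2 e3 e4 e5
    simp only [a', c', B']
    linear_combination e3 + e1 + p.1.2 * e5 - e4 + e2
  have g0 : g (0, w) = 0 := by simpa [gw] using h.self_of_nhds
  have z2 : ∀ {u : ℂ × P → ℂ}, AnalyticAt ℂ u (0, w) → (∀ᶠ x in 𝓝 (0 : ℂ), x ^ 2 * u (x, w) = 0) →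
      ∀ᶠ x in 𝓝 (0 : ℂ), u (x, w) = 0 := fun {u} hu e => by
    have hc : ∀ᶠ p in 𝓝 ((0 : ℂ), ()), ContinuousAt (fun p : ℂ × Unit => u (p.1, w)) p :=
      (((tendsto_inl 0 w).comp (continuousAt_fst (p := ((0 : ℂ), ())))).eventually
        hu.eventually_analyticAt).mono fun p hp =>
          hp.continuousAt.comp (f := fun p : ℂ × Unit => (p.1, w)) (by fun_prop)
    exact (tendsto_inl 0 ()).eventually (eq_zero_of_mul_eq_zero hc (eq_zero_of_mul_eq_zero
      (hc.mono fun p hp => continuousAt_fst.mul hp)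
      (((continuousAt_fst (p := ((0 : ℂ), ()))).eventually e).mono fun p hp => by
        rw [← hp]; ring)))
  have a4 : ∀ᶠ x in 𝓝 (0 : ℂ), a (x, w) = 0 := z2 a1 (by
    filter_upwards [(tendsto_inl 0 w).eventually a2, (tendsto_inl 0 0).eventually h] with x e e'
    simp only [Prod.smul_mk, smul_eq_mul, mul_one, mul_zero, Prod.mk_zero_zero, g0, gw, e'] at e
    simpa using e.symm)
  have c4 : ∀ᶠ x in 𝓝 (0 : ℂ), c (x, w) = 0 := z2 c1 (by
    filter_upwards [(tendsto_inl 0 w).eventually c2, (tendsto_inr 0 0).eventually h] with x e e'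
    simp only [Prod.smul_mk, smul_eq_mul, mul_one, mul_zero, Prod.mk_zero_zero, g0, gw, e'] at e
    simpa using e.symm)
  have a5 : ∀ᶠ q in 𝓝 (0 : ℂ × ℂ), a' (q, w) = 0 :=
    (continuousAt_fst (p := (0 : ℂ × ℂ))).eventually a4
  have c5 : ∀ᶠ q in 𝓝 (0 : ℂ × ℂ), c' (q, w) = 0 :=
    (continuousAt_snd (p := (0 : ℂ × ℂ))).eventually c4
  have B4 : ∀ᶠ q in 𝓝 (0 : ℂ × ℂ), B' (q, w) = b q := by
    have hu : AnalyticAt ℂ (fun q : ℂ × ℂ => B' (q, w) - b q) 0 :=
      (B3.comp (f := fun q => (q, w)) (analyticAt_id.prod analyticAt_const)).sub hb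
    have hc := hu.eventually_analyticAt.mono fun _ e => e.continuousAt
    have e1 : ∀ᶠ q in 𝓝 ((0 : ℂ), (0 : ℂ)), q.2 * (B' (q, w) - b q) = 0 :=
      eq_zero_of_mul_eq_zero (hc.mono fun p hp => continuousAt_snd.mul hp) (by
        filter_upwards [(tendsto_inl 0 w).eventually key, a5, c5, h] with q e e1 e2 e3
        rw [g0, gw, e1, e2, e3] at e
        linear_combination -e)
    have sw : Tendsto Prod.swap (𝓝 ((0 : ℂ), (0 : ℂ))) (𝓝 ((0 : ℂ), (0 : ℂ))) :=
      continuous_swap.continuousAt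
    have e2 := eq_zero_of_mul_eq_zero (a := fun q : ℂ × ℂ => B' (q.swap, w) - b q.swap) (x := 0)
      ((sw.eventually hc).mono fun p hp => hp.comp continuous_swap.continuousAt) (sw.eventually e1)
    exact (sw.eventually e2).mono fun q hq => sub_eq_zero.1 hq
  let R : ℂ × (ℂ × ℂ) × P → ℂ := fun z => z.1 * (a' z.2 * z.1 - B' z.2) + c' z.2
  have ts : ∀ {u : (ℂ × ℂ) × P → ℂ}, AnalyticAt ℂ u (0, w) →
      AnalyticAt ℂ (fun z : ℂ × (ℂ × ℂ) × P => u z.2) (0, 0, w) := fun hu =>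
    hu.comp (f := Prod.snd) (x := (0, 0, w)) analyticAt_snd
  obtain ⟨l, l1, l2, l3⟩ := implicit (f := R) (x := 0) (w := (0, w))
    ((analyticAt_fst.mul (((ts a3).mul analyticAt_fst).sub (ts B3))).add (ts c3)) (by
      have := ((hasFDerivAt_mul_zero (l := ContinuousLinearMap.id ℂ ℂ)
        (a := fun x => a' (0, w) * x - B' (0, w)) (by fun_prop)).add_const (c' (0, w))).fderiv
      rw [show fderiv ℂ (fun y => R (y, 0, w)) 0 = _ from this]
      refine bijective_of_injective _ ((injective_iff_map_eq_zero _).2 fun v hv => ?_) rfl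
      simpa [B4.self_of_nhds, hb0] using hv)
  have R0 : R (0, 0, w) = 0 := by simpa [R] using c5.self_of_nhds
  have l4 : ∀ᶠ p in 𝓝 ((0 : ℂ × ℂ), w), R (l p, p) = 0 :=
    (((l2 ▸ l1.continuousAt.tendsto).prodMk_nhds tendsto_id).eventually l3).mono
      fun p hp => (hp.2 rfl).trans R0
  have l5 : ∀ᶠ q in 𝓝 (0 : ℂ × ℂ), l (q, w) = 0 := by
    filter_upwards [((tendsto_inr 0 _).comp (tendsto_inl 0 w)).eventually l3, c5] with q e e'
    exact (e.1 (by simpa [R0, R] using e')).symm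
  let θ : (ℂ × ℂ) × P → ℂ × ℂ := fun p =>
    (p.1.1 + l p * p.1.2, a' p * p.1.1 + (B' p - a' p * l p) * p.1.2)
  have hθ : AnalyticAt ℂ θ (0, w) :=
    ((analyticAt_fst.comp analyticAt_fst).add (l1.mul (analyticAt_snd.comp analyticAt_fst))).prod
      ((a3.mul (analyticAt_fst.comp analyticAt_fst)).add
        ((B3.sub (a3.mul l1)).mul (analyticAt_snd.comp analyticAt_fst)))
  have t4 : AnalyticAt ℂ (fun p : (ℂ × ℂ) × P => (p.1 - k p.2, p.2)) (0, w) :=
    (analyticAt_fst.sub (hk _)).prod analyticAt_snd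
  have t5 : Tendsto (fun p : (ℂ × ℂ) × P => (p.1 - k p.2, p.2)) (𝓝 (0, w)) (𝓝 (0, w)) := by
    simpa [k2] using t4.continuousAt.tendsto
  have θw : ∀ᶠ q in 𝓝 (0 : ℂ × ℂ), θ (q - k w, w) = (q.1, q.2 * b q) := by
    filter_upwards [a5, B4, l5] with q e1 e2 e3
    simp [θ, k2, e1, e2, e3, mul_comm]
  refine ⟨fun p => θ (p.1 - k p.2, p.2), fun s => -g (0, s),
    AnalyticAt.comp (g := θ) (by simpa [k2] using hθ) t4,
    (hg.comp (f := fun s => (0, s)) (analyticAt_const.prod analyticAt_id)).neg, by simp [g0], θw,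
    ?_, ?_⟩
  · rw [(EventuallyEq.fderiv_eq θw).trans (hasFDerivAt_fst.prodMk
      (hasFDerivAt_mul_zero (l := ContinuousLinearMap.snd ℂ ℂ ℂ) hb)).fderiv]
    refine bijective_of_injective _ ((injective_iff_map_eq_zero _).2 fun v hv => ?_) rfl
    simpa [hb0, Prod.ext_iff] using hv
  · filter_upwards [t5.eventually key, t5.eventually l4] with p e1 e2
    simp only [g, sub_add_cancel, R] at e1 e2
    simp only [θ, g]
    linear_combination e1 + (p.1 - k p.2).2 ^ 2 * e2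

/-- The image of a holomorphic retraction is a manifold. -/
theorem isMfd_of_retract [FiniteDimensional ℂ A] {T : Type*} [TopologicalSpace T] {ι : T → A}
    (hι : IsEmbedding ι) {t : T} {r : A → A} (hr : AnalyticAt ℂ r (ι t))
    (h1 : ∀ᶠ a in 𝓝 (ι t), r a ∈ range ι) (h2 : ∀ᶠ s in 𝓝 t, r (ι s) = ι s) :
    IsMfd ι (Module.finrank ℂ (LinearMap.range (fderiv ℂ r (ι t) : A →ₗ[ℂ] A))) t ∧
      tan ι t = LinearMap.range (fderiv ℂ r (ι t) : A →ₗ[ℂ] A) := by
  have : Nonempty T := ⟨t⟩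
  let ρ : A → T := fun a => invFun ι (r a)
  have h3 : ∀ᶠ a in 𝓝 (ι t), ι (ρ a) = r a := h1.mono fun a ha => invFun_eq ha
  have h0 : r (ι t) = ι t := h2.self_of_nhds
  have h4 : ρ (ι t) = t := hι.injective (h3.self_of_nhds.trans h0)
  have h5 : ContinuousAt ρ (ι t) := hι.isInducing.continuousAt_iff.2
    (hr.continuousAt.congr (h3.mono fun a ha => ha.symm))
  have h6 : ∀ᶠ a in 𝓝 (ι t), r (r a) = r a := by
    filter_upwards [h3, h5.eventually (h4.symm ▸ h2)] with a e e' using by rwa [e] at e'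
  set D := fderiv ℂ r (ι t)
  have h7 : ∀ v, D (D v) = D v := fun v => by
    have := EventuallyEq.fderiv_eq (𝕜 := ℂ) h6
    rw [fderiv_comp_an (g := r) (by rwa [h0]) hr, h0] at this
    exact congr($this v)
  let K := LinearMap.range (D : A →ₗ[ℂ] A)
  have h8 : HasFDerivAt (fun k : K => ι t + k) K.subtypeL 0 := K.subtypeL.hasFDerivAt.const_add _
  have h9 : Tendsto (fun k : K => ι t + k) (𝓝 0) (𝓝 (ι t)) := by
    simpa using h8.continuousAt.tendsto
  have h10 : (fun k : K => ι (ρ (ι t + k))) =ᶠ[𝓝 0] fun k => r (ι t + k) := h9.eventually h3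
  have h11 : AnalyticAt ℂ (fun k : K => r (ι t + k)) 0 := AnalyticAt.comp (g := r)
    (by simpa using hr) (analyticAt_const.add (K.subtypeL.analyticAt _))
  have h12 : ∀ k : K, fderiv ℂ (fun k : K => ι (ρ (ι t + k))) 0 k = k := by
    intro k
    obtain ⟨v, hv⟩ := k.2
    rw [h10.fderiv_eq, fderiv_comp_an (g := r) (f := fun k : K => ι t + k) (by simpa using hr)
      (analyticAt_const.add (K.subtypeL.analyticAt _)), h8.fderiv]
    simpa [← hv] using h7 v
  have h13 := ((IsParam.self (ι t)).of_clean hι (φ := fun k : K => ρ (ι t + k)) (y := 0)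
    (by simp [h4]) (ContinuousAt.comp (g := ρ) (by simpa using h5) h8.continuousAt) (h11.congr h10.symm)
    (fun a b e => Subtype.ext (by rwa [h12, h12] at e)) (Φ := fun a => a - r a)
    (analyticAt_id.sub hr) (by
      rw [hι.isInducing.nhds_eq_comap, eventually_comap] at h2
      filter_upwards [h2] with a ha ⟨s, hs⟩
      rw [← hs, ha s hs, sub_self]) (fun v _ hv => by
      rw [show fderiv ℂ (fun a => a - r a) (ι t) = _ from
        ((hasFDerivAt_id _).sub hr.differentiableAt.hasFDerivAt).fderiv] at hv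
      exact ⟨⟨v, v, (sub_eq_zero.1 hv).symm⟩, h12 _⟩)).1
  have h14 := h13.isMfd rfl
  have h15 := h13.tan_eq
  simp only [Submodule.coe_zero, add_zero, h4] at h14 h15
  refine ⟨h14, h15.trans (Submodule.ext fun v => ⟨?_, fun hv => ⟨⟨v, hv⟩, h12 _⟩⟩)⟩
  rintro ⟨k, rfl⟩
  exact (h12 k).symm ▸ k.2

end Vale.Agent.P269.Holo
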