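import Vale.Agent.P269.Holo.Normal
import Vale.Agent.P269.Holo.Osg

/-!
# Holomorphic principal bundles: slices correspond

`f : T₁ → T₂` is equivariant along `ρ : G₁ → G₂`, its fibres are free orbits of the kernel of `ρ`,
and it has local holomorphic sections.  No manifold structure is assumed.
-/

namespace Vale.Agent.P269.Holo

open Set Function Topology Filter

set_option linter.all false

variable {G₁ G₂ : Type*} [Group G₁] [TopologicalSpace G₁] [Group G₂] [TopologicalSpace G₂]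
  {T₁ T₂ Z₁ Z₂ X₁ X₂ : Type*} [TopologicalSpace T₁] [TopologicalSpace T₂] [TopologicalSpace Z₁]
  [TopologicalSpace Z₂] [TopologicalSpace X₁] [TopologicalSpace X₂] [MulAction G₁ T₁]
  [MulAction G₂ T₂] {L₁ L₂ A₁ A₂ E : Type*} [NormedAddCommGroup L₁] [NormedSpace ℂ L₁]
  [NormedAddCommGroup L₂] [NormedSpace ℂ L₂] [NormedAddCommGroup A₁] [NormedSpace ℂ A₁]
  [NormedAddCommGroup A₂] [NormedSpace ℂ A₂] [NormedAddCommGroup E] [NormedSpace ℂ E]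

section exp

variable {κ₁ : L₁ → G₁} {κ₂ : L₂ → G₂} {ρ : G₁ →* G₂} {d : L₁ →L[ℂ] L₂}

theorem IsExp.t1Space [IsTopologicalGroup G₁] (h : IsExp κ₁) : T1Space G₁ := by
  refine IsTopologicalGroup.t1Space G₁ (isClosed_of_closure_subset fun g hg => ?_)
  obtain ⟨k, h0, h1, -, h3⟩ := h.lh.exists_inv
  rw [h.zero] at h0 h1 h3
  have h4 : pure g ≤ 𝓝 (1 : G₁) := specializes_iff_pure.1 (specializes_iff_mem_closure.2 hg).symm
  have h5 : k g = 0 := by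
    have := (h1.cont.tendsto.mono_left h4)
    rw [h0, tendsto_pure_left] at this
    exact (specializes_iff_pure.2 fun s hs => this s hs).eq
  rw [← eventually_pure.1 (h3.filter_mono h4), h5, h.zero]
  rfl

/-- a homomorphism whose differential is surjective is open -/
theorem IsExp.isOpenMap [IsTopologicalGroup G₁] [IsTopologicalGroup G₂] [FiniteDimensional ℂ L₂]
    (h₁ : IsExp κ₁) (h₂ : IsExp κ₂) (hd : ∀ x, ρ (κ₁ x) = κ₂ (d x)) (sd : Surjective d) :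
    IsOpenMap ρ := by
  obtain ⟨s, hs⟩ := exists_rightInv sd
  refine IsTopologicalGroup.isOpenMap_iff_nhds_one.2 ?_
  rw [← h₂.map_nhds, show κ₂ = ρ ∘ fun x => κ₁ (s x) from funext fun x => by
    rw [comp_apply, hd, hs], ← map_map]
  exact map_mono (h₁.tendsto.comp (s.continuous.tendsto' 0 0 (map_zero s)))

theorem IsExp.continuous_hom [IsTopologicalGroup G₁] [IsTopologicalGroup G₂]
    (h₁ : IsExp κ₁) (h₂ : IsExp κ₂) (hd : ∀ x, ρ (κ₁ x) = κ₂ (d x)) : Continuous ρ := by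
  refine continuous_of_continuousAt_one ρ ?_
  rw [ContinuousAt, map_one, ← h₁.map_nhds, tendsto_map'_iff,
    show ρ ∘ κ₁ = κ₂ ∘ d from funext hd]
  exact h₂.tendsto.comp (d.continuous.tendsto' 0 0 (map_zero d))

/-- the exponential map of the kernel -/
theorem IsExp.ker [FiniteDimensional ℂ L₁] (h₁ : IsExp κ₁) (h₂ : IsExp κ₂)
    (hd : ∀ x, ρ (κ₁ x) = κ₂ (d x)) :
    IsExp fun x : LinearMap.ker (d : L₁ →ₗ[ℂ] L₂) => (⟨κ₁ x, by
      rw [MonoidHom.mem_ker, hd, show d x = 0 from x.2, h₂.zero]⟩ : ρ.ker) := by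
  have hc : Continuous fun x : LinearMap.ker (d : L₁ →ₗ[ℂ] L₂) => (⟨κ₁ x, by
      rw [MonoidHom.mem_ker, hd, show d x = 0 from x.2, h₂.zero]⟩ : ρ.ker) :=
    (h₁.cont.comp continuous_subtype_val).subtype_mk _
  refine ⟨?_, hc, fun s s' x => Subtype.ext (h₁.add s s' x)⟩
  obtain ⟨p, hp⟩ := ContinuousLinearMap.HasLeftInverse.of_injective_of_finiteDimensional
    (f := (LinearMap.ker (d : L₁ →ₗ[ℂ] L₂)).subtypeL) Subtype.val_injective
  obtain ⟨k, h0, h1, h2, h3⟩ := h₁.lh.exists_inv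
  have h4 : Tendsto (Subtype.val : ρ.ker → G₁) (𝓝 ⟨κ₁ (0 : LinearMap.ker (d : L₁ →ₗ[ℂ] L₂)), by
      rw [MonoidHom.mem_ker, hd, ZeroMemClass.coe_zero, map_zero, h₂.zero]⟩) (𝓝 (κ₁ 0)) :=
    continuous_subtype_val.continuousAt
  refine LH.of_inv (fun g => p (k g)) (Eventually.of_forall fun _ => hc.continuousAt) ?_ ?_ ?_
  · exact (h4.eventually h1.eventually_cont).mono fun g hg =>
      p.continuous.continuousAt.comp (hg.comp continuous_subtype_val.continuousAt)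
  · filter_upwards [(continuous_subtype_val.tendsto (0 : LinearMap.ker (d : L₁ →ₗ[ℂ] L₂))).eventually
      h2] with x hx
    rw [hx]
    exact hp x
  · have h5 : Tendsto (fun g => (d (k g), (0 : L₂))) (𝓝 (κ₁ 0)) (𝓝 0 ×ˢ 𝓝 0) :=
      ((d.continuous.tendsto' 0 0 (map_zero d)).comp (h1.cont.tendsto.mono_right
        (by rw [h0]))).prodMk tendsto_const_nhds
    filter_upwards [h4.eventually h3, h4.eventually (h5.eventually h₂.lh.eventually_inj)]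
      with g a b
    have c : d (k g) = 0 := b (by rw [← hd, a, h₂.zero]; exact g.2)
    exact Subtype.ext ((congrArg (fun x => κ₁ (Subtype.val x)) (hp ⟨_, c⟩)).trans a)

end exp

theorem IsSl.ev_cont {ι : T₁ → A₁} {φ : E → T₁} {y : E} (h : IsSl G₁ ι φ y) :
    ∀ᶠ z in 𝓝 y, ContinuousAt φ z :=
  ((tendsto_inr 1 y).eventually h.1.eventually_cont).mono fun z hz => by
    simpa [Function.comp_def] using hz.comp (f := fun z => (1, z)) (tendsto_inr 1 z)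

theorem IsSl.congr {ι : T₁ → A₁} {φ φ' : E → T₁} {y : E} (h : IsSl G₁ ι φ y)
    (e : ∀ᶠ z in 𝓝 y, φ' z = φ z) : IsSl G₁ ι φ' y := by
  obtain ⟨h3, h4, w, h5, h6⟩ := h
  have h7 := (continuousAt_snd (p := ((1 : G₁), y))).eventually e
  exact ⟨h3.congr (h7.mono fun p hp => congrArg (p.1 • ·) hp.symm),
    h4.congr (e.mono fun z hz => congrArg ι hz.symm), w, e.self_of_nhds ▸ h5,
    (h6.and h7).mono fun p hp => hp.2 ▸ hp.1⟩

theorem IsSl.eventually_stab {ι : T₁ → A₁} {φ : E → T₁} {y : E} (h : IsSl G₁ ι φ y) :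
    ∀ᶠ g in 𝓝 (1 : G₁), g • φ y = φ y → g = 1 :=
  (((tendsto_inl 1 y).prodMk (tendsto_const_nhds (x := ((1 : G₁), y)))).eventually
    h.1.eventually_inj).mono fun _ hg e => congrArg Prod.fst (hg (e.trans (one_smul _ _).symm))

theorem IsSl.isSlK' [ContinuousSMul G₁ T₁] [FiniteDimensional ℂ L₁] [FiniteDimensional ℂ E]
    [FiniteDimensional ℂ A₁] {κ : L₁ → G₁} {ι : T₁ → A₁} {φ : E → T₁} {y : E} (h : IsSl G₁ ι φ y)
    (hκ : IsExp κ) (hι : IsEmbedding ι) (ha : HolAct κ ι (φ y)) : IsSlK κ ι φ y :=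
  have := FiniteDimensional.complete ℂ A₁
  h.isSlK hκ (Eventually.of_forall fun _ => hι.continuous.continuousAt) ha
    (ha.inf_injective hκ (Eventually.of_forall fun _ e => hι.injective e) h.eventually_stab)

theorem HolAct.ker {κ₁ : L₁ → G₁} {ι : T₁ → A₁} {t : T₁} (ha : HolAct κ₁ ι t) {K : Subgroup G₁}
    {V : Submodule ℂ L₁} (h : ∀ x : V, κ₁ x ∈ K) : HolAct (fun x : V => (⟨κ₁ x, h x⟩ : K)) ι t := by
  obtain ⟨a, h1, h2⟩ := ha
  have h3 := ((continuous_subtype_val.prodMap continuous_id).tendsto ((0 : V), t)).eventually h2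
  exact ⟨fun p => a (p.1, p.2), h1.comp_of_eq
    (((V.subtypeL.analyticAt _).comp analyticAt_fst).prod analyticAt_snd) rfl, h3⟩

/-- the trivial action of the trivial group -/
@[reducible] def unitAct (X : Type*) : MulAction PUnit.{1} X where
  smul _ x := x
  one_smul _ := rfl
  mul_smul _ _ _ := rfl

theorem isSl_unit_iff {ι : T₁ → A₁} {φ : E → T₁} {y : E} :
    letI := unitAct T₁
    IsSl PUnit.{1} ι φ y ↔ IsParam ι φ y := by
  letI := unitAct T₁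
  have h := (Homeomorph.punitProd E).lh (1, y)
  exact ⟨fun ⟨h1, h2, w, h3, h4⟩ => ⟨LH.of_comp_right (g := φ) h1 h, h2, w, h3,
      (tendsto_inr 1 y).eventually h4⟩, fun ⟨h1, h2, w, h3, h4⟩ => ⟨LH.comp (g := φ) h1 h, h2, w, h3,
      (continuousAt_snd (p := ((1 : PUnit.{1}), y))).eventually h4⟩⟩

/-- The elements of the kernel of `ρ` that move a point near `t` to a point near `t` are close
to `1`. -/
def Rigid (ρ : G₁ →* G₂) (t : T₁) : Prop :=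
  ∀ O ∈ 𝓝 (1 : G₁), ∀ᶠ p in 𝓝 t ×ˢ 𝓝 t, ∀ g, ρ g = 1 → g • p.1 = p.2 → g ∈ O

theorem Rigid.of_proper [ProperSMul G₁ T₁] [T1Space G₂] {ρ : G₁ →* G₂} (hρ : Continuous ρ)
    {t : T₁} (h : ∀ g, ρ g = 1 → g • t = t → g = 1) : Rigid ρ t := fun O hO => by
  obtain ⟨O', h1, h2, h3⟩ := mem_nhds_iff.1 hO
  exact (eventually_mem_of_proper (O := O' ∪ ρ ⁻¹' {1}ᶜ)
    (h2.union (isOpen_compl_singleton.preimage hρ)) fun g hg => by
      by_cases e : ρ g = 1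
      exacts [Or.inl (h g e hg ▸ h3), Or.inr e]).mono fun p hp g e1 e2 =>
    h1 ((hp g e2).resolve_right fun e => e e1)

theorem Rigid.of_seq [FirstCountableTopology T₁] {ρ : G₁ →* G₂} {t : T₁}
    (h : ∀ (a : ℕ → T₁) (g : ℕ → G₁), (∀ n, ρ (g n) = 1) → Tendsto a atTop (𝓝 t) →
      Tendsto (fun n => g n • a n) atTop (𝓝 t) → Tendsto g atTop (𝓝 1)) : Rigid ρ t :=
  fun O hO => by_contra fun hn => by
    rw [← nhds_prod_eq] at hn
    obtain ⟨p, h1, h2⟩ := exists_seq_forall_of_frequently (not_eventually.1 hn)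
    push Not at h2
    choose g h3 h4 h5 using h2
    obtain ⟨n, h6⟩ := ((h (fun n => (p n).1) g h3 (continuousAt_fst.tendsto.comp h1) (by
      simp only [h4]
      exact continuousAt_snd.tendsto.comp h1)).eventually hO).exists
    exact h5 n h6

theorem Rigid.free [T1Space G₁] {ρ : G₁ →* G₂} {t : T₁} (h : Rigid ρ t) (g : G₁) (h1 : ρ g = 1)
    (h2 : g • t = t) : g = 1 :=
  (specializes_iff_pure.2 fun O hO => by
    have := h O hO
    rw [← nhds_prod_eq] at this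
    exact this.self_of_nhds g h1 h2).eq

theorem Rigid.pull [MulAction G₁ Z₁] {ρ : G₁ →* G₂} {j : Z₁ → T₁} {z : Z₁} (h : Rigid ρ (j z))
    (hj : ContinuousAt j z) (he : ∀ (g : G₁) s, j (g • s) = g • j s) : Rigid ρ z := fun O hO =>
  ((hj.tendsto.prodMap hj.tendsto).eventually (h O hO)).mono fun _ hp g e1 e2 =>
    hp g e1 ((he _ _).symm.trans (congrArg j e2))

/-- `σ` is a holomorphic section of `f` near `f t`, through `t`. -/
structure LSec (ι₁ : T₁ → A₁) (ι₂ : T₂ → A₂) (f : T₁ → T₂) (σ : T₂ → T₁) (t : T₁) : Prop where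
  eq : σ (f t) = t
  cont : ∀ᶠ s in 𝓝 (f t), ContinuousAt σ s
  hol : HolAt ι₂ (fun s => ι₁ (σ s)) (f t)
  inv : ∀ᶠ s in 𝓝 (f t), f (σ s) = s

namespace LSec

variable {ι₁ : T₁ → A₁} {ι₂ : T₂ → A₂} {f : T₁ → T₂} {σ : T₂ → T₁} {t : T₁}

theorem tendsto (h : LSec ι₁ ι₂ f σ t) : Tendsto σ (𝓝 (f t)) (𝓝 t) := by
  have := h.cont.self_of_nhds.tendsto
  rwa [h.eq] at this

theorem nhds_le (h : LSec ι₁ ι₂ f σ t) : 𝓝 (f t) ≤ map f (𝓝 t) := fun _ hV =>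
  ((h.tendsto.eventually hV).and h.inv).mono fun _ hs => hs.2 ▸ hs.1

theorem of_isInducing [CompleteSpace A₁] (hι : IsInducing ι₁) (hc : ∀ᶠ s in 𝓝 (f t), ContinuousAt ι₂ s)
    (h0 : σ (f t) = t) (h1 : HolAt ι₂ (fun s => ι₁ (σ s)) (f t))
    (h2 : ∀ᶠ s in 𝓝 (f t), f (σ s) = s) : LSec ι₁ ι₂ f σ t :=
  ⟨h0, ((h1.eventually hc.self_of_nhds).and hc).mono fun _ hs =>
    hι.continuousAt_iff.2 (hs.1.cont hs.2), h1, h2⟩

/-- restriction to the preimage of a subspace -/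
theorem restrict {j₁ : Z₁ → T₁} {j₂ : Z₂ → T₂} {f' : Z₁ → Z₂} {z : Z₁}
    (h : LSec ι₁ ι₂ f σ (j₁ z)) (h₁ : IsEmbedding j₁) (h₂ : IsEmbedding j₂)
    (e : ∀ z, j₂ (f' z) = f (j₁ z)) (hr : ∀ᶠ t in 𝓝 (j₁ z), f t ∈ range j₂ → t ∈ range j₁) :
    ∃ σ', LSec (fun s => ι₁ (j₁ s)) (fun s => ι₂ (j₂ s)) f' σ' z ∧
      ∀ᶠ s in 𝓝 (f' z), j₁ (σ' s) = σ (j₂ s) := by
  have : Nonempty Z₁ := ⟨z⟩
  have h0 : Tendsto j₂ (𝓝 (f' z)) (𝓝 (f (j₁ z))) := e z ▸ h₂.continuous.continuousAt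
  have h1 : ∀ᶠ s in 𝓝 (f' z), j₁ (invFun j₁ (σ (j₂ s))) = σ (j₂ s) :=
    ((h0.eventually (h.tendsto.eventually hr)).and (h0.eventually h.inv)).mono fun s hs =>
      invFun_eq (hs.1 ⟨s, hs.2.symm⟩)
  refine ⟨fun s => invFun j₁ (σ (j₂ s)), ⟨h₁.injective (by rw [h1.self_of_nhds, e, h.eq]), ?_, ?_,
    (h1.and (h0.eventually h.inv)).mono fun s hs => h₂.injective (by rw [e, hs.1, hs.2])⟩, h1⟩
  · filter_upwards [h1.eventually_nhds, h0.eventually h.cont] with s a b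
    exact h₁.isInducing.continuousAt_iff.2 ((b.comp h₂.continuous.continuousAt).congr
      (a.mono fun _ h => h.symm))
  · exact (HolAt.comp (u := j₂) (e z ▸ h.hol) h₂.continuous.continuousAt HolAt.self).congr
      (h1.mono fun s hs => congrArg ι₁ hs.symm)

end LSec

/-- `f` is equivariant along the open surjection `ρ`; its fibres are free orbits of the kernel. -/
structure Tor (ρ : G₁ →* G₂) (f : T₁ → T₂) : Prop where
  oq : IsOpenQuotientMap ρ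
  cf : Continuous f
  eqv : ∀ g t, f (g • t) = ρ g • f t
  fib : ∀ t t', f t = f t' → ∃ g, ρ g = 1 ∧ g • t = t'
  free : ∀ (t : T₁) g, ρ g = 1 → g • t = t → g = 1
  rigid : ∀ t : T₁, Rigid ρ t

namespace Tor

variable {ρ : G₁ →* G₂} {f : T₁ → T₂} (h : Tor ρ f) {ι₁ : T₁ → A₁} {ι₂ : T₂ → A₂}
include h

theorem exists_smul {t t' : T₁} {g : G₂} (e : g • f t = f t') : ∃ g', ρ g' = g ∧ g' • t = t' := by
  obtain ⟨g, rfl⟩ := h.oq.surjective g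
  obtain ⟨k, h1, h2⟩ := h.fib _ _ ((h.eqv g t).trans e)
  exact ⟨k * g, by rw [map_mul, h1, one_mul], by rw [mul_smul, h2]⟩

theorem eq_of_smul {t : T₁} {g g' : G₁} (e : ρ g = ρ g') (e' : g • t = g' • t) : g = g' :=
  inv_mul_eq_one.1 (h.free t _ (by rw [map_mul, map_inv, e, inv_mul_cancel])
    (by rw [mul_smul, ← e', inv_smul_smul]))

theorem bijOn (t t' : T₁) : BijOn ρ {g | g • t = t'} {g | g • f t = f t'} :=
  ⟨fun g hg => (h.eqv g t).symm.trans (congrArg f hg),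
    fun _ hg _ hg' e => h.eq_of_smul e (hg.trans hg'.symm),
    fun _ hg => (h.exists_smul hg).imp fun _ h => h.symm⟩

theorem free_iff {t : T₁} : (∀ g : G₂, g • f t = f t → g = 1) ↔ ∀ g : G₁, g • t = t → g = 1 :=
  ⟨fun H g hg => h.free t g (H _ ((h.bijOn t t).mapsTo hg)) hg, fun H g hg => by
    obtain ⟨g, rfl, e⟩ := h.exists_smul hg
    rw [H g e, map_one]⟩

theorem finite_iff {t : T₁} :
    Finite (MulAction.stabilizer G₂ (f t)) ↔ Finite (MulAction.stabilizer G₁ t) :=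
  (h.bijOn t t).equiv.finite_iff.symm

theorem smul_mem_range (g : G₂) {s : T₂} (hs : s ∈ range f) : g • s ∈ range f := by
  obtain ⟨g, rfl⟩ := h.oq.surjective g
  obtain ⟨t, rfl⟩ := hs
  exact ⟨_, h.eqv g t⟩

theorem map_nhds_prod {Y : Type*} [TopologicalSpace Y] (y : Y) :
    map (Prod.map ρ fun z => z) (𝓝 ((1 : G₁), y)) = 𝓝 (1, y) := by
  have := (h.oq.prodMap IsOpenQuotientMap.id).map_nhds_eq ((1 : G₁), y)
  rwa [Prod.map_apply, map_one] at this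

/-- restriction to invariant subspaces -/
theorem restrict [MulAction G₁ Z₁] [MulAction G₂ Z₂] {j₁ : Z₁ → T₁} {j₂ : Z₂ → T₂} {f' : Z₁ → Z₂}
    (h₁ : Continuous j₁) (i₁ : Injective j₁) (h₂ : IsEmbedding j₂)
    (e₁ : ∀ (g : G₁) s, j₁ (g • s) = g • j₁ s) (e₂ : ∀ (g : G₂) s, j₂ (g • s) = g • j₂ s)
    (e : ∀ z, j₂ (f' z) = f (j₁ z)) : Tor ρ f' :=
  ⟨h.oq, h₂.continuous_iff.2 ((h.cf.comp h₁).congr fun z => (e z).symm),
    fun g z => h₂.injective (by rw [e, e₁, h.eqv, e₂, e]),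
    fun z z' hz => (h.fib (j₁ z) (j₁ z') (by rw [← e, hz, e])).imp fun g hg =>
      ⟨hg.1, i₁ ((e₁ _ _).trans hg.2)⟩,
    fun z g h1 h2 => h.free (j₁ z) g h1 (by rw [← e₁, h2]),
    fun z => (h.rigid (j₁ z)).pull h₁.continuousAt e₁⟩

/-- the same map as a torsor under the kernel -/
theorem ker : letI := unitAct T₂
    Tor (1 : ρ.ker →* PUnit.{1}) f :=
  letI := unitAct T₂
  ⟨⟨fun _ => ⟨1, rfl⟩, continuous_const, fun _ _ => isOpen_discrete _⟩, h.cf,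
    fun g t => (h.eqv g t).trans (by rw [show ρ g = 1 from g.2, one_smul]; rfl),
    fun t t' e => let ⟨g, h1, h2⟩ := h.fib t t' e; ⟨⟨g, h1⟩, rfl, h2⟩,
    fun t g _ e => Subtype.ext (h.free t g g.2 e), fun t O hO =>
      let ⟨O', h1, h2⟩ := (mem_nhds_subtype _ _ _).1 hO
      (h.rigid t O' h1).mono fun _ hp g _ e => h2 (hp g g.2 e)⟩

variable [IsTopologicalGroup G₁]

/-- the image of a slice meets the nearby orbits once -/
theorem eventually_inj {Y : Type*} [TopologicalSpace Y] {φ : Y → T₁} {y : Y}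
    (hφ : LH (fun p : G₁ × Y => p.1 • φ p.2) (1, y)) :
    ∀ᶠ q in 𝓝 ((1 : G₂), y) ×ˢ 𝓝 ((1 : G₂), y),
      q.1.1 • f (φ q.1.2) = q.2.1 • f (φ q.2.2) → q.1 = q.2 := by
  obtain ⟨V, hV, h1⟩ := (eventually_prod_self_iff (r := fun a b : G₁ × Y =>
    a.1 • φ a.2 = b.1 • φ b.2 → a = b)).1 hφ.eventually_inj
  have h2 : Tendsto (fun q : G₁ × G₁ × Y => (q.1 * q.2.1, q.2.2)) (𝓝 1 ×ˢ 𝓝 (1, y)) (𝓝 (1, y)) := by
    rw [← nhds_prod_eq]
    exact Continuous.tendsto' (by fun_prop) _ _ (by simp)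
  obtain ⟨O, hO, V', hV', h3⟩ := eventually_prod_iff.1 (h2.eventually hV)
  obtain ⟨R, hR, h4⟩ := (eventually_prod_self_iff (r := fun a b : T₁ =>
    ∀ g, ρ g = 1 → g • a = b → g ∈ {g | O g})).1 (h.rigid (φ y) _ hO)
  have h5 := hφ.cont.tendsto
  rw [one_smul] at h5
  rw [← h.map_nhds_prod, prod_map_map_eq, eventually_map]
  have h6 := (h5.eventually hR).and (hV'.and hV)
  filter_upwards [tendsto_fst.eventually h6, tendsto_snd.eventually h6] with q a b e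
  obtain ⟨k, h7, h8⟩ := h.fib _ _ ((h.eqv _ _).trans (e.trans (h.eqv _ _).symm))
  have h9 := h1 _ (h3 (h4 _ a.1 _ b.1 k h7 h8) a.2.1) _ b.2.2 ((mul_smul _ _ _).trans h8)
  rw [← h9]
  exact Prod.ext (by simp [h7]) rfl

/-- **slices push forward** -/
theorem push_sl {φ : E → T₁} {y : E} {σ : T₂ → T₁} (hσ : LSec ι₁ ι₂ f σ (φ y))
    (hol : HolAt ι₁ (fun s => ι₂ (f s)) (φ y)) (hφ : IsSl G₁ ι₁ φ y) [ContinuousSMul G₂ T₂] :
    IsSl G₂ ι₂ (fun z => f (φ z)) y := by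
  have hc := hφ.cont
  have h8 := hφ.ev_cont
  obtain ⟨h1, h2, w, h3, h4⟩ := hφ
  obtain ⟨u, h5, h6, -, h7⟩ := h1.exists_inv
  simp only [one_smul] at h5 h6 h7
  have h9 : ∀ᶠ p in 𝓝 ((1 : G₂), y), ContinuousAt (fun p : G₂ × E => p.1 • f (φ p.2)) p :=
    ((continuousAt_snd (p := ((1 : G₂), y))).eventually h8).mono fun p hp =>
      continuousAt_fst.smul (h.cf.continuousAt.comp (hp.comp continuousAt_snd))
  have h10 : Tendsto (fun p : G₂ × E => p.1 • f (φ p.2)) (𝓝 (1, y)) (𝓝 (f (φ y))) := by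
    simpa using h9.self_of_nhds.tendsto
  have h11 : Tendsto (fun s => u (σ s)) (𝓝 (f (φ y))) (𝓝 (1, y)) :=
    (h5 ▸ h6.cont.tendsto).comp hσ.tendsto
  have h12 : ∀ᶠ s in 𝓝 (f (φ y)), ρ (u (σ s)).1 • f (φ (u (σ s)).2) = s :=
    ((hσ.tendsto.eventually h7).and hσ.inv).mono fun s hs => by rw [← h.eqv, hs.1, hs.2]
  have h13 : ∀ᶠ p in 𝓝 ((1 : G₂), y), Prod.map ρ (fun z => z) (u (σ (p.1 • f (φ p.2)))) = p :=
    ((((tendsto_map.mono_right (h.map_nhds_prod y).le).comp (h11.comp h10)).prodMk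
      tendsto_id).eventually (h.eventually_inj h1)).and (h10.eventually h12) |>.mono
        fun p hp => hp.1 hp.2
  obtain ⟨Φ, h14, h15⟩ := hσ.hol
  refine ⟨LH.of_inv (fun s => Prod.map ρ (fun z => z) (u (σ s))) h9 ?_ h13 (by
      simp only [one_smul]
      exact h12), hol.an_comp hc h2, fun a => w (Φ a),
    h3.comp_of_eq h14 (h15.self_of_nhds.symm.trans (congrArg ι₁ hσ.eq)), ?_⟩
  · simp only [one_smul]
    filter_upwards [hσ.tendsto.eventually h6.eventually_cont, hσ.cont] with s a b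
    exact (h.oq.continuous.prodMap continuous_id).continuousAt.comp (a.comp b)
  · filter_upwards [h13, h10.eventually h15, (h11.comp h10).eventually h4,
      (hσ.tendsto.comp h10).eventually h7] with p a b c e
    rw [← b, ← a]
    simp only [comp_apply] at c e
    rw [e] at c
    rw [a]
    exact c.trans (congrArg Prod.snd a)

theorem nhds_le_map [ContinuousSMul G₁ T₁] {Y : Type*} [TopologicalSpace Y] {φ : Y → T₁} {y : Y}
    (hc : ContinuousAt φ y) (hφ : LH (fun p : G₂ × Y => p.1 • f (φ p.2)) (1, y)) (g : G₁) :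
    𝓝 (g • φ y) ≤ map (fun p : G₁ × Y => p.1 • φ p.2) (𝓝 (g, y)) := by
  intro V hV
  have h2 : Tendsto (fun q : G₁ × G₁ × Y => (g * (q.1 * q.2.1), q.2.2)) (𝓝 1 ×ˢ 𝓝 (1, y))
      (𝓝 (g, y)) := by
    rw [← nhds_prod_eq]
    exact Continuous.tendsto' (by fun_prop) _ _ (by simp)
  obtain ⟨O, hO, V', hV', h3⟩ := eventually_prod_iff.1 (h2.eventually hV)
  obtain ⟨R, hR, R', hR', h4⟩ := eventually_prod_iff.1 (h.rigid (φ y) _ hO)
  have h5 : Tendsto (fun p : G₁ × Y => p.1 • φ p.2) (𝓝 (1, y)) (𝓝 (φ y)) := by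
    have : ContinuousAt (fun p : G₁ × Y => p.1 • φ p.2) (1, y) :=
      continuousAt_fst.smul (hc.comp continuousAt_snd)
    simpa using this.tendsto
  have h6 := hφ.map_nhds
  rw [← h.map_nhds_prod, map_map, one_smul] at h6
  have h7 : Tendsto (fun t => g⁻¹ • t) (𝓝 (g • φ y)) (𝓝 (φ y)) :=
    (continuous_const_smul g⁻¹).tendsto' _ _ (inv_smul_smul _ _)
  have h8 := h6.ge (image_mem_map ((h5.eventually hR).and hV'))
  filter_upwards [h7.eventually hR', (h.cf.continuousAt.tendsto.comp h7).eventually h8]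
    with t a ⟨p, b, e⟩
  obtain ⟨k, h9, h10⟩ := h.fib _ _ ((h.eqv _ _).trans e)
  have h11 : (g * (k * p.1)) • φ p.2 ∈ V := h3 (h4 b.1 a k h9 h10) b.2
  rwa [mul_smul, mul_smul, show k • p.1 • φ p.2 = g⁻¹ • t from h10, smul_inv_smul] at h11

/-- **slices pull back** -/
theorem pull_sl [ContinuousSMul G₁ T₁] {φ : E → T₁} {y : E} (hc : ∀ᶠ z in 𝓝 y, ContinuousAt φ z)
    (ha : AnalyticAt ℂ (fun z => ι₁ (φ z)) y) (hol : HolAt ι₁ (fun s => ι₂ (f s)) (φ y))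
    (hφ : IsSl G₂ ι₂ (fun z => f (φ z)) y) : IsSl G₁ ι₁ φ y := by
  obtain ⟨h1, -, w, h3, h4⟩ := hφ
  obtain ⟨Φ, h5, h6⟩ := hol
  have h7 : ∀ᶠ p in 𝓝 ((1 : G₁), y), ContinuousAt (fun p : G₁ × E => p.1 • φ p.2) p :=
    ((continuousAt_snd (p := ((1 : G₁), y))).eventually hc).mono fun p hp =>
      continuousAt_fst.smul (hp.comp continuousAt_snd)
  have h8 : Tendsto (Prod.map ρ fun z : E => z) (𝓝 (1, y)) (𝓝 (1, y)) :=
    tendsto_map.mono_right (h.map_nhds_prod y).le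
  refine ⟨LH.of_open_inj h7 (((continuousAt_snd (p := ((1 : G₁), y))).eventually
    (hc.and ((tendsto_inr 1 y).eventually h1.eventually))).mono fun p hp =>
      h.nhds_le_map hp.1 hp.2 p.1) (((h8.prodMap h8).eventually h1.eventually_inj).mono
        fun q hq e => ?_), ha, fun a => w (Φ a),
    AnalyticAt.comp (by rwa [← h6.self_of_nhds]) h5, ?_⟩
  · have h9 := Prod.mk.inj (hq ((h.eqv _ _).symm.trans ((congrArg f e).trans (h.eqv _ _))))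
    exact Prod.ext (h.eq_of_smul h9.1 (e.trans (by rw [show q.1.2 = q.2.2 from h9.2]))) h9.2
  · have h9 := h7.self_of_nhds.tendsto
    rw [one_smul] at h9
    filter_upwards [h9.eventually h6, h8.eventually h4] with p a b
    rw [← a, h.eqv]
    exact b

theorem lift_sl [ContinuousSMul G₁ T₁] {ψ : E → T₂} {y : E} {σ : T₂ → T₁} {t : T₁}
    (hσ : LSec ι₁ ι₂ f σ t) (hol : HolAt ι₁ (fun s => ι₂ (f s)) t) (hψ : IsSl G₂ ι₂ ψ y)
    (h0 : ψ y = f t) : IsSl G₁ ι₁ (fun z => σ (ψ z)) y ∧ ∀ᶠ z in 𝓝 y, f (σ (ψ z)) = ψ z := by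
  have hc : Tendsto ψ (𝓝 y) (𝓝 (f t)) := h0 ▸ hψ.cont
  have h1 := hc.eventually hσ.inv
  exact ⟨h.pull_sl (ι₂ := ι₂) (((hc.eventually hσ.cont).and hψ.ev_cont).mono fun z hz =>
    hz.1.comp hz.2) (HolAt.an_comp (f := fun s => ι₁ (σ s)) (h0 ▸ hσ.hol) hψ.cont hψ.2.1)
      (by rwa [h0, hσ.eq]) (hψ.congr h1), h1⟩

end Tor

section sec

variable {ι₁ : T₁ → A₁} {ι₂ : T₂ → A₂} {f : T₁ → T₂}

/-- an injective holomorphic family in a manifold of the same dimension is a parametrization -/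
theorem IsMfd.isParam_of_inj [FiniteDimensional ℂ E] {ψ : E → T₂} {y : E}
    (h : IsMfd ι₂ (Module.finrank ℂ E) (ψ y)) (hc : ContinuousAt ψ y)
    (ha : AnalyticAt ℂ (fun z => ι₂ (ψ z)) y)
    (hi : ∀ᶠ p in 𝓝 y ×ˢ 𝓝 y, ψ p.1 = ψ p.2 → p.1 = p.2) : IsParam ι₂ ψ y := by
  obtain ⟨χ, h1, h2⟩ := h
  obtain ⟨k, h3, h4, h5, -⟩ := h1.lift h2.symm hc ha
  obtain ⟨V, hV, h6⟩ := (eventually_prod_self_iff (r := fun a b => ψ a = ψ b → a = b)).1 hi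
  exact (IsParam.comp (h4 ▸ h1) h3 (osgood (Module.finrank_fin_fun ℂ).symm h3
    ⟨_, inter_mem hV h5, fun a ha b hb e => h6 a ha.1 b hb.1
      (ha.2.trans ((congrArg χ e).trans hb.2.symm))⟩)).congr (h5.mono fun _ h => h.symm)

theorem LSec.of_param [CompleteSpace E] {φ : E → T₁} {y : E} (hc : ∀ᶠ z in 𝓝 y, ContinuousAt φ z)
    (ha : AnalyticAt ℂ (fun z => ι₁ (φ z)) y) (h : IsParam ι₂ (fun z => f (φ z)) y) :
    ∃ σ, LSec ι₁ ι₂ f σ (φ y) := by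
  obtain ⟨w, h1, h2, -, h3, h4⟩ := h.exists_inv
  have h5 : Tendsto (fun s => w (ι₂ s)) (𝓝 (f (φ y))) (𝓝 y) :=
    h4.cont.tendsto.mono_right (by rw [h2])
  exact ⟨fun s => φ (w (ι₂ s)), congrArg φ h2, ((h5.eventually hc).and h4.eventually_cont).mono
    fun s hs => hs.1.comp (f := fun s => w (ι₂ s)) hs.2, HolAt.of_an (Φ := fun a => ι₁ (φ (w a))) (ha.comp_of_eq h1 h2), h3⟩

/-- **local sections from a dimension count**, for a map whose fibres are locally orbits -/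
theorem exists_lsec [ContinuousSMul G₁ T₁] [FiniteDimensional ℂ L₁] [CompleteSpace A₁]
    {κ : L₁ → G₁} (hκ : IsExp κ) {t : T₁} {m : ℕ} (h₁ : IsMfd ι₁ (Module.finrank ℂ L₁ + m) t)
    (h₂ : IsMfd ι₂ m (f t)) (ha : HolAct κ ι₁ t) (hs : ∀ᶠ g in 𝓝 (1 : G₁), g • t = t → g = 1)
    (hc : ContinuousAt f t) (hol : HolAt ι₁ (fun s => ι₂ (f s)) t)
    (fib : ∀ O ∈ 𝓝 (1 : G₁), ∀ᶠ p in 𝓝 t ×ˢ 𝓝 t, f p.1 = f p.2 → ∃ g ∈ O, g • p.1 = p.2) :
    ∃ σ, LSec ι₁ ι₂ f σ t := by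
  obtain ⟨φ, rfl, h1⟩ := h₁.exists_slK hκ ha (ha.inf_injective hκ h₁.eventually_eq hs) rfl
  have h2 := h1.isSl hκ
  refine LSec.of_param h2.ev_cont (h1.an hκ) (IsMfd.isParam_of_inj
    (by rwa [Module.finrank_fin_fun]) (hc.comp h2.cont) (hol.an_comp h2.cont (h1.an hκ)) ?_)
  obtain ⟨V, hV, h3⟩ := (eventually_prod_self_iff (r := fun a b : G₁ × (Fin m → ℂ) =>
    a.1 • φ a.2 = b.1 • φ b.2 → a = b)).1 h2.1.eventually_inj
  rw [nhds_prod_eq] at hV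
  obtain ⟨O, hO, Q, hQ, h4⟩ := mem_prod_iff.1 hV
  filter_upwards [(h2.cont.tendsto.prodMap h2.cont.tendsto).eventually (fib O hO),
    tendsto_fst.eventually hQ, tendsto_snd.eventually hQ] with p a b c e
  obtain ⟨g, h5, h6⟩ := a e
  exact congrArg Prod.snd (h3 (g, p.1) (h4 ⟨h5, b⟩) (1, p.2) (h4 ⟨mem_of_mem_nhds hO, c⟩)
    (h6.trans (one_smul _ _).symm))

variable {κ₁ : L₁ → G₁} {κ₂ : L₂ → G₂} {ρ : G₁ →* G₂} {d : L₁ →L[ℂ] L₂}

/-- **a holomorphic map whose fibres are free orbits of a kernel is a submersion** -/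
theorem exists_lsec_ker [ContinuousSMul G₁ T₁] [FiniteDimensional ℂ L₁] [CompleteSpace A₁]
    (hκ₁ : IsExp κ₁) (hκ₂ : IsExp κ₂) (hd : ∀ x, ρ (κ₁ x) = κ₂ (d x)) {t : T₁} {m : ℕ}
    (h₁ : IsMfd ι₁ (Module.finrank ℂ (LinearMap.ker (d : L₁ →ₗ[ℂ] L₂)) + m) t)
    (h₂ : IsMfd ι₂ m (f t)) (ha : HolAct κ₁ ι₁ t) (hc : ContinuousAt f t)
    (hol : HolAt ι₁ (fun s => ι₂ (f s)) t)
    (fib : ∀ᶠ p in 𝓝 t ×ˢ 𝓝 t, f p.1 = f p.2 → ∃ g, ρ g = 1 ∧ g • p.1 = p.2)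
    (free : ∀ g, ρ g = 1 → g • t = t → g = 1) (rigid : Rigid ρ t) : ∃ σ, LSec ι₁ ι₂ f σ t := by
  refine exists_lsec (hκ₁.ker hκ₂ hd) h₁ h₂ (ha.ker _)
    (Eventually.of_forall fun g hg => Subtype.ext (free g g.2 hg)) hc hol fun O hO => ?_
  obtain ⟨O', h1, h2⟩ := (mem_nhds_subtype _ _ _).1 hO
  exact (fib.and (rigid O' h1)).mono fun p hp e =>
    let ⟨g, h3, h4⟩ := hp.1 e
    ⟨⟨g, h3⟩, h2 (hp.2 g h3 h4), h4⟩

theorem finrank_ker_add [FiniteDimensional ℂ L₁] (sd : Surjective d) :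
    Module.finrank ℂ (LinearMap.ker (d : L₁ →ₗ[ℂ] L₂)) + Module.finrank ℂ L₂ =
      Module.finrank ℂ L₁ := by
  rw [← LinearMap.finrank_range_add_finrank_ker (d : L₁ →ₗ[ℂ] L₂), LinearMap.range_eq_top.2 sd,
    finrank_top, add_comm]

theorem Tor.exists_lsec [ContinuousSMul G₁ T₁] [FiniteDimensional ℂ L₁] [CompleteSpace A₁]
    (h : Tor ρ f) (hκ₁ : IsExp κ₁) (hκ₂ : IsExp κ₂) (hd : ∀ x, ρ (κ₁ x) = κ₂ (d x))
    (sd : Surjective d) {t : T₁} {m₁ m₂ : ℕ} (h₁ : IsMfd ι₁ m₁ t) (h₂ : IsMfd ι₂ m₂ (f t))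
    (hm : m₁ + Module.finrank ℂ L₂ = m₂ + Module.finrank ℂ L₁) (ha : HolAct κ₁ ι₁ t)
    (hol : HolAt ι₁ (fun s => ι₂ (f s)) t) : ∃ σ, LSec ι₁ ι₂ f σ t :=
  exists_lsec_ker hκ₁ hκ₂ hd (by
    have := finrank_ker_add sd
    rwa [show _ + m₂ = m₁ by omega]) h₂ ha h.cf.continuousAt hol
    (Eventually.of_forall fun _ => h.fib _ _) (h.free t) (h.rigid t)

/-- the differential of a map with a local section is onto the tangent space -/
theorem LSec.surj_tan {σ : T₂ → T₁} {t : T₁} (h : LSec ι₁ ι₂ f σ t) {m : ℕ}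
    (h₂ : IsMfd ι₂ m (f t)) {Φ : A₁ → A₂} (h1 : AnalyticAt ℂ Φ (ι₁ t))
    (h2 : ∀ᶠ s in 𝓝 t, ι₂ (f s) = Φ (ι₁ s)) {v : A₂} (hv : v ∈ tan ι₂ (f t)) :
    ∃ u ∈ tan ι₁ t, fderiv ℂ Φ (ι₁ t) u = v := by
  obtain ⟨ψ, h3, h4⟩ := h₂
  rw [← h4, h3.tan_eq] at hv
  obtain ⟨v, rfl⟩ := hv
  have h5 : σ (ψ 0) = t := by rw [h4, h.eq]
  have h6 : ContinuousAt (fun z => σ (ψ z)) 0 :=
    ContinuousAt.comp (h4 ▸ h.cont.self_of_nhds) h3.lh.cont
  have h7 : AnalyticAt ℂ (fun z => ι₁ (σ (ψ z))) 0 :=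
    HolAt.an_comp (f := fun s => ι₁ (σ s)) (h4 ▸ h.hol) h3.lh.cont h3.an
  refine ⟨_, h5 ▸ fderiv_mem_tan h6 h7 v, ?_⟩
  have h8 := fderiv_comp_hol (f := fun s => ι₂ (f s)) (γ := fun z => σ (ψ z)) (h5.symm ▸ h1)
    (h5.symm ▸ h2) h6 h7 v
  rw [h5] at h8
  rw [← h8, EventuallyEq.fderiv_eq (f₁ := fun z => ι₂ (f (σ (ψ z)))) (f := fun z => ι₂ (ψ z))
    ((h3.lh.cont.eventually (h4 ▸ h.inv)).mono fun z hz => congrArg ι₂ hz)]
  rfl

end sec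

/-- A holomorphic principal bundle for the kernel of `ρ`, equivariant along `ρ`. -/
structure PB (ι₁ : T₁ → A₁) (ι₂ : T₂ → A₂) (ρ : G₁ →* G₂) (f : T₁ → T₂) : Prop
    extends Tor ρ f where
  hol : ∀ t, HolAt ι₁ (fun s => ι₂ (f s)) t
  sec : ∀ t, ∃ σ, LSec ι₁ ι₂ f σ t

namespace PB

variable {ι₁ : T₁ → A₁} {ι₂ : T₂ → A₂} {ρ : G₁ →* G₂} {f : T₁ → T₂} (h : PB ι₁ ι₂ ρ f)
include h

theorem isOpenMap : IsOpenMap f :=
  isOpenMap_iff_nhds_le.2 fun t => let ⟨_, h1⟩ := h.sec t; h1.nhds_le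

theorem preimage_closure (M : Set T₂) : f ⁻¹' closure M = closure (f ⁻¹' M) :=
  h.isOpenMap.preimage_closure_eq_closure_preimage h.cf M

/-- restriction to an invariant subspace of `T₂` and an open part of its preimage -/
theorem restrict [MulAction G₁ Z₁] [MulAction G₂ Z₂] {j₁ : Z₁ → T₁} {j₂ : Z₂ → T₂} {f' : Z₁ → Z₂}
    (h₁ : IsEmbedding j₁) (h₂ : IsEmbedding j₂)
    (e₁ : ∀ (g : G₁) s, j₁ (g • s) = g • j₁ s) (e₂ : ∀ (g : G₂) s, j₂ (g • s) = g • j₂ s)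
    (e : ∀ z, j₂ (f' z) = f (j₁ z))
    (hr : ∀ z, ∀ᶠ t in 𝓝 (j₁ z), f t ∈ range j₂ → t ∈ range j₁) :
    PB (fun s => ι₁ (j₁ s)) (fun s => ι₂ (j₂ s)) ρ f' :=
  ⟨h.toTor.restrict h₁.continuous h₁.injective h₂ e₁ e₂ e, fun z => by
    simp only [e]
    exact (h.hol (j₁ z)).comp h₁.continuous.continuousAt HolAt.self, fun z =>
    let ⟨_, h1⟩ := h.sec (j₁ z)
    (h1.restrict h₁ h₂ e (hr z)).imp fun _ h => h.1⟩

variable [IsTopologicalGroup G₁]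

theorem push [ContinuousSMul G₂ T₂] {φ : E → T₁} {y : E} (hφ : IsSl G₁ ι₁ φ y) :
    IsSl G₂ ι₂ (fun z => f (φ z)) y :=
  let ⟨_, h1⟩ := h.sec (φ y)
  h.push_sl h1 (h.hol _) hφ

theorem lift [ContinuousSMul G₁ T₁] {ψ : E → T₂} {y : E} (hψ : IsSl G₂ ι₂ ψ y) {t : T₁}
    (h0 : ψ y = f t) : ∃ φ, IsSl G₁ ι₁ φ y ∧ φ y = t ∧ ∀ᶠ z in 𝓝 y, f (φ z) = ψ z :=
  let ⟨_, h1⟩ := h.sec t
  let h2 := h.lift_sl h1 (h.hol _) hψ h0
  ⟨_, h2.1, by rw [h0, h1.eq], h2.2⟩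

variable {κ₁ : L₁ → G₁} {κ₂ : L₂ → G₂} {d : L₁ →L[ℂ] L₂}

theorem pushK [ContinuousSMul G₂ T₂] [FiniteDimensional ℂ L₂] [FiniteDimensional ℂ E]
    [FiniteDimensional ℂ A₂] (hκ₁ : IsExp κ₁) (hκ₂ : IsExp κ₂) (hι : IsEmbedding ι₂) {φ : E → T₁}
    {y : E} (ha : HolAct κ₂ ι₂ (f (φ y))) (hφ : IsSlK κ₁ ι₁ φ y) :
    IsSlK κ₂ ι₂ (fun z => f (φ z)) y :=
  (h.push (hφ.isSl hκ₁)).isSlK' hκ₂ hι ha

theorem liftK [ContinuousSMul G₁ T₁] [FiniteDimensional ℂ L₁] [FiniteDimensional ℂ E]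
    [FiniteDimensional ℂ A₁] (hκ₁ : IsExp κ₁) (hκ₂ : IsExp κ₂) (hι : IsEmbedding ι₁) {ψ : E → T₂}
    {y : E} (hψ : IsSlK κ₂ ι₂ ψ y) {t : T₁} (h0 : ψ y = f t) (ha : HolAct κ₁ ι₁ t) :
    ∃ φ, IsSlK κ₁ ι₁ φ y ∧ φ y = t ∧ ∀ᶠ z in 𝓝 y, f (φ z) = ψ z :=
  (h.lift (hψ.isSl hκ₂) h0).imp fun _ h => ⟨h.1.isSlK' hκ₁ hι (h.2.1 ▸ ha), h.2⟩

variable [ContinuousSMul G₁ T₁] [FiniteDimensional ℂ L₁] [FiniteDimensional ℂ A₁]
  (hκ₁ : IsExp κ₁) (hκ₂ : IsExp κ₂) (hd : ∀ x, ρ (κ₁ x) = κ₂ (d x)) {t : T₁} {m : ℕ}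
  (ha : HolAct κ₁ ι₁ t)
include hκ₁ hκ₂ hd ha

/-- the total space over a manifold is a manifold -/
theorem isMfd_lift (hι : IsEmbedding ι₁) (hm : IsMfd ι₂ m (f t)) :
    IsMfd ι₁ (Module.finrank ℂ (LinearMap.ker (d : L₁ →ₗ[ℂ] L₂)) + m) t := by
  letI := unitAct T₂
  obtain ⟨ψ, h1, h2⟩ := hm
  obtain ⟨σ, h3⟩ := h.sec t
  have h4 : σ (ψ 0) = t := by rw [h2, h3.eq]
  have := ((h.ker.lift_sl h3 (h.hol t) (isSl_unit_iff.2 h1) h2).1.isSlK' (hκ₁.ker hκ₂ hd) hι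
    (h4.symm ▸ ha.ker _)).isMfd (hκ₁.ker hκ₂ hd)
  rwa [h4, Module.finrank_fin_fun] at this

/-- the base under a manifold is a manifold -/
theorem isMfd_push (hm : IsMfd ι₁ (Module.finrank ℂ (LinearMap.ker (d : L₁ →ₗ[ℂ] L₂)) + m) t) :
    IsMfd ι₂ m (f t) := by
  letI := unitAct T₂
  have := FiniteDimensional.complete ℂ A₁
  have : ContinuousSMul PUnit.{1} T₂ := ⟨continuous_snd⟩
  obtain ⟨φ, rfl, h1⟩ := hm.exists_slK (hκ₁.ker hκ₂ hd) (ha.ker _) ((ha.ker _).inf_injective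
    (hκ₁.ker hκ₂ hd) hm.eventually_eq
    (Eventually.of_forall fun g hg => Subtype.ext (h.free _ g g.2 hg))) rfl
  obtain ⟨σ, h3⟩ := h.sec (φ 0)
  exact ⟨_, isSl_unit_iff.1 (h.ker.push_sl h3 (h.hol _) (h1.isSl (hκ₁.ker hκ₂ hd))), rfl⟩

end PB

end Vale.Agent.P269.Holo
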