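import Mathlib

/-!
# Local homeomorphisms at a point, the analytic inverse function theorem, holomorphic germs
-/

namespace Vale.Agent.P269.Holo

open Set Function Topology Filter

section LH

variable {X Y Z X' Y' : Type*} [TopologicalSpace X] [TopologicalSpace Y] [TopologicalSpace Z]
  [TopologicalSpace X'] [TopologicalSpace Y']

/-- `f` is a local homeomorphism at `x`. -/
abbrev LH (f : X → Y) (x : X) : Prop := IsLocalHomeomorphOn f {x}

theorem LH.exists {f : X → Y} {x : X} (h : LH f x) :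
    ∃ e : OpenPartialHomeomorph X Y, x ∈ e.source ∧ f = e := h x rfl

theorem LH.of_eventuallyEq {f : X → Y} {x : X} (e : OpenPartialHomeomorph X Y) (hx : x ∈ e.source)
    (h : f =ᶠ[𝓝 x] e) : LH f x := by
  obtain ⟨U, hU, hUo, hxU⟩ := _root_.eventually_nhds_iff.1 h
  refine IsLocalHomeomorphOn.mk f _ ?_
  rintro _ rfl
  refine ⟨e.restr U, ?_, fun y hy => ?_⟩
  · rw [e.restr_source' U hUo]; exact ⟨hx, hxU⟩
  · rw [e.restr_source' U hUo] at hy; exact hU y hy.2

theorem LH.congr {f f' : X → Y} {x : X} (h : LH f x) (h' : f =ᶠ[𝓝 x] f') : LH f' x := by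
  obtain ⟨e, hx, rfl⟩ := h.exists
  exact LH.of_eventuallyEq e hx h'.symm

theorem LH.cont {f : X → Y} {x : X} (h : LH f x) : ContinuousAt f x :=
  IsLocalHomeomorphOn.continuousAt h rfl

theorem LH.map_nhds {f : X → Y} {x : X} (h : LH f x) : map f (𝓝 x) = 𝓝 (f x) :=
  IsLocalHomeomorphOn.map_nhds_eq h rfl

theorem LH.eventually {f : X → Y} {x : X} (h : LH f x) : ∀ᶠ y in 𝓝 x, LH f y := by
  obtain ⟨e, hx, rfl⟩ := h.exists
  filter_upwards [e.open_source.mem_nhds hx] with y hy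
  rintro _ rfl
  exact ⟨e, hy, rfl⟩

theorem LH.eventually_cont {f : X → Y} {x : X} (h : LH f x) : ∀ᶠ y in 𝓝 x, ContinuousAt f y :=
  h.eventually.mono fun _ hy => hy.cont

theorem LH.comp {g : Y → Z} {f : X → Y} {x : X} (hg : LH g (f x)) (hf : LH f x) :
    LH (g ∘ f) x :=
  IsLocalHomeomorphOn.comp hg hf (by rintro _ rfl; rfl)

theorem LH.comp' {g : Y → Z} {f : X → Y} {x : X} {y : Y} (hg : LH g y) (hf : LH f x)
    (h : f x = y) : LH (fun z => g (f z)) x := by
  subst h; exact hg.comp hf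

theorem LH.of_comp_left {g : Y → Z} {f : X → Y} {x : X} (hgf : LH (g ∘ f) x) (hg : LH g (f x))
    (hf : ContinuousAt f x) : LH f x :=
  IsLocalHomeomorphOn.of_comp_left hgf (by rwa [image_singleton]) (by rintro _ rfl; exact hf)

theorem LH.of_comp_right {g : Y → Z} {f : X → Y} {x : X} (hgf : LH (g ∘ f) x) (hf : LH f x) :
    LH g (f x) := by
  have := IsLocalHomeomorphOn.of_comp_right hgf hf
  rwa [image_singleton] at this

theorem _root_.Homeomorph.lh (e : X ≃ₜ Y) (x : X) : LH e x :=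
  e.isLocalHomeomorph.isLocalHomeomorphOn

theorem _root_.Topology.IsOpenEmbedding.lh {f : X → Y} (h : IsOpenEmbedding f) (x : X) : LH f x :=
  h.isLocalHomeomorph.isLocalHomeomorphOn

theorem LH.id (x : X) : LH (fun y : X => y) x := (Homeomorph.refl X).lh x

theorem LH.prodMap {f : X → Y} {g : X' → Y'} {x : X} {x' : X'} (hf : LH f x) (hg : LH g x') :
    LH (Prod.map f g) (x, x') := by
  obtain ⟨e, hx, rfl⟩ := hf.exists
  obtain ⟨e', hx', rfl⟩ := hg.exists
  exact LH.of_eventuallyEq (e.prod e') ⟨hx, hx'⟩ (Eventually.of_forall fun _ => rfl)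

/-- A local homeomorphism has a local inverse. -/
theorem LH.exists_inv {f : X → Y} {x : X} (h : LH f x) :
    ∃ g : Y → X, g (f x) = x ∧ LH g (f x) ∧ (∀ᶠ y in 𝓝 x, g (f y) = y) ∧
      ∀ᶠ y in 𝓝 (f x), f (g y) = y := by
  obtain ⟨e, hx, rfl⟩ := h.exists
  exact ⟨e.symm, e.left_inv hx, LH.of_eventuallyEq e.symm (e.map_source hx) EventuallyEq.rfl,
    e.eventually_left_inverse hx, e.eventually_right_inverse' hx⟩

theorem LH.eventually_inj {f : X → Y} {x : X} (h : LH f x) :
    ∀ᶠ p in 𝓝 x ×ˢ 𝓝 x, f p.1 = f p.2 → p.1 = p.2 := by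
  obtain ⟨g, -, -, hl, -⟩ := h.exists_inv
  filter_upwards [tendsto_fst.eventually hl, tendsto_snd.eventually hl] with p h1 h2 h
  rw [← h1, h, h2]

/-- A map with a two-sided local inverse, both continuous near the base points, is a local
homeomorphism. -/
theorem LH.of_inv {f : X → Y} {x : X} (g : Y → X) (hf : ∀ᶠ y in 𝓝 x, ContinuousAt f y)
    (hg : ∀ᶠ y in 𝓝 (f x), ContinuousAt g y) (hl : ∀ᶠ y in 𝓝 x, g (f y) = y)
    (hr : ∀ᶠ y in 𝓝 (f x), f (g y) = y) : LH f x := by
  obtain ⟨U, hU, hUo, hxU⟩ := _root_.eventually_nhds_iff.1 (hf.and hl)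
  obtain ⟨V, hV, hVo, hxV⟩ := _root_.eventually_nhds_iff.1 (hg.and hr)
  have hfU : ContinuousOn f U := fun y hy => (hU y hy).1.continuousWithinAt
  have hgV : ContinuousOn g V := fun y hy => (hV y hy).1.continuousWithinAt
  refine LH.of_eventuallyEq
    { toFun := f, invFun := g, source := U ∩ f ⁻¹' V, target := V ∩ g ⁻¹' U
      map_source' := fun y hy => ⟨hy.2, by rw [mem_preimage, (hU y hy.1).2]; exact hy.1⟩
      map_target' := fun y hy => ⟨hy.2, by rw [mem_preimage, (hV y hy.1).2]; exact hy.1⟩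
      left_inv' := fun y hy => (hU y hy.1).2
      right_inv' := fun y hy => (hV y hy.1).2
      open_source := hfU.isOpen_inter_preimage hUo hVo
      open_target := hgV.isOpen_inter_preimage hVo hUo
      continuousOn_toFun := hfU.mono inter_subset_left
      continuousOn_invFun := hgV.mono inter_subset_left } ⟨hxU, hxV⟩ EventuallyEq.rfl

/-- A map into the target of a local homeomorphism is determined near the base point by its
composite. -/
theorem LH.eventuallyEq_of_comp {f : X → Y} {x : X} (h : LH f x) {u v : Z → X} {z : Z}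
    (hu : ContinuousAt u z) (hv : ContinuousAt v z) (hux : u z = x) (hvx : v z = x)
    (huv : ∀ᶠ y in 𝓝 z, f (u y) = f (v y)) : u =ᶠ[𝓝 z] v := by
  have : Tendsto (fun y => (u y, v y)) (𝓝 z) (𝓝 x ×ˢ 𝓝 x) :=
    Tendsto.prodMk (hux ▸ hu) (hvx ▸ hv)
  filter_upwards [this.eventually h.eventually_inj, huv] with y h1 h2 using h1 h2

end LH

section IFT

variable {E F H : Type*} [NormedAddCommGroup E] [NormedSpace ℂ E] [NormedAddCommGroup F]
  [NormedSpace ℂ F] [NormedAddCommGroup H] [NormedSpace ℂ H]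

/-- The analytic inverse function theorem. -/
theorem ift_equiv [CompleteSpace E] {f : E → F} {x : E} (hf : AnalyticAt ℂ f x) (i : E ≃L[ℂ] F)
    (hi : fderiv ℂ f x = i) :
    LH f x ∧ ∃ g : F → E, AnalyticAt ℂ g (f x) ∧ g (f x) = x ∧ (∀ᶠ y in 𝓝 x, g (f y) = y) ∧
      ∀ᶠ y in 𝓝 (f x), f (g y) = y := by
  have hs : HasStrictFDerivAt f (i : E →L[ℂ] F) x := hi ▸ hf.hasStrictFDerivAt
  set e := hs.toOpenPartialHomeomorph f
  have hx : x ∈ e.source := hs.mem_toOpenPartialHomeomorph_source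
  exact ⟨LH.of_eventuallyEq e hx EventuallyEq.rfl, e.symm, e.analyticAt_symm' hx hf hi,
    e.left_inv hx, e.eventually_left_inverse hx, e.eventually_right_inverse' hx⟩

/-- The analytic inverse function theorem in finite dimension. -/
theorem ift [FiniteDimensional ℂ E] {f : E → F} {x : E} (hf : AnalyticAt ℂ f x)
    (hb : Bijective (fderiv ℂ f x)) :
    LH f x ∧ ∃ g : F → E, AnalyticAt ℂ g (f x) ∧ g (f x) = x ∧ (∀ᶠ y in 𝓝 x, g (f y) = y) ∧
      ∀ᶠ y in 𝓝 (f x), f (g y) = y := by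
  have := FiniteDimensional.complete ℂ E
  let l : E ≃ₗ[ℂ] F := LinearEquiv.ofBijective (fderiv ℂ f x : E →ₗ[ℂ] F) hb
  have : FiniteDimensional ℂ F := l.finiteDimensional
  exact ift_equiv hf l.toContinuousLinearEquiv (by ext; rfl)

theorem bijective_of_injective [FiniteDimensional ℂ E] [FiniteDimensional ℂ F] (l : E →L[ℂ] F)
    (hl : Injective l) (hd : Module.finrank ℂ E = Module.finrank ℂ F) : Bijective l :=
  ⟨hl, (LinearMap.injective_iff_surjective_of_finrank_eq_finrank hd (f := (l : E →ₗ[ℂ] F))).1 hl⟩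

theorem bijective_of_surjective [FiniteDimensional ℂ E] [FiniteDimensional ℂ F] (l : E →L[ℂ] F)
    (hl : Surjective l) (hd : Module.finrank ℂ E = Module.finrank ℂ F) : Bijective l :=
  ⟨(LinearMap.injective_iff_surjective_of_finrank_eq_finrank hd (f := (l : E →ₗ[ℂ] F))).2 hl, hl⟩

theorem finrank_eq_of_bijective (l : E →L[ℂ] F) (hl : Bijective l) :
    Module.finrank ℂ E = Module.finrank ℂ F :=
  (LinearEquiv.ofBijective (l : E →ₗ[ℂ] F) hl).finrank_eq

/-- Chain rule for analytic germs. -/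
theorem fderiv_comp_an {g : F → H} {f : E → F} {x : E} (hg : AnalyticAt ℂ g (f x))
    (hf : AnalyticAt ℂ f x) :
    fderiv ℂ (fun y => g (f y)) x = (fderiv ℂ g (f x)).comp (fderiv ℂ f x) :=
  fderiv_comp x hg.differentiableAt hf.differentiableAt

/-- The derivatives of a germ and of a left inverse. -/
theorem fderiv_leftInv {g : F → E} {f : E → F} {x : E} (hg : AnalyticAt ℂ g (f x))
    (hf : AnalyticAt ℂ f x) (h : ∀ᶠ y in 𝓝 x, g (f y) = y) (v : E) :
    fderiv ℂ g (f x) (fderiv ℂ f x v) = v := by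
  have h1 : fderiv ℂ (fun y => g (f y)) x = fderiv ℂ (fun y : E => y) x :=
    EventuallyEq.fderiv_eq h
  rw [fderiv_comp_an hg hf, fderiv_fun_id] at h1
  exact congr($h1 v)

theorem injective_fderiv_of_leftInv {g : F → E} {f : E → F} {x : E} (hg : AnalyticAt ℂ g (f x))
    (hf : AnalyticAt ℂ f x) (h : ∀ᶠ y in 𝓝 x, g (f y) = y) : Injective (fderiv ℂ f x) :=
  LeftInverse.injective (fderiv_leftInv hg hf h)

/-- A linear complement of the range of an injective linear map. -/
theorem exists_compl_range [FiniteDimensional ℂ E] [FiniteDimensional ℂ F] (l : E →L[ℂ] F)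
    (hl : Injective l) {n : ℕ} (hn : Module.finrank ℂ E + n = Module.finrank ℂ F) :
    ∃ j : (Fin n → ℂ) →L[ℂ] F, Bijective (l.coprod j) := by
  obtain ⟨K, hK⟩ := (LinearMap.range (l : E →ₗ[ℂ] F)).exists_isCompl
  have h1 := Submodule.finrank_add_eq_of_isCompl hK
  rw [LinearMap.finrank_range_of_inj hl] at h1
  have h2 : Module.finrank ℂ (Fin n → ℂ) = Module.finrank ℂ K := by
    rw [Module.finrank_fin_fun]; omega
  let e : (Fin n → ℂ) ≃ₗ[ℂ] K := LinearEquiv.ofFinrankEq _ _ h2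
  refine ⟨LinearMap.toContinuousLinearMap (K.subtype ∘ₗ e.toLinearMap), ?_⟩
  apply bijective_of_surjective
  · intro y
    have : y ∈ LinearMap.range (l : E →ₗ[ℂ] F) ⊔ K := by rw [hK.sup_eq_top]; trivial
    obtain ⟨_, ⟨a, rfl⟩, b, hb, rfl⟩ := Submodule.mem_sup.1 this
    exact ⟨(a, e.symm ⟨b, hb⟩), by simp⟩
  · rw [Module.finrank_prod, Module.finrank_fin_fun, hn]

/-- A linear parametrization of the kernel and a projection to it. -/
theorem exists_compl_ker [FiniteDimensional ℂ E] [FiniteDimensional ℂ F] (l : E →L[ℂ] F)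
    (hl : Surjective l) {n : ℕ} (hn : n + Module.finrank ℂ F = Module.finrank ℂ E) :
    ∃ p : E →L[ℂ] (Fin n → ℂ), Bijective (p.prod l) := by
  have h1 := LinearMap.finrank_range_add_finrank_ker (l : E →ₗ[ℂ] F)
  rw [LinearMap.range_eq_top.2 hl, finrank_top] at h1
  have h2 : Module.finrank ℂ (LinearMap.ker (l : E →ₗ[ℂ] F)) = Module.finrank ℂ (Fin n → ℂ) := by
    rw [Module.finrank_fin_fun]; omega
  let e : LinearMap.ker (l : E →ₗ[ℂ] F) ≃ₗ[ℂ] (Fin n → ℂ) := LinearEquiv.ofFinrankEq _ _ h2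
  obtain ⟨q, hq⟩ := LinearMap.exists_extend (p := LinearMap.ker (l : E →ₗ[ℂ] F)) e.toLinearMap
  refine ⟨LinearMap.toContinuousLinearMap q, ?_⟩
  apply bijective_of_injective
  · rw [injective_iff_map_eq_zero]
    intro v hv
    have h3 : l v = 0 := congrArg Prod.snd hv
    have h4 : q v = 0 := congrArg Prod.fst hv
    have h5 : e ⟨v, h3⟩ = 0 := by rw [← h4]; exact congr($hq ⟨v, h3⟩).symm
    exact congrArg Subtype.val (e.map_eq_zero_iff.1 h5)
  · rw [Module.finrank_prod, Module.finrank_fin_fun, hn]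

/-- An analytic germ with injective derivative has an analytic left inverse. -/
theorem exists_leftInv [FiniteDimensional ℂ E] [FiniteDimensional ℂ F] {f : E → F} {x : E}
    (hf : AnalyticAt ℂ f x) (hi : Injective (fderiv ℂ f x)) :
    ∃ g : F → E, AnalyticAt ℂ g (f x) ∧ ∀ᶠ y in 𝓝 x, g (f y) = y := by
  obtain ⟨p, hp⟩ := ContinuousLinearMap.HasLeftInverse.of_injective_of_finiteDimensional hi
  have h1 : AnalyticAt ℂ (fun y => p (f y)) x := (p.analyticAt _).comp hf
  have h2 : fderiv ℂ (fun y => p (f y)) x = ContinuousLinearMap.id ℂ E := by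
    rw [fderiv_comp_an (p.analyticAt _) hf, p.fderiv]; ext v; exact hp v
  obtain ⟨-, g, hg, -, hl, -⟩ := ift h1 (by rw [h2]; exact bijective_id)
  exact ⟨fun y => g (p y), hg.comp (p.analyticAt _), hl⟩

/-- An analytic local homeomorphism with injective derivative has bijective derivative. -/
theorem surjective_fderiv_of_map_nhds [FiniteDimensional ℂ E] [FiniteDimensional ℂ F] {f : E → F}
    {x : E} (hf : AnalyticAt ℂ f x) (hi : Injective (fderiv ℂ f x))
    (hm : 𝓝 (f x) ≤ map f (𝓝 x)) : Surjective (fderiv ℂ f x) := by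
  obtain ⟨g, hg, hl⟩ := exists_leftInv hf hi
  have hr : ∀ᶠ y in 𝓝 (f x), f (g y) = y := by
    refine hm ?_
    rw [mem_map]
    filter_upwards [hl] with y hy
    change f (g (f y)) = f y
    rw [hy]
  have h0 : g (f x) = x := hl.self_of_nhds
  intro v
  refine ⟨fderiv ℂ g (f x) v, ?_⟩
  have := fderiv_leftInv (g := f) (f := g) (x := f x) (by rwa [h0]) hg hr v
  rwa [h0] at this

/-- Normal form of a submersion: in suitable holomorphic coordinates it is a projection. -/
theorem submersion_form [FiniteDimensional ℂ E] [FiniteDimensional ℂ F] {f : E → F} {x : E}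
    (hf : AnalyticAt ℂ f x) (hs : Surjective (fderiv ℂ f x)) {n : ℕ}
    (hn : n + Module.finrank ℂ F = Module.finrank ℂ E) :
    ∃ (σ : (Fin n → ℂ) × F → E) (τ : E → (Fin n → ℂ) × F), AnalyticAt ℂ σ (0, f x) ∧
      σ (0, f x) = x ∧ AnalyticAt ℂ τ x ∧ τ x = (0, f x) ∧ LH σ (0, f x) ∧
      (∀ᶠ y in 𝓝 x, σ (τ y) = y) ∧ (∀ᶠ z in 𝓝 (0, f x), τ (σ z) = z) ∧ ∀ y, (τ y).2 = f y := by
  obtain ⟨p, hp⟩ := exists_compl_ker _ hs hn
  let τ : E → (Fin n → ℂ) × F := fun y => (p (y - x), f y)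
  have h1 : AnalyticAt ℂ (fun y => p (y - x)) x :=
    (p.analyticAt _).comp (analyticAt_id.sub analyticAt_const)
  have hτ : AnalyticAt ℂ τ x := h1.prod hf
  have hτx : τ x = (0, f x) := by simp [τ]
  have hd : fderiv ℂ τ x = p.prod (fderiv ℂ f x) := by
    have h2 : HasFDerivAt (fun y => p (y - x)) p x := by
      simpa using p.hasFDerivAt.comp x ((hasFDerivAt_id x).sub_const x)
    exact (h2.prodMk hf.differentiableAt.hasFDerivAt).fderiv
  obtain ⟨hL, σ, hσ, h0, hl, hr⟩ := ift hτ (hd ▸ hp)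
  obtain ⟨σ', h0', hL', hl', hr'⟩ := hL.exists_inv
  have heq : σ' =ᶠ[𝓝 (τ x)] σ :=
    hL.eventuallyEq_of_comp hL'.cont hσ.continuousAt h0' h0
      (by filter_upwards [hr, hr'] with y a b using b.trans a.symm)
  rw [hτx] at hσ h0 hr hL' heq
  exact ⟨σ, τ, hσ, h0, hτ, hτx, hL'.congr heq, hl, hr, fun _ => rfl⟩

end IFT

end Vale.Agent.P269.Holo
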