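import Vale.Agent.P269.Holo.Sub

/-!
# Holomorphic slices for actions of complex Lie groups with discrete stabilisers
-/

namespace Vale.Agent.P269.Holo

open Set Function Topology Filter

set_option linter.unusedSectionVars false

variable {G G' : Type*} [Group G] [TopologicalSpace G] [Group G'] [TopologicalSpace G']
  {T T' Z : Type*} [TopologicalSpace T] [TopologicalSpace T'] [TopologicalSpace Z]
  [MulAction G T] {L L' A A' B E F F' : Type*} [NormedAddCommGroup L] [NormedSpace ℂ L]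
  [NormedAddCommGroup L'] [NormedSpace ℂ L'] [NormedAddCommGroup A] [NormedSpace ℂ A]
  [NormedAddCommGroup A'] [NormedSpace ℂ A'] [NormedAddCommGroup B] [NormedSpace ℂ B]
  [NormedAddCommGroup E] [NormedSpace ℂ E] [NormedAddCommGroup F] [NormedSpace ℂ F]
  [NormedAddCommGroup F'] [NormedSpace ℂ F']

/-- `κ` is the exponential map of a complex Lie group. -/
structure IsExp (κ : L → G) : Prop where
  lh : LH κ 0
  cont : Continuous κ
  add : ∀ (s s' : ℂ) (x : L), κ ((s + s') • x) = κ (s • x) * κ (s' • x)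

namespace IsExp

variable {κ : L → G}

theorem zero (h : IsExp κ) : κ 0 = 1 := by
  have := h.add 0 0 0
  simpa using this

theorem neg (h : IsExp κ) (x : L) : κ (-x) = (κ x)⁻¹ := by
  have := h.add 1 (-1) x
  rw [add_neg_cancel, zero_smul, h.zero, one_smul, neg_smul, one_smul] at this
  exact (inv_eq_of_mul_eq_one_right this.symm).symm

theorem tendsto (h : IsExp κ) : Tendsto κ (𝓝 0) (𝓝 1) := h.zero ▸ h.cont.continuousAt

theorem map_nhds (h : IsExp κ) : map κ (𝓝 0) = 𝓝 1 := h.zero ▸ h.lh.map_nhds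

theorem lh_prod (h : IsExp κ) {Y : Type*} [TopologicalSpace Y] (y : Y) :
    LH (fun p : L × Y => (κ p.1, p.2)) (0, y) :=
  h.lh.prodMap (LH.id y)

theorem map_nhds_prod (h : IsExp κ) {Y : Type*} [TopologicalSpace Y] (y : Y) :
    map (fun p : L × Y => (κ p.1, p.2)) (𝓝 (0, y)) = 𝓝 (1, y) := by
  rw [(h.lh_prod y).map_nhds, h.zero]

theorem prod {κ' : L' → G'} (h : IsExp κ) (h' : IsExp κ') : IsExp (Prod.map κ κ') :=
  ⟨h.lh.prodMap h'.lh, h.cont.prodMap h'.cont, fun s s' _ => Prod.ext (h.add s s' _) (h'.add s s' _)⟩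

theorem discrete [DiscreteTopology G] : IsExp (fun _ : Fin 0 → ℂ => (1 : G)) :=
  ⟨IsOpenEmbedding.lh ⟨⟨⟨Subsingleton.elim _ _⟩, fun _ _ _ => Subsingleton.elim _ _⟩,
    isOpen_discrete _⟩ _, continuous_const, fun _ _ _ => (mul_one _).symm⟩

end IsExp

/-- The action is holomorphic at `(1, t)`. -/
def HolAct (κ : L → G) (ι : T → A) (t : T) : Prop :=
  HolAt (Prod.map (fun x : L => x) ι) (fun p : L × T => ι (κ p.1 • p.2)) (0, t)

/-- The infinitesimal action at `t`. -/
noncomputable def inf (κ : L → G) (ι : T → A) (t : T) : L →L[ℂ] A :=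
  fderiv ℂ (fun x => ι (κ x • t)) 0

/-- `φ` is a holomorphic slice at `φ y` (for `E = ℂ^n` and `y = 0` this is `Orb.IsSlice`). -/
def IsSl (G : Type*) [Group G] [TopologicalSpace G] [MulAction G T] (ι : T → A) (φ : E → T)
    (y : E) : Prop :=
  LH (fun x : G × E => x.1 • φ x.2) (1, y) ∧ AnalyticAt ℂ (ι ∘ φ) y ∧
    ∃ w, AnalyticAt ℂ w (ι (φ y)) ∧ ∀ᶠ x in 𝓝 ((1, y) : G × E), w (ι (x.1 • φ x.2)) = x.2

/-- `φ` is a slice in the strong sense: `(x, z) ↦ κ x • φ z` is a parametrization of `T`. -/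
def IsSlK (κ : L → G) (ι : T → A) (φ : E → T) (y : E) : Prop :=
  IsParam ι (fun p : L × E => κ p.1 • φ p.2) (0, y)

namespace HolAct

variable {κ : L → G} {ι : T → A} {t : T}

theorem an_fam {φ : F → T} {y : F} (h : HolAct κ ι (φ y)) (hc : ContinuousAt φ y)
    (ha : AnalyticAt ℂ (fun z => ι (φ z)) y) :
    AnalyticAt ℂ (fun p : L × F => ι (κ p.1 • φ p.2)) (0, y) :=
  HolAt.an_comp (u := fun p : L × F => (p.1, φ p.2)) (x := (0, y)) h
    (continuousAt_fst.prodMk (hc.comp (f := Prod.snd) (x := (0, y)) continuousAt_snd))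
    (analyticAt_fst.prod (ha.comp (f := Prod.snd) (x := (0, y)) analyticAt_snd))

theorem an_orbit (h : HolAct κ ι t) : AnalyticAt ℂ (fun x => ι (κ x • t)) 0 :=
  HolAt.an_comp (u := fun x : L => (x, t)) (x := 0) h (tendsto_inl 0 t)
    (analyticAt_id.prod analyticAt_const)

theorem fderiv_fam {φ : F → T} {y : F} (hκ : IsExp κ) (h : HolAct κ ι (φ y))
    (hc : ContinuousAt φ y) (ha : AnalyticAt ℂ (fun z => ι (φ z)) y) :
    fderiv ℂ (fun p : L × F => ι (κ p.1 • φ p.2)) (0, y) =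
      (inf κ ι (φ y)).coprod (fderiv ℂ (fun z => ι (φ z)) y) := by
  refine ContinuousLinearMap.ext fun p => ?_
  rw [show p = (p.1, p.2) from rfl, fderiv_prod_apply (h.an_fam hc ha)]
  simp [inf, hκ.zero]

theorem inf_mem_tan [ContinuousSMul G T] (hκ : IsExp κ) (h : HolAct κ ι t) (v : L) :
    inf κ ι t v ∈ tan ι t := by
  have := fderiv_mem_tan (u := fun x => κ x • t) (x := 0)
    (hκ.cont.smul continuous_const).continuousAt h.an_orbit v
  simpa [hκ.zero, inf] using this

/-- Change of coordinates. -/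
theorem change [ContinuousSMul G T] {ι' : T → A'} (hκ : IsExp κ) (h : HolAct κ ι t)
    (h1 : HolAt ι ι' t) (h2 : HolAt ι' ι t) : HolAct κ ι' t := by
  have h3 : HolAt (Prod.map (fun x : L => x) ι') (fun p : L × T => ι (κ p.1 • p.2)) (0, t) :=
    HolAt.trans h ((HolAt.self (ι := fun x : L => x)).fst.prod h2.snd)
  exact HolAt.comp (u := fun p : L × T => κ p.1 • p.2) (by simpa [hκ.zero] using h1)
    ((hκ.cont.comp continuous_fst).smul continuous_snd).continuousAt h3

/-- Pull-back along an equivariant map. -/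
theorem pull [MulAction G Z] {j : Z → T} {z : Z} (h : HolAct κ ι (j z)) (hj : ContinuousAt j z)
    (he : ∀ (g : G) s, j (g • s) = g • j s) : HolAct κ (fun s => ι (j s)) z :=
  (HolAt.comp (u := Prod.map (fun x : L => x) j) (t' := (0, z)) h
    (continuousAt_id.prodMap' hj) HolAt.self).congr
    (Eventually.of_forall fun p => by simp [he])

theorem prod [MulAction G T'] {ι' : T' → A'} {t' : T'} (h : HolAct κ ι t) (h' : HolAct κ ι' t') :
    HolAct κ (Prod.map ι ι') (t, t') :=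
  (HolAt.comp (u := fun p : L × T × T' => (p.1, p.2.1)) (t' := (0, t, t')) h (by fun_prop)
      (HolAt.of_an (Φ := fun p : L × A × A' => (p.1, p.2.1))
        (analyticAt_fst.prod (analyticAt_fst.comp analyticAt_snd)))).prod
    (HolAt.comp (u := fun p : L × T × T' => (p.1, p.2.2)) (t' := (0, t, t')) h' (by fun_prop)
      (HolAt.of_an (Φ := fun p : L × A × A' => (p.1, p.2.2))
        (analyticAt_fst.prod (analyticAt_snd.comp analyticAt_snd))))

/-- A discrete stabiliser makes the infinitesimal action injective. -/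
theorem inf_injective [ContinuousSMul G T] [CompleteSpace A] (hκ : IsExp κ) (h : HolAct κ ι t)
    (hι : ∀ᶠ s in 𝓝 t, ι s = ι t → s = t) (hs : ∀ᶠ g in 𝓝 (1 : G), g • t = t → g = 1) :
    Injective (inf κ ι t) := by
  rw [injective_iff_map_eq_zero]
  intro v hv
  have ho := h.an_orbit
  obtain ⟨a, ha, he⟩ := h
  have hl : ∀ s : ℂ, HasDerivAt (fun s : ℂ => s • v) v s := fun s => by
    simpa using (hasDerivAt_id s).smul_const v
  have hlc : Tendsto (fun s : ℂ => s • v) (𝓝 0) (𝓝 0) := by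
    simpa using (hl 0).continuousAt.tendsto
  let f : ℂ → A := fun s => ι (κ (s • v) • t)
  have hf0 : f 0 = ι t := by simp [f, hκ.zero]
  have hf : HasDerivAt f 0 0 := by
    have h1 : HasFDerivAt (fun x => ι (κ x • t)) (inf κ ι t) ((0 : ℂ) • v) := by
      rw [zero_smul]; exact ho.differentiableAt.hasFDerivAt
    simpa [hv, Function.comp_def] using h1.comp_hasDerivAt 0 (hl 0)
  have hoc : Tendsto (fun s : ℂ => κ (s • v) • t) (𝓝 0) (𝓝 t) := by
    simpa using (hκ.tendsto.comp hlc).smul (tendsto_const_nhds (x := t))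
  have h2 : ∀ᶠ p : ℂ × ℂ in 𝓝 0 ×ˢ 𝓝 0, f (p.1 + p.2) = a (p.1 • v, f p.2) := by
    have : Tendsto (fun p : ℂ × ℂ => (p.1 • v, κ (p.2 • v) • t)) (𝓝 0 ×ˢ 𝓝 0) (𝓝 (0, t)) :=
      (hlc.comp tendsto_fst).prodMk_nhds (hoc.comp tendsto_snd)
    filter_upwards [this.eventually he] with p hp
    simpa [f, hκ.add, mul_smul] using hp
  have h3 : ∀ᶠ s : ℂ in 𝓝 0, AnalyticAt ℂ a (s • v, ι t) :=
    (hlc.prodMk_nhds tendsto_const_nhds).eventually ha.eventually_analyticAt
  have h4 : ∀ᶠ s : ℂ in 𝓝 0, HasDerivAt f 0 s := by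
    filter_upwards [h2.curry, h3] with s h5 h6
    have h7 : HasDerivAt (fun s' => a (s • v, f s')) 0 0 := by
      have := (hf0 ▸ h6).differentiableAt.hasFDerivAt.comp_hasDerivAt 0
        ((hasDerivAt_const (0 : ℂ) (s • v)).prodMk hf)
      simpa [← Prod.zero_eq_mk, Function.comp_def] using this
    have h8 : HasDerivAt (fun s' => f (s + s')) 0 (s - s) := by
      rw [sub_self]; exact h7.congr_of_eventuallyEq h5
    simpa using h8.comp_sub_const s s
  have h9 : ∀ᶠ s : ℂ in 𝓝 0, f s = ι t := by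
    obtain ⟨ε, hε, hb⟩ := Metric.eventually_nhds_iff_ball.1 h4
    filter_upwards [Metric.ball_mem_nhds 0 hε] with s hs
    rw [← hf0]
    exact Metric.isOpen_ball.is_const_of_deriv_eq_zero (convex_ball 0 ε).isPreconnected
      (fun z hz => (hb z hz).differentiableAt.differentiableWithinAt)
      (fun z hz => (hb z hz).deriv) hs (Metric.mem_ball_self hε)
  have h10 : ∀ᶠ s : ℂ in 𝓝 0, s • v = 0 := by
    have : Tendsto (fun s : ℂ => (s • v, (0 : L))) (𝓝 0) (𝓝 0 ×ˢ 𝓝 0) :=
      hlc.prodMk tendsto_const_nhds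
    filter_upwards [h9, hoc.eventually hι, (hκ.tendsto.comp hlc).eventually hs,
      this.eventually hκ.lh.eventually_inj] with s b c d e
    exact e ((d (c b)).trans hκ.zero.symm)
  obtain ⟨s, h11, h12⟩ := ((h10.filter_mono nhdsWithin_le_nhds).and
    (self_mem_nhdsWithin (a := (0 : ℂ)) (s := {0}ᶜ))).exists
  exact (smul_eq_zero.1 h11).resolve_left h12

end HolAct

theorem eventually_stab [T1Space G] {t : T} (h : Finite (MulAction.stabilizer G t)) :
    ∀ᶠ g in 𝓝 (1 : G), g • t = t → g = 1 := by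
  have h1 : ((MulAction.stabilizer G t : Set G) \ {1}).Finite := (Set.toFinite _).subset sdiff_subset
  filter_upwards [h1.isClosed.isOpen_compl.mem_nhds (by simp)] with g hg h2
  by_contra h3
  exact hg ⟨h2, h3⟩

theorem IsMfd.eventually_eq {ι : T → A} {n : ℕ} {t : T} (h : IsMfd ι n t) :
    ∀ᶠ s in 𝓝 t, ι s = ι t → s = t :=
  (tendsto_id.prodMk (tendsto_const_nhds (x := t))).eventually h.eventually_inj

namespace IsSlK

variable {κ : L → G} {ι : T → A} {φ : E → T} {y : E}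

theorem cont (hκ : IsExp κ) (h : IsSlK κ ι φ y) : ContinuousAt φ y := by
  simpa [Function.comp_def, hκ.zero] using h.lh.cont.comp (f := fun z => (0, z)) (tendsto_inr 0 y)

theorem an (hκ : IsExp κ) (h : IsSlK κ ι φ y) : AnalyticAt ℂ (fun z => ι (φ z)) y := by
  simpa [Function.comp_def, hκ.zero] using
    (IsParam.an h).comp (f := fun z => (0, z)) (analyticAt_const.prod analyticAt_id)

theorem isSl (hκ : IsExp κ) (h : IsSlK κ ι φ y) : IsSl G ι φ y := by
  have h1 := LH.of_comp_right (g := fun x : G × E => x.1 • φ x.2) h.lh (hκ.lh_prod y)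
  obtain ⟨w, h2, -, h3, -, -⟩ := h.exists_inv
  have h4 := h.an hκ
  refine ⟨by simpa [hκ.zero] using h1, h4, fun a => (w a).2,
    analyticAt_snd.comp (by simpa [hκ.zero] using h2), ?_⟩
  rw [← hκ.map_nhds_prod y, eventually_map]
  filter_upwards [h3] with p hp using by rw [hp]

theorem isMfd [FiniteDimensional ℂ L] [FiniteDimensional ℂ E] (hκ : IsExp κ) (h : IsSlK κ ι φ y) :
    IsMfd ι (Module.finrank ℂ L + Module.finrank ℂ E) (φ y) := by
  simpa [hκ.zero] using IsParam.isMfd h Module.finrank_prod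

theorem injective (hκ : IsExp κ) (ha : HolAct κ ι (φ y)) (h : IsSlK κ ι φ y) :
    Injective ((inf κ ι (φ y)).coprod (fderiv ℂ (fun z => ι (φ z)) y)) :=
  ha.fderiv_fam hκ (h.cont hκ) (h.an hκ) ▸ IsParam.injective h

theorem tan_eq (hκ : IsExp κ) (ha : HolAct κ ι (φ y)) (h : IsSlK κ ι φ y) :
    tan ι (φ y) = LinearMap.range
      ((inf κ ι (φ y)).coprod (fderiv ℂ (fun z => ι (φ z)) y) : L × E →ₗ[ℂ] A) := by
  have := IsParam.tan_eq h
  rw [ha.fderiv_fam hκ (h.cont hκ) (h.an hκ)] at this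
  simpa only [hκ.zero, one_smul] using this

theorem mem_tan (hκ : IsExp κ) (ha : HolAct κ ι (φ y)) (h : IsSlK κ ι φ y) {v : A} :
    v ∈ tan ι (φ y) ↔ ∃ x z, inf κ ι (φ y) x + fderiv ℂ (fun z => ι (φ z)) y z = v := by
  rw [h.tan_eq hκ ha]
  exact ⟨fun ⟨p, hp⟩ => ⟨p.1, p.2, hp⟩, fun ⟨x, z, hp⟩ => ⟨(x, z), hp⟩⟩

/-- Transversality to the orbit and the right dimension give a slice. -/
theorem of_transverse [ContinuousSMul G T] [FiniteDimensional ℂ L] [FiniteDimensional ℂ E]
    (hκ : IsExp κ) {m : ℕ} (hm : IsMfd ι m (φ y)) (ha : HolAct κ ι (φ y))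
    (hc : ContinuousAt φ y) (han : AnalyticAt ℂ (fun z => ι (φ z)) y)
    (hi : Injective ((inf κ ι (φ y)).coprod (fderiv ℂ (fun z => ι (φ z)) y)))
    (hd : Module.finrank ℂ L + Module.finrank ℂ E = m) : IsSlK κ ι φ y := by
  obtain ⟨ψ, hψ, h0⟩ := hm
  exact hψ.of_injective (by simp [hκ.zero, h0])
    ((hκ.cont.comp continuous_fst).continuousAt.smul
      (hc.comp (f := Prod.snd) (x := (0, y)) continuousAt_snd)) (ha.an_fam hc han)
    (by rwa [ha.fderiv_fam hκ hc han]) (by rw [Module.finrank_prod, hd, Module.finrank_fin_fun])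

/-- Transversality to the orbit and spanning the tangent space give a slice. -/
theorem of_range [ContinuousSMul G T] [FiniteDimensional ℂ L] [FiniteDimensional ℂ E]
    (hκ : IsExp κ) {m : ℕ} (hm : IsMfd ι m (φ y)) (ha : HolAct κ ι (φ y))
    (hc : ContinuousAt φ y) (han : AnalyticAt ℂ (fun z => ι (φ z)) y)
    (hi : Injective ((inf κ ι (φ y)).coprod (fderiv ℂ (fun z => ι (φ z)) y)))
    (hs : ∀ v ∈ tan ι (φ y), ∃ x z, inf κ ι (φ y) x + fderiv ℂ (fun z => ι (φ z)) y z = v) :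
    IsSlK κ ι φ y := by
  obtain ⟨ψ, hψ, h0⟩ := hm
  refine hψ.of_range (by simp [hκ.zero, h0])
    ((hκ.cont.comp continuous_fst).continuousAt.smul
      (hc.comp (f := Prod.snd) (x := (0, y)) continuousAt_snd)) (ha.an_fam hc han)
    (by rwa [ha.fderiv_fam hκ hc han]) fun v hv => ?_
  obtain ⟨x, z, e⟩ := hs v (by simpa [hκ.zero] using hv)
  exact ⟨(x, z), by rw [ha.fderiv_fam hκ hc han]; exact e⟩

theorem congr {φ' : E → T} (h : IsSlK κ ι φ y) (h' : φ =ᶠ[𝓝 y] φ') : IsSlK κ ι φ' y :=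
  IsParam.congr h (by
    filter_upwards [(continuousAt_snd (p := ((0 : L), y))).eventually h'] with p hp
      using by rw [hp])

theorem comp [FiniteDimensional ℂ L] [FiniteDimensional ℂ F] {u : F → E} {x : F}
    (h : IsSlK κ ι φ (u x)) (hu : AnalyticAt ℂ u x) (hb : Bijective (fderiv ℂ u x)) :
    IsSlK κ ι (fun z => φ (u z)) x := by
  refine IsParam.comp (u := Prod.map (fun x : L => x) u) (y := (0, x)) h
    (analyticAt_fst.prod (hu.comp (f := Prod.snd) (x := (0, x)) analyticAt_snd)) ?_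
  have e := ((hasFDerivAt_id (0 : L)).prodMap (p := (0, x)) hu.differentiableAt.hasFDerivAt).fderiv
  rw [show fderiv ℂ (Prod.map (fun x : L => x) u) (0, x) = _ from e]
  exact bijective_id.prodMap hb

theorem change {ι' : T → A'} (hκ : IsExp κ) (h : IsSlK κ ι φ y) (h1 : HolAt ι ι' (φ y))
    (h2 : HolAt ι' ι (φ y)) : IsSlK κ ι' φ y :=
  IsParam.change h (by simpa [hκ.zero] using h1) (by simpa [hκ.zero] using h2)

/-- A slice is a slice at the nearby points. -/
theorem eventually [ContinuousSMul G T] [CompleteSpace A] [CompleteSpace L] [CompleteSpace E]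
    (h : IsSlK κ ι φ y) : ∀ᶠ z in 𝓝 y, IsSlK κ ι φ z :=
  (tendsto_inr 0 y).eventually (IsParam.eventually h)

/-- Both components of the local inverse are holomorphic. -/
theorem exists_inv (hκ : IsExp κ) (h : IsSlK κ ι φ y) :
    ∃ w : A → L × E, AnalyticAt ℂ w (ι (φ y)) ∧ w (ι (φ y)) = (0, y) ∧
      (∀ᶠ p in 𝓝 (0, y), w (ι (κ p.1 • φ p.2)) = p) ∧
      (∀ᶠ s in 𝓝 (φ y), κ (w (ι s)).1 • φ (w (ι s)).2 = s) ∧ LH (fun s => w (ι s)) (φ y) := by
  simpa only [hκ.zero, one_smul] using IsParam.exists_inv h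

/-- Transition between two slices through the same point. -/
theorem transition (hκ : IsExp κ) (h : IsSlK κ ι φ y) {φ' : F → T} {y' : F} (h0 : φ' y' = φ y)
    (hc : ContinuousAt φ' y') (han : AnalyticAt ℂ (fun z => ι (φ' z)) y') :
    ∃ (γ : F → L) (k : F → E), AnalyticAt ℂ γ y' ∧ AnalyticAt ℂ k y' ∧ γ y' = 0 ∧ k y' = y ∧
      ∀ᶠ z in 𝓝 y', φ' z = κ (γ z) • φ (k z) := by
  obtain ⟨k, h1, h2, h3, -⟩ := IsParam.lift h (by simp [hκ.zero, h0]) hc han
  exact ⟨fun z => (k z).1, fun z => (k z).2, analyticAt_fst.comp h1, analyticAt_snd.comp h1,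
    congrArg Prod.fst h2, congrArg Prod.snd h2, h3⟩

end IsSlK

/-- Existence of slices. -/
theorem IsMfd.exists_slK [ContinuousSMul G T] [FiniteDimensional ℂ L] {κ : L → G} {ι : T → A}
    {t : T} (hκ : IsExp κ) {m n : ℕ} (hm : IsMfd ι m t) (ha : HolAct κ ι t)
    (hi : Injective (inf κ ι t)) (hd : Module.finrank ℂ L + n = m) :
    ∃ φ : (Fin n → ℂ) → T, φ 0 = t ∧ IsSlK κ ι φ 0 := by
  obtain ⟨ψ, hψ, rfl⟩ := id hm
  obtain ⟨k, -, -, -, h4⟩ := hψ.lift (u := fun x => κ x • ψ 0) (y := 0) (by simp [hκ.zero])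
    (hκ.cont.smul continuous_const).continuousAt ha.an_orbit
  have h5 : Injective (fderiv ℂ k 0) :=
    Injective.of_comp (f := fderiv ℂ (fun z => ι (ψ z)) 0) (by rw [inf, h4] at hi; exact hi)
  obtain ⟨j, hj⟩ := exists_compl_range _ h5 (hd.trans (Module.finrank_fin_fun ℂ).symm)
  have h6 : AnalyticAt ℂ (fun z => ι (ψ z)) (j 0) := by rw [map_zero]; exact hψ.an
  refine ⟨fun z => ψ (j z), by simp, IsSlK.of_transverse hκ (by rwa [map_zero])
    (by rwa [map_zero]) (ContinuousAt.comp (by rw [map_zero]; exact hψ.lh.cont)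
      j.continuous.continuousAt) (h6.comp (j.analyticAt _)) ?_
      (by rw [Module.finrank_fin_fun, hd])⟩
  rw [fderiv_comp_an (g := fun z => ι (ψ z)) h6 (j.analyticAt _), map_zero, inf, h4, j.fderiv,
    ← ContinuousLinearMap.comp_coprod]
  exact hψ.injective.comp hj.1

theorem IsMfd.finrank_le [ContinuousSMul G T] {κ : L → G} {ι : T → A} {t : T} (hκ : IsExp κ)
    {m : ℕ} (hm : IsMfd ι m t) (ha : HolAct κ ι t) (hi : Injective (inf κ ι t)) :
    Module.finrank ℂ L ≤ m := by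
  obtain ⟨ψ, hψ, rfl⟩ := id hm
  obtain ⟨k, -, -, -, h4⟩ := hψ.lift (u := fun x => κ x • ψ 0) (y := 0) (by simp [hκ.zero])
    (hκ.cont.smul continuous_const).continuousAt ha.an_orbit
  have h5 : Injective (fderiv ℂ k 0) :=
    Injective.of_comp (f := fderiv ℂ (fun z => ι (ψ z)) 0) (by rw [inf, h4] at hi; exact hi)
  simpa using LinearMap.finrank_le_finrank_of_injective 
    (f := (fderiv ℂ k 0 : L →ₗ[ℂ] (Fin m → ℂ))) h5

namespace IsSl

variable {ι : T → A} {φ : E → T} {y : E}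

theorem cont (h : IsSl G ι φ y) : ContinuousAt φ y := by
  simpa [Function.comp_def] using h.1.cont.comp (f := fun z => (1, z)) (tendsto_inr 1 y)

/-- On a manifold with a holomorphic action every slice is a slice in the strong sense. -/
theorem isSlK [ContinuousSMul G T] [FiniteDimensional ℂ L] [FiniteDimensional ℂ E]
    [FiniteDimensional ℂ A] {κ : L → G} (hκ : IsExp κ) (hι : ∀ᶠ s in 𝓝 (φ y), ContinuousAt ι s)
    (ha : HolAct κ ι (φ y)) (hi : Injective (inf κ ι (φ y))) (h : IsSl G ι φ y) :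
    IsSlK κ ι φ y := by
  have hc := h.cont
  obtain ⟨h1, h2, w, h3, h4⟩ := h
  have h5 : LH (fun p : L × E => κ p.1 • φ p.2) (0, y) :=
    LH.comp' (g := fun x : G × E => x.1 • φ x.2) h1 (hκ.lh_prod y) (by simp [hκ.zero])
  have h6 := ha.an_fam hc h2
  refine IsParam.of_map_nhds h5.eventually_cont (by simpa [hκ.zero] using hι) h6 ?_
    h5.map_nhds.ge
  rw [← hκ.map_nhds_prod y, eventually_map] at h4
  have h7 : fderiv ℂ (fun p : L × E => w (ι (κ p.1 • φ p.2))) (0, y) = fderiv ℂ Prod.snd (0, y) :=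
    EventuallyEq.fderiv_eq h4
  rw [fderiv_comp_an (f := fun p : L × E => ι (κ p.1 • φ p.2)) (by simpa [hκ.zero] using h3) h6,
    fderiv_snd] at h7
  rw [injective_iff_map_eq_zero]
  rintro ⟨x, z⟩ hp
  obtain rfl : z = 0 := by simpa [hp] using congr($h7 (x, z)).symm
  rw [ha.fderiv_fam hκ hc h2] at hp
  exact Prod.ext (hi (by simpa using hp)) rfl

/-- A slice makes the action locally free: the group component of the local inverse is
equivariant. -/
theorem locFree [ContinuousMul G] (h : IsSl G ι φ y) :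
    ∃ τ : T → G, (∀ᶠ s in 𝓝 (φ y), ContinuousAt τ s) ∧
      ∀ᶠ p in 𝓝 ((1 : G), φ y), τ (p.1 • p.2) = p.1 * τ p.2 := by
  obtain ⟨u, h0, h1, h2, h3⟩ := h.1.exists_inv
  simp only [one_smul] at h0 h1 h3
  refine ⟨fun s => (u s).1, h1.eventually_cont.mono fun s hs => hs.fst, ?_⟩
  have h4 : Tendsto (fun p : G × T => u p.2) (𝓝 (1, φ y)) (𝓝 (1, y)) :=
    h0 ▸ h1.cont.tendsto.comp continuousAt_snd
  have h5 : Tendsto (fun p : G × T => (p.1 * (u p.2).1, (u p.2).2)) (𝓝 (1, φ y)) (𝓝 (1, y)) := by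
    have := (continuousAt_fst.tendsto.mul (continuousAt_fst.tendsto.comp h4)).prodMk_nhds
      (continuousAt_snd.tendsto.comp h4)
    simpa using this
  filter_upwards [h5.eventually h2, (continuousAt_snd (p := ((1 : G), φ y))).eventually h3]
    with p a b
  rw [mul_smul, b] at a
  rw [a]

end IsSl

end Vale.Agent.P269.Holo
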