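import Vale.Agent.P269.Holo.Param

/-!
# Submanifolds: zero sets of submersions, clean zero sets, products, open subsets
-/

namespace Vale.Agent.P269.Holo

open Set Function Topology Filter

variable {T T' Z : Type*} [TopologicalSpace T] [TopologicalSpace T'] [TopologicalSpace Z]
  {A A' B C E F : Type*} [NormedAddCommGroup A] [NormedSpace ℂ A]
  [NormedAddCommGroup A'] [NormedSpace ℂ A'] [NormedAddCommGroup B] [NormedSpace ℂ B]
  [NormedAddCommGroup C] [NormedSpace ℂ C] [NormedAddCommGroup E] [NormedSpace ℂ E]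
  [NormedAddCommGroup F] [NormedSpace ℂ F]

theorem tendsto_inl {X Y : Type*} [TopologicalSpace X] [TopologicalSpace Y] (x : X) (y : Y) :
    Tendsto (fun z => (z, y)) (𝓝 x) (𝓝 (x, y)) :=
  (Continuous.prodMk_left y).continuousAt

theorem tendsto_inr {X Y : Type*} [TopologicalSpace X] [TopologicalSpace Y] (x : X) (y : Y) :
    Tendsto (fun z => (x, z)) (𝓝 y) (𝓝 (x, y)) :=
  (Continuous.prodMk_right x).continuousAt

theorem fderiv_inl {f : E × F → B} {x : E} {y : F} (hf : AnalyticAt ℂ f (x, y)) (v : E) :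
    fderiv ℂ (fun z => f (z, y)) x v = fderiv ℂ f (x, y) (v, 0) := by
  rw [fderiv_comp_an (f := fun z => (z, y)) hf (analyticAt_id.prod analyticAt_const),
    (hasFDerivAt_prodMk_left x y).fderiv]
  rfl

theorem fderiv_inr {f : E × F → B} {x : E} {y : F} (hf : AnalyticAt ℂ f (x, y)) (v : F) :
    fderiv ℂ (fun z => f (x, z)) y v = fderiv ℂ f (x, y) (0, v) := by
  rw [fderiv_comp_an (f := fun z => (x, z)) hf (analyticAt_const.prod analyticAt_id),
    (hasFDerivAt_prodMk_right x y).fderiv]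
  rfl

theorem fderiv_prod_apply {f : E × F → B} {x : E} {y : F} (hf : AnalyticAt ℂ f (x, y)) (v : E)
    (u : F) : fderiv ℂ f (x, y) (v, u) =
      fderiv ℂ (fun z => f (z, y)) x v + fderiv ℂ (fun z => f (x, z)) y u := by
  rw [fderiv_inl hf, fderiv_inr hf, ← map_add]; simp

namespace IsParam

variable {ι : T → A} {ψ : E → T} {x : E}

/-- A subspace that is a coordinate plane in a parametrization is a manifold. -/
theorem restrict {σ : F × B → T} {y : F} {b : B} (h : IsParam ι σ (y, b)) {j : Z → T}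
    (hj : IsEmbedding j) (hr : ∀ᶠ p in 𝓝 (y, b), σ p ∈ range j ↔ p.2 = b) :
    ∃ φ : F → Z, IsParam (fun z => ι (j z)) φ y ∧ ∀ᶠ y' in 𝓝 y, j (φ y') = σ (y', b) := by
  obtain ⟨z, hz⟩ := hr.self_of_nhds.2 rfl
  have : Nonempty Z := ⟨z⟩
  let φ : F → Z := fun y' => invFun j (σ (y', b))
  have h1 : ∀ᶠ y' in 𝓝 y, j (φ y') = σ (y', b) := by
    filter_upwards [(tendsto_inl y b).eventually hr] with y' hy using invFun_eq (hy.2 rfl)
  have h0 : j (φ y) = σ (y, b) := h1.self_of_nhds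
  obtain ⟨w, h2, h3, h4, h5, h6⟩ := h.exists_inv
  have h7 : ∀ᶠ y' in 𝓝 y, (w (ι (j (φ y')))).1 = y' := by
    filter_upwards [h1, (tendsto_inl y b).eventually h4] with y' a c using by rw [a, c]
  have hjc : Tendsto j (𝓝 (φ y)) (𝓝 (σ (y, b))) := h0 ▸ hj.continuous.continuousAt
  have hwc : Tendsto (fun z => w (ι (j z))) (𝓝 (φ y)) (𝓝 (y, b)) := by
    have := h6.cont.tendsto.comp hjc
    rwa [h3] at this
  refine ⟨φ, ⟨LH.of_inv (fun z => (w (ι (j z))).1) ?_ ?_ h7 ?_, ?_, fun a => (w a).1, ?_, h7⟩, h1⟩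
  · filter_upwards [h1.eventually_nhds, (tendsto_inl y b).eventually h.lh.eventually_cont]
      with y' a c
    rw [hj.isInducing.continuousAt_iff]
    exact (c.comp (f := fun z => (z, b)) (Continuous.prodMk_left b).continuousAt).congr
      (by filter_upwards [a] with z hz using hz.symm)
  · filter_upwards [hjc.eventually h6.eventually_cont] with z a
      using (a.comp hj.continuous.continuousAt).fst
  · filter_upwards [hjc.eventually h5, hwc.eventually hr,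
      (continuousAt_fst.tendsto.comp hwc).eventually h1] with z a c d
    apply hj.injective
    have e : (w (ι (j z))).2 = b := c.1 (by rw [a]; exact mem_range_self z)
    rw [show j (φ (w (ι (j z))).1) = _ from d, comp_apply, ← e, a]
  · exact (h.an.comp (f := fun z => (z, b)) (analyticAt_id.prod analyticAt_const)).congr
      (by filter_upwards [h1] with z hz using by simp [hz])
  · exact AnalyticAt.comp analyticAt_fst (by beta_reduce; rwa [h0])

/-- Normal form of a holomorphic submersion `T → B`. -/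
theorem submersion [FiniteDimensional ℂ E] [FiniteDimensional ℂ B] (h : IsParam ι ψ x) {f : T → B}
    (hf : AnalyticAt ℂ (fun z => f (ψ z)) x) (hs : Surjective (fderiv ℂ (fun z => f (ψ z)) x))
    {n : ℕ} (hn : n + Module.finrank ℂ B = Module.finrank ℂ E) :
    ∃ σ : (Fin n → ℂ) × B → E, AnalyticAt ℂ σ (0, f (ψ x)) ∧ σ (0, f (ψ x)) = x ∧
      Bijective (fderiv ℂ σ (0, f (ψ x))) ∧ IsParam ι (fun p => ψ (σ p)) (0, f (ψ x)) ∧
      ∀ᶠ p in 𝓝 (0, f (ψ x)), f (ψ (σ p)) = p.2 := by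
  obtain ⟨σ, τ, h1, h2, h3, h4, -, -, h5, h6⟩ := submersion_form hf hs hn
  have hb : Bijective (fderiv ℂ σ (0, f (ψ x))) :=
    bijective_of_injective _ (injective_fderiv_of_leftInv (by rwa [h2]) h1 h5)
      (by rw [Module.finrank_prod, Module.finrank_fin_fun, hn])
  exact ⟨σ, h1, h2, hb, IsParam.comp (by rwa [h2]) h1 hb,
    by filter_upwards [h5] with p hp using by rw [← h6, hp]⟩

theorem fderiv_comp_eq (h : IsParam ι ψ x) {Φ : A → B} (hΦ : AnalyticAt ℂ Φ (ι (ψ x))) :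
    fderiv ℂ (fun z => Φ (ι (ψ z))) x =
      (fderiv ℂ Φ (ι (ψ x))).comp (fderiv ℂ (fun z => ι (ψ z)) x) :=
  fderiv_comp_an (f := fun z => ι (ψ z)) hΦ h.an

theorem surjective_iff (h : IsParam ι ψ x) {Φ : A → B} (hΦ : AnalyticAt ℂ Φ (ι (ψ x))) :
    Surjective (fderiv ℂ (fun z => Φ (ι (ψ z))) x) ↔
      ∀ b, ∃ v ∈ tan ι (ψ x), fderiv ℂ Φ (ι (ψ x)) v = b := by
  rw [h.fderiv_comp_eq hΦ, h.tan_eq]
  refine forall_congr' fun b => ⟨fun ⟨v, hv⟩ => ⟨_, ⟨v, rfl⟩, hv⟩, ?_⟩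
  rintro ⟨_, ⟨v, rfl⟩, hv⟩
  exact ⟨v, hv⟩

/-- The tangent space of a level set in normal form. -/
theorem tan_level {σ : F × B → T} {y : F} {b : B} (h : IsParam ι σ (y, b)) {j : Z → T}
    {φ : F → Z} (hφ : IsParam (fun z => ι (j z)) φ y) (h1 : ∀ᶠ y' in 𝓝 y, j (φ y') = σ (y', b))
    {Φ : A → B} (hΦ : AnalyticAt ℂ Φ (ι (σ (y, b)))) (h2 : ∀ᶠ p in 𝓝 (y, b), Φ (ι (σ p)) = p.2) :
    tan (fun z => ι (j z)) (φ y) =
      tan ι (σ (y, b)) ⊓ LinearMap.ker (fderiv ℂ Φ (ι (σ (y, b))) : A →ₗ[ℂ] B) := by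
  have h3 : fderiv ℂ (fun p => Φ (ι (σ p))) (y, b) = fderiv ℂ Prod.snd (y, b) :=
    EventuallyEq.fderiv_eq h2
  rw [h.fderiv_comp_eq hΦ, fderiv_snd] at h3
  have h4 : ∀ p, fderiv ℂ Φ (ι (σ (y, b))) (fderiv ℂ (fun p => ι (σ p)) (y, b) p) = p.2 :=
    fun p => congr($h3 p)
  have h5 : fderiv ℂ (fun z => ι (j (φ z))) y = fderiv ℂ (fun z => ι (σ (z, b))) y :=
    EventuallyEq.fderiv_eq (by filter_upwards [h1] with z hz using by rw [hz])
  rw [hφ.tan_eq, h.tan_eq, h5]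
  ext v
  constructor
  · rintro ⟨u, rfl⟩
    have := fderiv_inl h.an u
    exact ⟨⟨(u, 0), this.symm⟩, by
      change fderiv ℂ Φ _ (fderiv ℂ (fun z => ι (σ (z, b))) y u) = 0
      rw [this, h4]⟩
  · rintro ⟨⟨⟨u, c⟩, rfl⟩, hv⟩
    obtain rfl : c = 0 := (h4 (u, c)).symm.trans hv
    exact ⟨u, fderiv_inl h.an u⟩

/-- A holomorphic family in a subspace `Z` of the zero set of `Φ` that fills the kernel of `dΦ` is a
parametrization of `Z`; moreover `Z` is the zero set of `Φ` near the base point. -/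
theorem of_clean [FiniteDimensional ℂ E] [FiniteDimensional ℂ F] [FiniteDimensional ℂ B]
    (h : IsParam ι ψ x) {j : Z → T} (hj : IsEmbedding j) {φ : F → Z} {y : F}
    (h0 : j (φ y) = ψ x) (hc : ContinuousAt φ y) (ha : AnalyticAt ℂ (fun z => ι (j (φ z))) y)
    (hi : Injective (fderiv ℂ (fun z => ι (j (φ z))) y)) {Φ : A → B}
    (hΦ : AnalyticAt ℂ Φ (ι (ψ x))) (hZ : ∀ᶠ s in 𝓝 (ψ x), s ∈ range j → Φ (ι s) = 0)
    (hk : ∀ v ∈ tan ι (ψ x), fderiv ℂ Φ (ι (ψ x)) v = 0 →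
      ∃ u, fderiv ℂ (fun z => ι (j (φ z))) y u = v) :
    IsParam (fun z => ι (j z)) φ y ∧ ∀ᶠ s in 𝓝 (ψ x), Φ (ι s) = 0 → s ∈ range j := by
  obtain ⟨k, k1, k2, k3, k4⟩ := h.lift (u := fun z => j (φ z)) h0
    (hj.continuous.continuousAt.comp hc) ha
  have k5 : Injective (fderiv ℂ k y) := by rw [k4] at hi; exact Injective.of_comp hi
  obtain ⟨r, hr⟩ := Nat.exists_eq_add_of_le
    (LinearMap.finrank_le_finrank_of_injective (f := (fderiv ℂ k y : F →ₗ[ℂ] E)) k5)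
  obtain ⟨i, hb⟩ := exists_compl_range _ k5 hr.symm
  let Θ : F × (Fin r → ℂ) → E := fun p => k p.1 + i p.2
  have hΘ : AnalyticAt ℂ Θ (y, 0) :=
    (k1.comp (f := Prod.fst) (x := (y, 0)) analyticAt_fst).add
      ((i.analyticAt _).comp analyticAt_snd)
  have hΘ0 : Θ (y, 0) = x := by simp [Θ, k2]
  have hΘd : fderiv ℂ Θ (y, 0) = (fderiv ℂ k y).coprod i := by
    have := (k1.differentiableAt.hasFDerivAt.comp (f := Prod.fst) (y, (0 : Fin r → ℂ))
      hasFDerivAt_fst).add (i.hasFDerivAt.comp (y, (0 : Fin r → ℂ)) hasFDerivAt_snd)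
    exact this.fderiv.trans (by ext <;> simp)
  have hσ : IsParam ι (fun p => ψ (Θ p)) (y, 0) := IsParam.comp (by rwa [hΘ0]) hΘ (hΘd ▸ hb)
  let f : E → B := fun z => Φ (ι (ψ z))
  have hf : AnalyticAt ℂ f x := hΦ.comp (f := fun z => ι (ψ z)) h.an
  have hfk : ∀ᶠ z in 𝓝 y, f (k z) = 0 := by
    have : Tendsto (fun z => j (φ z)) (𝓝 y) (𝓝 (ψ x)) :=
      h0 ▸ (hj.continuous.continuousAt.comp hc)
    filter_upwards [k3, this.eventually hZ] with z a b
    simpa only [f, ← a] using b (mem_range_self _)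
  have hfi : Injective ((fderiv ℂ f x).comp i) := by
    rw [injective_iff_map_eq_zero]
    intro u hu
    obtain ⟨v, hv⟩ := hk _ (fderiv_mem_tan h.lh.cont h.an (i u))
      (by have := h.fderiv_comp_eq hΦ; exact (congr($this (i u))).symm.trans hu)
    rw [k4] at hv
    have e : (fderiv ℂ k y).coprod i (v, 0) = (fderiv ℂ k y).coprod i (0, u) := by
      simpa using h.injective hv
    exact (congrArg Prod.snd (hb.1 e)).symm
  obtain ⟨p, hp⟩ := ContinuousLinearMap.HasLeftInverse.of_injective_of_finiteDimensional hfi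
  have hfΘ : AnalyticAt ℂ (fun q => f (Θ q)) (y, 0) :=
    AnalyticAt.comp (g := f) (by rwa [hΘ0]) hΘ
  have hΞ : AnalyticAt ℂ (fun q : F × (Fin r → ℂ) => (q.1, p (f (Θ q)))) (y, 0) :=
    analyticAt_fst.prod ((p.analyticAt _).comp hfΘ)
  have hΞd : Bijective (fderiv ℂ (fun q : F × (Fin r → ℂ) => (q.1, p (f (Θ q)))) (y, 0)) := by
    refine bijective_of_injective _ ?_ rfl
    have e := (hasFDerivAt_fst.prodMk
      (p.hasFDerivAt.comp _ hfΘ.differentiableAt.hasFDerivAt)).fderiv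
    rw [injective_iff_map_eq_zero,
      show fderiv ℂ (fun q : F × (Fin r → ℂ) => (q.1, p (f (Θ q)))) (y, 0) = _ from e,
      fderiv_comp_an (g := f) (by rwa [hΘ0]) hΘ, hΘ0, hΘd]
    rintro ⟨v, u⟩ hv
    obtain rfl : v = 0 := congrArg Prod.fst hv
    have : p (fderiv ℂ f x (i u)) = 0 := by simpa using congrArg Prod.snd hv
    exact Prod.ext rfl ((hp u).symm.trans this)
  have hu0 : ∀ᶠ q in 𝓝 (y, (0 : Fin r → ℂ)), f (Θ q) = 0 → q.2 = 0 := by
    have ht : Tendsto (fun q : F × (Fin r → ℂ) => (q, (q.1, (0 : Fin r → ℂ)))) (𝓝 (y, 0))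
        (𝓝 (y, 0) ×ˢ 𝓝 (y, 0)) :=
      tendsto_id.prodMk ((tendsto_inl y 0).comp continuousAt_fst)
    filter_upwards [ht.eventually (ift hΞ hΞd).1.eventually_inj,
      (continuousAt_fst (p := (y, (0 : Fin r → ℂ)))).eventually hfk] with q a b c
    exact congrArg Prod.snd (a (by simp [c, Θ, b]))
  have hin : ∀ᶠ q in 𝓝 (y, (0 : Fin r → ℂ)), q.2 = 0 → ψ (Θ q) = j (φ q.1) := by
    filter_upwards [(continuousAt_fst (p := (y, (0 : Fin r → ℂ)))).eventually k3] with q a b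
    simp [Θ, a, b]
  have hσc : Tendsto (fun p => ψ (Θ p)) (𝓝 (y, 0)) (𝓝 (ψ x)) := hΘ0 ▸ hσ.lh.cont
  obtain ⟨φ', h1, h2⟩ := hσ.restrict hj (by
    filter_upwards [hu0, hin, hσc.eventually hZ] with q a b c
    exact ⟨fun d => a (c d), fun d => ⟨_, (b d).symm⟩⟩)
  refine ⟨h1.congr ?_, ?_⟩
  · filter_upwards [h2, (tendsto_inl y 0).eventually hin] with z a b
      using hj.injective (a.trans (b rfl))
  · have := hσ.lh.map_nhds
    rw [hΘ0] at this
    rw [← this, eventually_map]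
    filter_upwards [hu0, hin] with q a b c using ⟨_, (b (a c)).symm⟩

end IsParam

theorem tan_le_of_comp {ι : T → A} {u : T' → T} {t' : T'} (hu : ContinuousAt u t') :
    tan (fun s => ι (u s)) t' ≤ tan ι (u t') :=
  fun _ hv Φ h1 h2 => hv Φ h1 (hu.eventually h2)

theorem tan_comp_lh {ι : T → A} {u : T' → T} {t' : T'} (hu : LH u t') :
    tan (fun s => ι (u s)) t' = tan ι (u t') :=
  le_antisymm (tan_le_of_comp hu.cont) fun _ hv Φ h1 h2 =>
    hv Φ h1 (by rwa [← hu.map_nhds, eventually_map])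

namespace IsMfd

variable {ι : T → A} {n m : ℕ} {t : T}

theorem finrank_tan (h : IsMfd ι n t) : Module.finrank ℂ (tan ι t) = n := by
  obtain ⟨ψ, h, rfl⟩ := h
  rw [h.finrank_tan, Module.finrank_fin_fun]

theorem unique (h : IsMfd ι n t) (h' : IsMfd ι m t) : n = m := by
  rw [← h.finrank_tan, ← h'.finrank_tan]

theorem cont (h : IsMfd ι n t) : ContinuousAt ι t := by
  obtain ⟨ψ, h, rfl⟩ := h
  exact h.cont

theorem eventually_inj (h : IsMfd ι n t) : ∀ᶠ p in 𝓝 t ×ˢ 𝓝 t, ι p.1 = ι p.2 → p.1 = p.2 := by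
  obtain ⟨ψ, h, rfl⟩ := h
  exact h.eventually_inj

theorem eventually [CompleteSpace A] (h : IsMfd ι n t) : ∀ᶠ s in 𝓝 t, IsMfd ι n s := by
  obtain ⟨ψ, h, rfl⟩ := h
  rw [← h.lh.map_nhds, eventually_map]
  exact h.eventually.mono fun z hz => hz.isMfd (Module.finrank_fin_fun ℂ)

theorem self [FiniteDimensional ℂ A] (a : A) : IsMfd (fun z : A => z) (Module.finrank ℂ A) a :=
  (IsParam.self a).isMfd rfl

theorem change {ι' : T → A'} (h : IsMfd ι n t) (h1 : HolAt ι ι' t) (h2 : HolAt ι' ι t) :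
    IsMfd ι' n t := by
  obtain ⟨ψ, h, rfl⟩ := h
  exact ⟨ψ, h.change h1 h2, rfl⟩

theorem prod {ι' : T' → A'} {t' : T'} (h : IsMfd ι n t) (h' : IsMfd ι' m t') :
    IsMfd (Prod.map ι ι') (n + m) (t, t') := by
  obtain ⟨ψ, h, rfl⟩ := h
  obtain ⟨φ, h', rfl⟩ := h'
  exact (h.prod h').isMfd (by simp)

theorem tan_prod {ι' : T' → A'} {t' : T'} (h : IsMfd ι n t) (h' : IsMfd ι' m t') :
    tan (Prod.map ι ι') (t, t') = (tan ι t).prod (tan ι' t') := by
  obtain ⟨ψ, h, rfl⟩ := h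
  obtain ⟨φ, h', rfl⟩ := h'
  have h1 := (h.prod h').tan_eq
  have h2 := (h.an.differentiableAt.hasFDerivAt.prodMap (p := (0, 0))
    h'.an.differentiableAt.hasFDerivAt).fderiv
  rw [show tan (Prod.map ι ι') (ψ 0, φ 0) = _ from h1, h.tan_eq, h'.tan_eq,
    show fderiv ℂ (fun z => Prod.map ι ι' (Prod.map ψ φ z)) (0, 0) = _ from h2,
    ← LinearMap.range_prodMap]
  rfl

theorem push {ι' : T' → A'} {u : T → T'} (h : IsMfd ι n t) (hu : LH u t)
    (h1 : HolAt ι (fun s => ι' (u s)) t) (h2 : HolAt (fun s => ι' (u s)) ι t) :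
    IsMfd ι' n (u t) := by
  obtain ⟨ψ, h, rfl⟩ := h
  exact ⟨_, h.push hu h1 h2, rfl⟩

theorem pull {u : T' → T} {t' : T'} (h : IsMfd ι n (u t')) (hu : LH u t') :
    IsMfd (fun s => ι (u s)) n t' := by
  obtain ⟨ψ, h, h0⟩ := h
  obtain ⟨φ, h1, -, h2⟩ := h.pull hu h0.symm
  exact ⟨φ, h2, h1⟩

theorem fderiv_eq_zero (h : IsMfd ι n t) {Φ : A → B} (h1 : AnalyticAt ℂ Φ (ι t))
    (h2 : ∀ᶠ s in 𝓝 t, Φ (ι s) = 0) {v : A} (hv : v ∈ tan ι t) : fderiv ℂ Φ (ι t) v = 0 := by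
  obtain ⟨ψ, h, rfl⟩ := h
  exact h.fderiv_eq_zero h1 h2 hv

/-- The differential of a holomorphic map preserves tangent spaces. -/
theorem fderiv_mem_tan {ι' : T' → A'} {u : T → T'} (h : IsMfd ι n t) (hu : ContinuousAt u t)
    {Φ : A → A'} (h1 : AnalyticAt ℂ Φ (ι t)) (h2 : ∀ᶠ s in 𝓝 t, ι' (u s) = Φ (ι s)) {v : A}
    (hv : v ∈ tan ι t) : fderiv ℂ Φ (ι t) v ∈ tan ι' (u t) := by
  intro Ψ h3 h4
  have h5 : AnalyticAt ℂ Ψ (Φ (ι t)) := by rwa [← h2.self_of_nhds]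
  have := h.fderiv_eq_zero (h5.comp h1)
    (by filter_upwards [h2, hu.eventually h4] with s a b using by rw [comp_apply, ← a, b]) hv
  have e := fderiv_comp_an h5 h1
  rw [show fderiv ℂ (Ψ ∘ Φ) (ι t) = _ from e, ← h2.self_of_nhds] at this
  exact this

/-- The zero set of a submersion is a manifold. -/
theorem sub [FiniteDimensional ℂ B] {j : Z → T} (hj : IsEmbedding j) {z : Z}
    (h : IsMfd ι m (j z)) {Φ : A → B} (hΦ : AnalyticAt ℂ Φ (ι (j z)))
    (hs : ∀ b, ∃ v ∈ tan ι (j z), fderiv ℂ Φ (ι (j z)) v = b)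
    (hZ : ∀ᶠ s in 𝓝 (j z), s ∈ range j ↔ Φ (ι s) = 0) (hn : n + Module.finrank ℂ B = m) :
    IsMfd (fun s => ι (j s)) n z ∧ tan (fun s => ι (j s)) z =
      tan ι (j z) ⊓ LinearMap.ker (fderiv ℂ Φ (ι (j z)) : A →ₗ[ℂ] B) := by
  obtain ⟨ψ, h, h0⟩ := h
  have hz : Φ (ι (j z)) = 0 := hZ.self_of_nhds.1 (mem_range_self z)
  rw [← h0] at hΦ hs hZ hz
  obtain ⟨σ, -, h2, -, h4, h5⟩ := h.submersion (f := fun s => Φ (ι s))
    (hΦ.comp (f := fun z => ι (ψ z)) h.an) ((h.surjective_iff hΦ).2 hs)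
    (hn.trans (Module.finrank_fin_fun ℂ).symm)
  rw [hz] at h2 h4 h5
  have hc : Tendsto (fun p => ψ (σ p)) (𝓝 (0, 0)) (𝓝 (ψ 0)) := by
    have := h4.lh.cont.tendsto
    rwa [h2] at this
  obtain ⟨φ, h6, h7⟩ := h4.restrict hj
    (by filter_upwards [hc.eventually hZ, h5] with p a b using by rw [a, b])
  have h8 : φ 0 = z := hj.injective (by rw [h7.self_of_nhds, h2, h0])
  refine ⟨⟨φ, h6, h8⟩, ?_⟩
  have := h4.tan_level h6 h7 (Φ := Φ) (by rwa [h2]) h5
  beta_reduce at this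
  rwa [h8, h2, h0] at this

/-- The zero set of a submersion of a vector space. -/
theorem zeroSet [FiniteDimensional ℂ A] [FiniteDimensional ℂ B] {j : Z → A} (hj : IsEmbedding j)
    {z : Z} {Φ : A → B} (hΦ : AnalyticAt ℂ Φ (j z)) (hs : Surjective (fderiv ℂ Φ (j z)))
    (hZ : ∀ᶠ s in 𝓝 (j z), s ∈ range j ↔ Φ s = 0)
    (hn : n + Module.finrank ℂ B = Module.finrank ℂ A) :
    IsMfd j n z ∧ tan j z = LinearMap.ker (fderiv ℂ Φ (j z) : A →ₗ[ℂ] B) := by
  have := (IsMfd.self (j z)).sub hj hΦ (fun b => by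
    obtain ⟨v, hv⟩ := hs b
    exact ⟨v, by rw [tan_id]; trivial, hv⟩) hZ hn
  rwa [tan_id, top_inf_eq] at this

/-- Open subsets of a vector space. -/
theorem of_lh [FiniteDimensional ℂ A] {j : Z → A} {z : Z} (hj : LH j z) :
    IsMfd j (Module.finrank ℂ A) z ∧ tan j z = ⊤ :=
  ⟨(IsMfd.self (j z)).pull hj, (tan_comp_lh (ι := fun a : A => a) hj).trans (tan_id _)⟩

end IsMfd

/-- An embedding whose range is a neighbourhood is a local homeomorphism. -/
theorem lh_of_range_mem {j : Z → T} (hj : IsEmbedding j) {z : Z} (h : range j ∈ 𝓝 (j z)) :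
    LH j z := by
  have : Nonempty Z := ⟨z⟩
  have h1 : ∀ᶠ s in 𝓝 (j z), j (invFun j s) = s := by
    filter_upwards [h] with s hs using invFun_eq hs
  refine LH.of_inv (invFun j) (Eventually.of_forall fun _ => hj.continuous.continuousAt) ?_
    (Eventually.of_forall (leftInverse_invFun hj.injective)) h1
  filter_upwards [h1.eventually_nhds] with s hs
  rw [hj.isInducing.continuousAt_iff]
  exact continuousAt_id.congr (by filter_upwards [hs] with s hs using hs.symm)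

end Vale.Agent.P269.Holo
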